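import Vale.Agent.P365.J376.V3

/-!
# P365-T2: the chain on a domain `X` of the torus, abstract absorption profiles

* domain `X : Finset (Tor N)` (`BlkU m X` = union of blocks of side `m`); the index type stays
  `Tor N`, the adjacency matrix is `ATX N X` (sites off `X` are isolated: `Yf = Mf = 0` there);
* labels, patterns, laws, centres: the datum `D : V3` (its own profile `V3.prof` is not used);
* the absorption profile is any `e : (Tor N → D.Λ) → Tor N → ℝ` with `Prf`;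
* test functions: a finite family `F : κ → Tor N → ℝ`, `VecLip`;
* `HC4`, `HB4` = centre hub and bulk hub; `hub_gen` = the cost in any direction `w`.
-/

set_option linter.all false

namespace Vale.Agent.P365.J376

open P365L P365O P365T1 P365L.TL Matrix Complex MeasureTheory Filter Topology Set
open scoped ComplexConjugate ENNReal

/-! ### isolated sites -/

section iso

variable {ι : Type*} [Fintype ι] [DecidableEq ι] {A : Matrix ι ι ℝ} {W : ι → ℂ}

theorem Gr_isolated (hA : A.IsSymm) (hW : ∀ x, (W x).im < 0) {x : ι} (hx : ∀ y, A x y = 0)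
    {a : ι} (ha : a ≠ x) : Gr A W x a = 0 := by
  have h1 : (Kmat A W * Gr A W) x a = 0 := by
    rw [Kmat_mul_Gr hA hW, Matrix.one_apply_ne ha.symm]
  rw [Matrix.mul_apply] at h1
  have h2 : ∀ y, Kmat A W x y * Gr A W y a = if y = x then W x * Gr A W x a else 0 := by
    intro y
    by_cases hy : y = x
    · subst hy
      rw [if_pos rfl, Kmat, Matrix.add_apply, Matrix.map_apply, hx, Matrix.diagonal_apply_eq]
      simp
    · rw [if_neg hy, Kmat, Matrix.add_apply, Matrix.map_apply, hx,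
        Matrix.diagonal_apply_ne _ (Ne.symm hy)]
      simp
  rw [Finset.sum_congr rfl fun y _ => h2 y, Finset.sum_ite_eq' Finset.univ x,
    if_pos (Finset.mem_univ _)] at h1
  rcases mul_eq_zero.1 h1 with h3 | h3
  · have := hW x
    rw [h3] at this
    simp at this
  · exact h3

theorem KK_isolated (hA : A.IsSymm) (hW : ∀ x, (W x).im < 0) {x : ι} (hx : ∀ y, A x y = 0)
    {a : ι} (ha : a ≠ x) : KK A W x a = 0 := by
  rw [KK, Gr_isolated hA hW hx ha]
  simp

theorem Nf_isolated (hA : A.IsSymm) (hW : ∀ x, (W x).im < 0) {x : ι} (hx : ∀ y, A x y = 0)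
    (f : ι → ℝ) : Nf A W f x = 0 := by
  unfold Nf
  refine Finset.sum_eq_zero fun a _ => ?_
  by_cases ha : a = x
  · rw [ha]; ring
  · rw [gw, Gr_symm hA, Gr_isolated hA hW hx ha]
    simp

theorem Yf_isolated (hA : A.IsSymm) (hW : ∀ x, (W x).im < 0) {x : ι} (hx : ∀ y, A x y = 0)
    (f : ι → ℝ) : Yf A W f x = 0 := by
  rw [Yf, Nf_isolated hA hW hx, zero_div]

theorem Mf_isolated (hA : A.IsSymm) (hW : ∀ x, (W x).im < 0) {x : ι} (hx : ∀ y, A x y = 0)
    (f : ι → ℝ) : Mf A W f x = 0 := by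
  unfold Mf
  refine Finset.sum_eq_zero fun a _ => ?_
  by_cases ha : a = x
  · rw [ha]; ring
  · rw [KK_isolated hA hW hx ha]
    simp

end iso

/-! ### the adjacency of a domain -/

/-- adjacency of the domain `X` of the torus (sites off `X` are isolated) -/
noncomputable def ATX (N : ℕ) [NeZero N] (X : Finset (Tor N)) : Matrix (Tor N) (Tor N) ℝ :=
  fun x y => if x ∈ X ∧ y ∈ X then AT N x y else 0

section atx

variable {N : ℕ} [NeZero N] {X : Finset (Tor N)}

theorem ATX_of_mem {x y : Tor N} (hx : x ∈ X) (hy : y ∈ X) : ATX N X x y = AT N x y :=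
  if_pos ⟨hx, hy⟩

theorem ATX_of_not_left {x : Tor N} (hx : x ∉ X) (y : Tor N) : ATX N X x y = 0 :=
  if_neg fun h => hx h.1

theorem ATX_of_not_right {y : Tor N} (hy : y ∉ X) (x : Tor N) : ATX N X x y = 0 :=
  if_neg fun h => hy h.2

theorem ATX_symm (N : ℕ) [NeZero N] (X : Finset (Tor N)) : (ATX N X).IsSymm := by
  ext x y
  rw [Matrix.transpose_apply]
  unfold ATX
  have h := congrFun (congrFun (AT_symm N) x) y
  rw [Matrix.transpose_apply] at h
  by_cases h1 : x ∈ X ∧ y ∈ X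
  · rw [if_pos h1, if_pos h1.symm, h]
  · rw [if_neg h1, if_neg fun h2 => h1 h2.symm]

theorem ATX_univ (N : ℕ) [NeZero N] : ATX N Finset.univ = AT N := by
  ext x y
  exact ATX_of_mem (Finset.mem_univ _) (Finset.mem_univ _)

theorem ATX_zo (x y : Tor N) : ATX N X x y = 0 ∨ ATX N X x y = 1 := by
  unfold ATX AT
  split_ifs <;> simp

theorem ATX_nonneg (x y : Tor N) : 0 ≤ ATX N X x y := by
  rcases ATX_zo (X := X) x y with h | h <;> rw [h]
  exact zero_le_one

theorem ATX_le (x y : Tor N) : ATX N X x y ≤ AT N x y := by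
  unfold ATX
  split_ifs
  · exact le_rfl
  · unfold AT
    split_ifs <;> norm_num

end atx

/-! ### unions of blocks -/

/-- `X` is a union of blocks of side `m` -/
def BlkU {N : ℕ} (m : ℕ) (X : Finset (Tor N)) : Prop :=
  ∀ x y, bi m x = bi m y → (x ∈ X ↔ y ∈ X)

theorem BlkU.dvd {N : ℕ} {m m' : ℕ} {X : Finset (Tor N)} (h : BlkU m' X) (hd : m ∣ m') :
    BlkU m X := by
  obtain ⟨k, rfl⟩ := hd
  intro x y hxy
  refine h x y ?_
  simp only [bi, Prod.mk.injEq] at hxy ⊢
  rw [← Nat.div_div_eq_div_mul, ← Nat.div_div_eq_div_mul, ← Nat.div_div_eq_div_mul,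
    ← Nat.div_div_eq_div_mul, hxy.1, hxy.2]
  exact ⟨rfl, rfl⟩

theorem BlkU.univ {N : ℕ} [NeZero N] (m : ℕ) : BlkU m (Finset.univ : Finset (Tor N)) :=
  fun x y _ => ⟨fun _ => Finset.mem_univ _, fun _ => Finset.mem_univ _⟩

/-! ### profiles and test functions -/

section defs

variable (D : V3) (N : ℕ) [NeZero N]

/-- admissible absorption profile for family `i`: bulk strength `sb`, centre strength `sc`, upper
bound `ε`, upper bound `b1` at the sites which do not move -/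
structure Prf (i : ℕ) (sb sc ε b1 : ℝ) (e : (Tor N → D.Λ) → Tor N → ℝ) : Prop where
  pos : ∀ l x, 0 < e l x
  le : ∀ l x, e l x ≤ ε
  loc : ∀ l l' x, l x = l' x → (∀ j ≤ D.I, (D.cen j l x ↔ D.cen j l' x)) → e l x = e l' x
  mov_ge : ∀ l x, D.mov (l x) → sb * (D.e0 i * Real.exp (-(D.a i))) ≤ e l x
  cen_ge : ∀ l x, D.cen i l x → sc * D.e0 i ≤ e l x
  nm_le : ∀ l x, ¬ D.mov (l x) → e l x ≤ b1

/-- the family `F` is Lipschitz with constant `Λf` as a vector valued function -/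
def VecLip {N : ℕ} [NeZero N] {κ : Type} [Fintype κ] (F : κ → Tor N → ℝ) (Λf : ℝ) : Prop :=
  ∀ x y, ∑ k, (F k x - F k y) ^ 2 ≤ Λf ^ 2 * (nrm (x - y) : ℝ) ^ 2

variable (X : Finset (Tor N)) {κ : Type} [Fintype κ] (F : κ → Tor N → ℝ) (E : ℝ)
  (e : (Tor N → D.Λ) → Tor N → ℝ)

/-- off-resonant energy at `x`, all test functions -/
noncomputable def FY4 (l : Tor N → D.Λ) (x : Tor N) : ℝ≥0∞ :=
  ∑ k, ∫⁻ v, ENNReal.ofReal (Yf (ATX N X) (WV E (e l) v) (F k) x)
    ∂(Measure.pi fun x => D.ν (l x))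

/-- energy content at `x`, all test functions -/
noncomputable def FM4 (l : Tor N → D.Λ) (x : Tor N) : ℝ≥0∞ :=
  ∑ k, ∫⁻ v, ENNReal.ofReal (Mf (ATX N X) (WV E (e l) v) (F k) x)
    ∂(Measure.pi fun x => D.ν (l x))

/-- right side of the hub inequality: the average energy -/
noncomputable def FR4 : ℝ≥0∞ :=
  ∑ l : Tor N → D.Λ, ENNReal.ofReal (∏ x, D.p (l x)) *
    ∑ x, ENNReal.ofReal (e l x) * FM4 D N X F E e l x

/-- (HC4) centre hub of family `i` for the profile `e`, any test function -/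
def HC4 (i : ℕ) (ηc : ℝ) : Prop :=
  ∀ (l : Tor N → D.Λ) (x : Tor N), x ∈ X → D.cen i l x → ∀ f : Tor N → ℝ,
    ∫⁻ v, ENNReal.ofReal (Yf (ATX N X) (WV E (e l) v) f x) ∂(Measure.pi fun x => D.ν (l x)) ≤
    ENNReal.ofReal ηc *
      ∫⁻ v, ENNReal.ofReal (Mf (ATX N X) (WV E (e l) v) f x) ∂(Measure.pi fun x => D.ν (l x))

open Classical in
/-- bulk hub inequality of family `i` for one profile `e`; `ηb / (sb * e0 * exp (-a))` -/
def HBe (i : ℕ) (sb ηb c : ℝ) : Prop :=
  ∑ l : Tor N → D.Λ, ENNReal.ofReal (∏ x, D.p (l x)) *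
    ∑ x, (if x ∈ X ∧ D.mov (l x) ∧ ¬ D.cen i l x then FY4 D N X F E e l x else 0) ≤
  ENNReal.ofReal (ηb / (sb * (D.e0 i * Real.exp (-(D.a i))))) *
    (FR4 D N X F E e + ENNReal.ofReal c)

/-- (HB4) bulk hub of family `i`, all admissible profiles -/
def HB4 (i : ℕ) (sb sc ε b1 ηb c : ℝ) : Prop :=
  ∀ e : (Tor N → D.Λ) → Tor N → ℝ, Prf D N i sb sc ε b1 e → HBe D N X F E e i sb ηb c

end defs

/-! ### elementary facts -/

section facts

variable {D : V3} {N : ℕ} [NeZero N] {X : Finset (Tor N)} {κ : Type} [Fintype κ]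
  {F : κ → Tor N → ℝ} {E : ℝ} {e : (Tor N → D.Λ) → Tor N → ℝ} {i : ℕ} {sb sc ε b1 : ℝ}

theorem WV_im_neg' {e' : Tor N → ℝ} (he : ∀ x, 0 < e' x) (E : ℝ) (v : Tor N → ℝ) (x : Tor N) :
    (WV E e' v x).im < 0 := by
  rw [P365T1.WV_im]
  linarith [he x]

/-- energies off the domain vanish -/
theorem Yf_off {e' v : Tor N → ℝ} {E : ℝ} (he : ∀ x, 0 < e' x) (f : Tor N → ℝ) {x : Tor N}
    (hx : x ∉ X) : Yf (ATX N X) (WV E e' v) f x = 0 :=
  Yf_isolated (ATX_symm N X) (fun y => WV_im_neg' he E v y) (fun y => ATX_of_not_left hx y) f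

theorem Mf_off {e' v : Tor N → ℝ} {E : ℝ} (he : ∀ x, 0 < e' x) (f : Tor N → ℝ) {x : Tor N}
    (hx : x ∉ X) : Mf (ATX N X) (WV E e' v) f x = 0 :=
  Mf_isolated (ATX_symm N X) (fun y => WV_im_neg' he E v y) (fun y => ATX_of_not_left hx y) f

theorem FY4_off (he : ∀ l x, 0 < e l x) (l : Tor N → D.Λ) {x : Tor N} (hx : x ∉ X) :
    FY4 D N X F E e l x = 0 := by
  unfold FY4
  refine Finset.sum_eq_zero fun k _ => ?_
  rw [lintegral_congr fun v => by rw [Yf_off (he l) (F k) hx, ENNReal.ofReal_zero],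
    lintegral_zero]

theorem FM4_off (he : ∀ l x, 0 < e l x) (l : Tor N → D.Λ) {x : Tor N} (hx : x ∉ X) :
    FM4 D N X F E e l x = 0 := by
  unfold FM4
  refine Finset.sum_eq_zero fun k _ => ?_
  rw [lintegral_congr fun v => by rw [Mf_off (he l) (F k) hx, ENNReal.ofReal_zero],
    lintegral_zero]

/-- centre hub, all test functions together -/
theorem FY4_le_of_HC4 {ηc : ℝ} (h : HC4 D N X E e i ηc) (he : ∀ l x, 0 < e l x)
    {l : Tor N → D.Λ} {x : Tor N} (hc : D.cen i l x) :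
    FY4 D N X F E e l x ≤ ENNReal.ofReal ηc * FM4 D N X F E e l x := by
  by_cases hx : x ∈ X
  · unfold FY4 FM4
    rw [Finset.mul_sum]
    exact Finset.sum_le_sum fun k _ => h l x hx hc (F k)
  · rw [FY4_off he l hx]
    exact zero_le

theorem VecLip.one {Λf : ℝ} (hF : VecLip F Λf) (k : κ) (x y : Tor N) :
    (F k x - F k y) ^ 2 ≤ Λf ^ 2 * (nrm (x - y) : ℝ) ^ 2 :=
  (Finset.single_le_sum (f := fun k => (F k x - F k y) ^ 2) (fun k _ => sq_nonneg _)
    (Finset.mem_univ k)).trans (hF x y)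

theorem VecLip.abs_le {Λf : ℝ} (hΛ : 0 ≤ Λf) (hF : VecLip F Λf) (k : κ) (x y : Tor N) :
    |F k x - F k y| ≤ Λf * nrm (x - y) := by
  refine abs_le_of_sq_le_sq ?_ (by positivity)
  rw [mul_pow]
  exact hF.one k x y

/-- the four angle functions -/
theorem VecLip_phi : VecLip (phi N) 2 := by
  intro x y
  have h1 : ∀ k : Fin 4, (phi N k x - phi N k y) ^ 2 ≤ (nrm (x - y) : ℝ) ^ 2 := fun k =>
    sq_le_sq' (by linarith [(abs_le.1 (phi_lip (N := N) k x y)).1])
      (abs_le.1 (phi_lip (N := N) k x y)).2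
  calc ∑ k, (phi N k x - phi N k y) ^ 2 ≤ ∑ _k : Fin 4, (nrm (x - y) : ℝ) ^ 2 :=
        Finset.sum_le_sum fun k _ => h1 k
    _ = 2 ^ 2 * (nrm (x - y) : ℝ) ^ 2 := by
        rw [Finset.sum_const, Finset.card_univ, Fintype.card_fin]
        norm_num

theorem Prf.mono {sb' sc' ε' b1' : ℝ} (h : Prf D N i sb sc ε b1 e) (h0 : 0 ≤ D.e0 i)
    (hb : sb' ≤ sb) (hc : sc' ≤ sc) (hε : ε ≤ ε') (h1 : b1 ≤ b1') :
    Prf D N i sb' sc' ε' b1' e where
  pos := h.pos
  le := fun l x => (h.le l x).trans hε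
  loc := h.loc
  mov_ge := fun l x hm => (mul_le_mul_of_nonneg_right hb (by positivity)).trans (h.mov_ge l x hm)
  cen_ge := fun l x hm => (mul_le_mul_of_nonneg_right hc h0).trans (h.cen_ge l x hm)
  nm_le := fun l x hm => (h.nm_le l x hm).trans h1

/-- **general hub**: cost in any direction `w` which is at most `e / σ` at the centres and at
most `θ` at the other moving sites; `θ = 0`: no bulk hub is needed -/
theorem hub_gen {ρ : Measure ℝ} (h : D.Ok ρ) (hi : i ≤ D.I) {ηc ηb c Ca σ θ : ℝ}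
    (he : Prf D N i sb sc ε b1 e) (hsb : 0 < sb) (hηc : 0 ≤ ηc)
    (hηb : 0 ≤ ηb) (hc : 0 ≤ c) (hCa : 0 ≤ Ca) (hσ : 0 < σ) (hθ : 0 ≤ θ)
    (hcost : ∀ k, D.mov k → CostLe E Ca (D.ν k))
    (HC : HC4 D N X E e i ηc) (HB : θ ≠ 0 → HBe D N X F E e i sb ηb c)
    {w : (Tor N → D.Λ) → Tor N → ℝ} (hw0 : ∀ l x, 0 ≤ w l x)
    (hwm : ∀ l x, ¬ D.mov (l x) → w l x = 0)
    (hwc : ∀ l x, D.cen i l x → σ * w l x ≤ e l x)
    (hwb : ∀ l x, D.mov (l x) → ¬ D.cen i l x → w l x ≤ θ) :
    CostG (ATX N X) D.p D.ν E F e w ≤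
      (Ca * ηc / σ + Ca * (θ * (ηb / (sb * (D.e0 i * Real.exp (-(D.a i))))))) *
        (PhiG (ATX N X) D.p D.ν E F e + c) := by
  classical
  haveI := h.prob
  have h00 := h.e0_pos i hi
  have hden : 0 < sb * (D.e0 i * Real.exp (-(D.a i))) := by positivity
  set η' : ℝ := ηb / (sb * (D.e0 i * Real.exp (-(D.a i)))) with hη'
  have hη'0 : 0 ≤ η' := div_nonneg hηb hden.le
  refine CostG_le_of_lintegral (C := fun _ => Ca) (ATX_symm N X) h.p_nonneg he.pos hw0
    (fun _ => hCa) (fun l x hx => hcost _ ?_) (by positivity) hc ?_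
  · by_contra hcon
    exact hx (hwm l x hcon)
  set P : (Tor N → D.Λ) → ℝ≥0∞ := fun l => ENNReal.ofReal (∏ x, D.p (l x)) with hP
  have hsplit : ∀ l x, ENNReal.ofReal (w l x * Ca) * FY4 D N X F E e l x ≤
      ENNReal.ofReal (Ca * ηc / σ) * (ENNReal.ofReal (e l x) * FM4 D N X F E e l x) +
      ENNReal.ofReal (Ca * θ) *
        (if x ∈ X ∧ D.mov (l x) ∧ ¬ D.cen i l x then FY4 D N X F E e l x else 0) := by
    intro l x
    have hW0 := hw0 l x
    by_cases hlx : D.cen i l x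
    · refine le_trans ?_ le_self_add
      calc ENNReal.ofReal (w l x * Ca) * FY4 D N X F E e l x
          ≤ ENNReal.ofReal (w l x * Ca) * (ENNReal.ofReal ηc * FM4 D N X F E e l x) :=
            mul_le_mul_right (FY4_le_of_HC4 HC he.pos hlx) _
        _ = ENNReal.ofReal (w l x * Ca * ηc) * FM4 D N X F E e l x := by
            rw [← mul_assoc, ← ENNReal.ofReal_mul (mul_nonneg hW0 hCa)]
        _ ≤ ENNReal.ofReal (Ca * ηc / σ * e l x) * FM4 D N X F E e l x := by
            refine mul_le_mul_left (ENNReal.ofReal_le_ofReal ?_) _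
            have h1 := hwc l x hlx
            have h2 : 0 ≤ Ca * ηc := mul_nonneg hCa hηc
            rw [div_mul_eq_mul_div, le_div_iff₀ hσ]
            nlinarith
        _ = _ := by
            rw [ENNReal.ofReal_mul (by positivity), mul_assoc]
    · by_cases hx : x ∈ X
      · by_cases hmv : D.mov (l x)
        · rw [if_pos ⟨hx, hmv, hlx⟩]
          refine le_trans ?_ le_add_self
          have h1 := hwb l x hmv hlx
          refine mul_le_mul_left (ENNReal.ofReal_le_ofReal ?_) _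
          nlinarith
        · rw [hwm l x hmv]
          simp
      · rw [FY4_off he.pos l hx, mul_zero]
        exact zero_le
  have hHB : ENNReal.ofReal (Ca * θ) *
        ∑ l : Tor N → D.Λ, P l * ∑ x,
          (if x ∈ X ∧ D.mov (l x) ∧ ¬ D.cen i l x then FY4 D N X F E e l x else 0) ≤
      ENNReal.ofReal (Ca * θ) *
        (ENNReal.ofReal η' * (FR4 D N X F E e + ENNReal.ofReal c)) := by
    by_cases h0 : θ = 0
    · rw [h0, mul_zero, ENNReal.ofReal_zero, zero_mul, zero_mul]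
    · exact mul_le_mul_right (HB h0) _
  change ∑ l : Tor N → D.Λ, P l * ∑ x, ENNReal.ofReal (w l x * Ca) * FY4 D N X F E e l x ≤
    ENNReal.ofReal (Ca * ηc / σ + Ca * (θ * η')) * (FR4 D N X F E e + ENNReal.ofReal c)
  calc ∑ l : Tor N → D.Λ, P l * ∑ x, ENNReal.ofReal (w l x * Ca) * FY4 D N X F E e l x
      ≤ ∑ l : Tor N → D.Λ, P l * ∑ x,
        (ENNReal.ofReal (Ca * ηc / σ) * (ENNReal.ofReal (e l x) * FM4 D N X F E e l x) +
        ENNReal.ofReal (Ca * θ) *
          (if x ∈ X ∧ D.mov (l x) ∧ ¬ D.cen i l x then FY4 D N X F E e l x else 0)) := by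
        gcongr with l _ x _
        exact hsplit l x
    _ = ENNReal.ofReal (Ca * ηc / σ) * FR4 D N X F E e + ENNReal.ofReal (Ca * θ) *
        ∑ l : Tor N → D.Λ, P l * ∑ x,
          (if x ∈ X ∧ D.mov (l x) ∧ ¬ D.cen i l x then FY4 D N X F E e l x else 0) := by
        rw [FR4, Finset.mul_sum, Finset.mul_sum, ← Finset.sum_add_distrib]
        refine Finset.sum_congr rfl fun l _ => ?_
        rw [Finset.sum_add_distrib, ← Finset.mul_sum, ← Finset.mul_sum]
        ring
    _ ≤ ENNReal.ofReal (Ca * ηc / σ) * FR4 D N X F E e + ENNReal.ofReal (Ca * θ) *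
        (ENNReal.ofReal η' * (FR4 D N X F E e + ENNReal.ofReal c)) := add_le_add le_rfl hHB
    _ ≤ ENNReal.ofReal (Ca * ηc / σ) * (FR4 D N X F E e + ENNReal.ofReal c) +
        ENNReal.ofReal (Ca * (θ * η')) * (FR4 D N X F E e + ENNReal.ofReal c) := by
        refine add_le_add (mul_le_mul_right le_self_add _) (le_of_eq ?_)
        rw [← mul_assoc, ← ENNReal.ofReal_mul (by positivity)]
        congr 2
        ring
    _ = ENNReal.ofReal (Ca * ηc / σ + Ca * (θ * η')) *
        (FR4 D N X F E e + ENNReal.ofReal c) := by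
        rw [← add_mul, ← ENNReal.ofReal_add (by positivity) (by positivity)]

end facts

end Vale.Agent.P365.J376
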