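import Vale.Agent.P365.V4.FlowLoss548
import Mathlib.MeasureTheory.Integral.IntervalIntegral.FundThmCalculus

/-!
# P365-T2, K-FLOW, part 2: integrated forms, `s = exp (-τ)`.
-/

set_option linter.all false

namespace Vale.Agent.P365.J376

open P365L P365O P365T1 P365L.TL Matrix Complex MeasureTheory Filter Topology Set
open scoped ComplexConjugate ENNReal

/-- real variable: a function whose derivative is `-(L + R)` with `0 ≤ L` and `|R| ≤ B` loses at
least `∫ L - B (b - a)` -/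
theorem lintegral_loss_le {a b B : ℝ} (hab : a ≤ b) {Φ L R : ℝ → ℝ}
    (hc : ContinuousOn Φ (Icc a b)) (hd : ∀ t ∈ Ioo a b, HasDerivAt Φ (-(L t + R t)) t)
    (hL : ∀ t ∈ Ioo a b, 0 ≤ L t) (hR : ∀ t ∈ Ioo a b, |R t| ≤ B) :
    ∫⁻ t in Ioo a b, ENNReal.ofReal (L t) ≤ ENNReal.ofReal (Φ a - Φ b + B * (b - a)) := by
  have hd' : ∀ t ∈ Ioo a b, HasDerivAt (fun t => -Φ t + B * t) ((L t + R t) + B) t := by
    intro t ht
    have h1 := (hd t ht).neg.add ((hasDerivAt_id t).const_mul B)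
    simp only [neg_neg, mul_one] at h1
    exact h1
  have hpos : ∀ t ∈ Ioo a b, 0 ≤ (L t + R t) + B := by
    intro t ht
    have := hL t ht
    have := neg_le_of_abs_le (hR t ht)
    linarith
  have hc' : ContinuousOn (fun t => -Φ t + B * t) (Icc a b) :=
    hc.neg.add (by fun_prop)
  have hint := intervalIntegral.integrableOn_deriv_of_nonneg hc' hd' hpos
  have hii : IntervalIntegrable (fun t => (L t + R t) + B) volume a b := by
    rw [intervalIntegrable_iff_integrableOn_Ioc_of_le hab]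
    exact hint
  have h2 := intervalIntegral.integral_eq_sub_of_hasDerivAt_of_le hab hc' hd' hii
  rw [intervalIntegral.integral_of_le hab, integral_Ioc_eq_integral_Ioo] at h2
  have h3 : ∫⁻ t in Ioo a b, ENNReal.ofReal (L t) ≤
      ∫⁻ t in Ioo a b, ENNReal.ofReal ((L t + R t) + B) := by
    refine setLIntegral_mono' measurableSet_Ioo fun t ht => ENNReal.ofReal_le_ofReal ?_
    have := neg_le_of_abs_le (hR t ht)
    linarith
  refine h3.trans (le_of_eq ?_)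
  rw [← ofReal_integral_eq_lintegral_ofReal (hint.mono_set Ioo_subset_Ioc_self)
    ((ae_restrict_iff' measurableSet_Ioo).2 (Eventually.of_forall hpos)), h2]
  congr 1
  ring

section gen

variable {ι : Type*} [Fintype ι] [DecidableEq ι] {A : Matrix ι ι ℝ}
  {Λ : Type*} [Fintype Λ] {p : Λ → ℝ} {ν : Λ → Measure ℝ} {E : ℝ}
  {κ : Type*} [Fintype κ] {f : κ → ι → ℝ}

/-- profile of a stage at logarithmic time `τ`: static part plus `exp (-τ)` times the moving
part -/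
noncomputable def eT (u w : (ι → Λ) → ι → ℝ) (τ : ℝ) : (ι → Λ) → ι → ℝ :=
  fun l x => u l x + Real.exp (-τ) * w l x

/-- moving part at logarithmic time `τ` -/
noncomputable def wT (w : (ι → Λ) → ι → ℝ) (τ : ℝ) : (ι → Λ) → ι → ℝ :=
  fun l x => Real.exp (-τ) * w l x

theorem LossG_smul (e w : (ι → Λ) → ι → ℝ) (c : ℝ) :
    LossG A p ν E f e (fun l x => c * w l x) = c * LossG A p ν E f e w := by
  unfold LossG
  rw [Finset.mul_sum]
  refine Finset.sum_congr rfl fun l _ => ?_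
  rw [mul_left_comm]
  congr 1
  rw [Finset.mul_sum]
  exact Finset.sum_congr rfl fun x _ => mul_assoc _ _ _

theorem ErrG_smul (e w : (ι → Λ) → ι → ℝ) (c : ℝ) :
    ErrG A p ν E f e (fun l x => c * w l x) = c * ErrG A p ν E f e w := by
  unfold ErrG
  rw [Finset.mul_sum]
  refine Finset.sum_congr rfl fun l _ => ?_
  rw [mul_left_comm]
  congr 1
  rw [Finset.mul_sum]
  exact Finset.sum_congr rfl fun x _ => mul_assoc _ _ _

theorem YG_smul (e w : (ι → Λ) → ι → ℝ) (c : ℝ) :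
    YG A p ν E f e (fun l x => c * w l x) = c * YG A p ν E f e w := by
  unfold YG
  rw [Finset.mul_sum]
  refine Finset.sum_congr rfl fun l _ => ?_
  rw [mul_left_comm]
  congr 1
  rw [Finset.mul_sum]
  exact Finset.sum_congr rfl fun x _ => mul_assoc _ _ _

/-- **derivative in logarithmic time** -/
theorem hasDerivAt_PhiG_log (hA : A.IsSymm) [∀ k, IsProbabilityMeasure (ν k)] {b Wm : ℝ}
    (hb : 0 < b) (hWm : 0 < Wm) {u w : (ι → Λ) → ι → ℝ} (hub : ∀ l x, b ≤ u l x)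
    (hw0 : ∀ l x, 0 ≤ w l x) (hw1 : ∀ l x, w l x ≤ Wm) (τ : ℝ) :
    HasDerivAt (fun τ : ℝ => PhiG A p ν E f (eT u w τ))
      (-(LossG A p ν E f (eT u w τ) (wT w τ) + ErrG A p ν E f (eT u w τ) (wT w τ))) τ := by
  have h1 := hasDerivAt_PhiG_loss (p := p) (E := E) (f := f) (ν := ν) hA hb hWm hub hw0 hw1
    (s := Real.exp (-τ)) (Real.exp_pos _).le
  have h2 : HasDerivAt (fun τ : ℝ => Real.exp (-τ)) (Real.exp (-τ) * (-1)) τ :=
    (hasDerivAt_neg τ).exp
  have h3 := HasDerivAt.comp τ h1 h2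
  have e1 : LossG A p ν E f (eT u w τ) (wT w τ) =
      Real.exp (-τ) * LossG A p ν E f (eT u w τ) w := LossG_smul _ _ _
  have e2 : ErrG A p ν E f (eT u w τ) (wT w τ) =
      Real.exp (-τ) * ErrG A p ν E f (eT u w τ) w := ErrG_smul _ _ _
  rw [e1, e2]
  have e3 : -(Real.exp (-τ) * LossG A p ν E f (eT u w τ) w +
      Real.exp (-τ) * ErrG A p ν E f (eT u w τ) w) =
      (LossG A p ν E f (fun l x => u l x + Real.exp (-τ) * w l x) w +
        ErrG A p ν E f (fun l x => u l x + Real.exp (-τ) * w l x) w) *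
        (Real.exp (-τ) * (-1)) := by
    unfold eT
    ring
  rw [e3]
  exact h3

theorem eT_pos {b : ℝ} (hb : 0 < b) {u w : (ι → Λ) → ι → ℝ} (hub : ∀ l x, b ≤ u l x)
    (hw0 : ∀ l x, 0 ≤ w l x) (τ : ℝ) (l : ι → Λ) (x : ι) : 0 < eT u w τ l x := by
  have := mul_nonneg (Real.exp_pos (-τ)).le (hw0 l x)
  have := hub l x
  unfold eT
  linarith

theorem wT_nonneg {w : (ι → Λ) → ι → ℝ} (hw0 : ∀ l x, 0 ≤ w l x) (τ : ℝ) (l : ι → Λ) (x : ι) :
    0 ≤ wT w τ l x := mul_nonneg (Real.exp_pos (-τ)).le (hw0 l x)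

/-- **(T-D), loss**: the integrated loss is at most the decrease of the energy plus the law
errors -/
theorem lintegral_LossG_le (hA : A.IsSymm) [∀ k, IsProbabilityMeasure (ν k)]
    (hp : ∀ k, 0 ≤ p k) {b Wm : ℝ} (hb : 0 < b) (hWm : 0 < Wm) {u w : (ι → Λ) → ι → ℝ}
    (hub : ∀ l x, b ≤ u l x) (hw0 : ∀ l x, 0 ≤ w l x) (hw1 : ∀ l x, w l x ≤ Wm) {C B : ℝ}
    (hC0 : 0 ≤ C) (hC : ∀ l x, w l x ≠ 0 → Cau2 E C (ν (l x))) {τ₁ τ₂ : ℝ} (h12 : τ₁ ≤ τ₂)
    (hY : ∀ τ ∈ Ioo τ₁ τ₂, YG A p ν E f (eT u w τ) (wT w τ) ≤ B) :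
    ∫⁻ τ in Ioo τ₁ τ₂, ENNReal.ofReal (LossG A p ν E f (eT u w τ) (wT w τ)) ≤
      ENNReal.ofReal (PhiG A p ν E f (eT u w τ₁) - PhiG A p ν E f (eT u w τ₂) +
        10 * C * B * (τ₂ - τ₁)) := by
  have hd := fun τ => hasDerivAt_PhiG_log (p := p) (E := E) (f := f) (ν := ν) hA hb hWm hub hw0
    hw1 τ
  refine lintegral_loss_le h12 (fun τ _ => (hd τ).continuousAt.continuousWithinAt)
    (fun τ _ => hd τ) (fun τ _ => LossG_nonneg hA hp (eT_pos hb hub hw0 τ)
      (wT_nonneg hw0 τ)) fun τ hτ => ?_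
  refine (abs_ErrG_le hA hp (eT_pos hb hub hw0 τ) (wT_nonneg hw0 τ) (C := C)
    fun l x hx => hC l x fun h0 => hx ?_).trans ?_
  · unfold wT
    rw [h0, mul_zero]
  · exact mul_le_mul_of_nonneg_left (hY τ hτ) (by positivity)

/-- **(T-D), monotonicity**: with `YG ≤ η (PhiG + c)` the energy grows at most by
`exp (10 C η (τ₂ - τ₁))` -/
theorem PhiG_log_le (hA : A.IsSymm) [∀ k, IsProbabilityMeasure (ν k)]
    (hp : ∀ k, 0 ≤ p k) {b Wm : ℝ} (hb : 0 < b) (hWm : 0 < Wm) {u w : (ι → Λ) → ι → ℝ}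
    (hub : ∀ l x, b ≤ u l x) (hw0 : ∀ l x, 0 ≤ w l x) (hw1 : ∀ l x, w l x ≤ Wm) {C η c : ℝ}
    (hC0 : 0 ≤ C) (hC : ∀ l x, w l x ≠ 0 → Cau2 E C (ν (l x))) {τ₁ τ₂ : ℝ} (h12 : τ₁ ≤ τ₂)
    (hY : ∀ τ ∈ Ioo τ₁ τ₂, YG A p ν E f (eT u w τ) (wT w τ) ≤
      η * (PhiG A p ν E f (eT u w τ) + c)) :
    PhiG A p ν E f (eT u w τ₂) + c ≤
      (PhiG A p ν E f (eT u w τ₁) + c) * Real.exp (10 * C * η * (τ₂ - τ₁)) := by
  have hd := fun τ => hasDerivAt_PhiG_log (p := p) (E := E) (f := f) (ν := ν) hA hb hWm hub hw0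
    hw1 τ
  -- reflect time
  have h1 := gron_const (K := 10 * C * η) (a := -τ₂) (b := -τ₁)
    (Φ := fun r => PhiG A p ν E f (eT u w (-r)) + c)
    (Φ' := fun r => LossG A p ν E f (eT u w (-r)) (wT w (-r)) +
      ErrG A p ν E f (eT u w (-r)) (wT w (-r))) (by linarith) ?_ ?_ ?_
  · simp only [neg_neg] at h1
    rw [show -τ₁ - -τ₂ = τ₂ - τ₁ by ring] at h1
    exact h1
  · intro r _
    have h2 : ContinuousAt (fun r : ℝ => PhiG A p ν E f (eT u w (-r)) + c) r :=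
      (ContinuousAt.comp (g := fun τ => PhiG A p ν E f (eT u w τ)) (f := fun r : ℝ => -r)
        (hd (-r)).continuousAt continuous_neg.continuousAt).add continuousAt_const
    exact h2.continuousWithinAt
  · intro r _
    have h2 := (HasDerivAt.comp r (hd (-r)) (hasDerivAt_neg r)).add_const c
    rw [neg_mul_neg, mul_one] at h2
    exact h2
  · intro r hr
    have hr' : -r ∈ Ioo τ₁ τ₂ := ⟨by linarith [hr.2], by linarith [hr.1]⟩
    have h2 := LossG_nonneg (E := E) (f := f) (ν := ν) hA hp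
      (eT_pos hb hub hw0 (-r)) (wT_nonneg hw0 (-r))
    have h3 := abs_ErrG_le (E := E) (f := f) (ν := ν) hA hp (eT_pos hb hub hw0 (-r))
      (wT_nonneg hw0 (-r)) (C := C) fun l x hx => hC l x fun h0 => hx (by
        unfold wT
        rw [h0, mul_zero])
    have h4 := neg_le_of_abs_le h3
    have h5 := hY _ hr'
    have h6 : 10 * C * YG A p ν E f (eT u w (-r)) (wT w (-r)) ≤
        10 * C * (η * (PhiG A p ν E f (eT u w (-r)) + c)) :=
      mul_le_mul_of_nonneg_left h5 (by positivity)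
    nlinarith

end gen

end Vale.Agent.P365.J376
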