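import Vale.Agent.P365.V4.Def

/-!
# P365-T2: the concrete profiles: floor with own-label dependence, two strengths

`V4 N` = `V3` + domain + floor `β k x` (`b ≤ β ≤ b'`, `k` = own label); the profile
`V4.prof i sc sb` of family `i` (stage `i + 1`), strengths `sc` (centres) and `sb` (bulk), is
admissible (`V4.Ok.prf`).
-/

set_option linter.all false

namespace Vale.Agent.P365.J376

open P365L P365O P365T1 P365L.TL Matrix Complex MeasureTheory Filter Topology Set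
open scoped ComplexConjugate ENNReal

/-! ### the worlds -/

/-- data of the chain on a domain of the torus -/
structure V4 (N : ℕ) [NeZero N] extends V3 where
  /-- the domain -/
  X : Finset (Tor N)
  /-- the floor; may depend on the own label -/
  β : Λ → Tor N → ℝ
  /-- upper bound of the floor (`b` is the lower bound) -/
  b' : ℝ

variable {N : ℕ} [NeZero N] (D : V4 N)

/-- static profile: floor and families `j ≥ i` at full strength -/
noncomputable def V4.us (i : ℕ) (l : Tor N → D.Λ) (x : Tor N) : ℝ :=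
  D.β (l x) x + ∑ j ∈ Finset.Ico i (D.I + 1), D.e0 j * D.wf j l x

open Classical in
/-- moving weight of the matched centres of family `i` -/
noncomputable def V4.Wc (i : ℕ) (l : Tor N → D.Λ) (x : Tor N) : ℝ :=
  if D.cen i l x then D.e0 i else 0

open Classical in
/-- moving bulk weight of family `i` (stage `i + 1`) -/
noncomputable def V4.Wb (i : ℕ) (l : Tor N → D.Λ) (x : Tor N) : ℝ :=
  D.t i * D.Ws i l x + if D.mov (l x) ∧ ¬ D.cen i l x then D.e0 i * Real.exp (-(D.a i)) else 0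

/-- profile of family `i` (stage `i + 1`), strengths `sc` of the centres and `sb` of the bulk -/
noncomputable def V4.prof (i : ℕ) (sc sb : ℝ) (l : Tor N → D.Λ) (x : Tor N) : ℝ :=
  D.us (i + 1) l x + sc * D.Wc i l x + sb * D.Wb i l x

/-- standing conditions -/
structure V4.Ok (D : V4 N) (ρ : Measure ℝ) : Prop extends V3.Ok D.toV3 ρ where
  floor_ge : ∀ k x, D.b ≤ D.β k x
  floor_le : ∀ k x, D.β k x ≤ D.b'
  /-- the domain is a union of blocks of every family -/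
  dom : ∀ i ≤ D.I, ∀ x y, bi (D.m i) x = bi (D.m i) y → (x ∈ D.X ↔ y ∈ D.X)

variable {D} {ρ : Measure ℝ}

theorem V4.Ok.b'_pos (h : D.Ok ρ) : 0 < D.b' :=
  h.b_pos.trans_le ((h.floor_ge D.good 0).trans (h.floor_le D.good 0))

theorem V4.Ok.b_le_b' (h : D.Ok ρ) : D.b ≤ D.b' :=
  (h.floor_ge D.good 0).trans (h.floor_le D.good 0)

/-- blocks are inside or outside of the domain -/
theorem V4.Ok.mem_X_iff (h : D.Ok ρ) {i : ℕ} (hi : i ≤ D.I) {x y : Tor N}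
    (hxy : bi (D.m i) x = bi (D.m i) y) : x ∈ D.X ↔ y ∈ D.X := h.dom i hi x y hxy

theorem V4.Ok.us_ge (h : D.Ok ρ) (i : ℕ) (l : Tor N → D.Λ) (x : Tor N) :
    D.b ≤ D.us i l x := by
  unfold V4.us
  refine le_trans (h.floor_ge (l x) x)
    (le_add_of_nonneg_right (Finset.sum_nonneg fun j hj => ?_))
  rw [Finset.mem_Ico] at hj
  exact mul_nonneg (h.e0_pos j (by omega)).le (V3.wf_nonneg j l x)

theorem V4.us_last (l : Tor N → D.Λ) (x : Tor N) : D.us (D.I + 1) l x = D.β (l x) x := by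
  simp [V4.us]

theorem V4.us_succ {i : ℕ} (hi : i ≤ D.I) (l : Tor N → D.Λ) (x : Tor N) :
    D.us i l x = D.us (i + 1) l x + D.e0 i * D.wf i l x := by
  unfold V4.us
  rw [Finset.sum_eq_sum_Ico_succ_bot (show i < D.I + 1 by omega)]
  ring

theorem V4.link {i : ℕ} (hi : i < D.I + 1) (l : Tor N → D.Λ) (x : Tor N) :
    D.us i l x + D.t i * D.Ws i l x = D.us (i + 1) l x + D.Ws (i + 1) l x := by
  rw [V4.us_succ (show i ≤ D.I by omega)]
  simp only [V3.Ws]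
  ring

theorem V4.Wc_of_cen {i : ℕ} {l : Tor N → D.Λ} {x : Tor N} (hc : D.cen i l x) :
    D.Wc i l x = D.e0 i := if_pos hc

theorem V4.Wc_of_not_cen {i : ℕ} {l : Tor N → D.Λ} {x : Tor N} (hc : ¬ D.cen i l x) :
    D.Wc i l x = 0 := if_neg hc

/-- the two weights add up to the weight of the stage -/
theorem V4.Ok.Wc_add_Wb (h : D.Ok ρ) {i : ℕ} (hi : i ≤ D.I) (l : Tor N → D.Λ) (x : Tor N) :
    D.Wc i l x + D.Wb i l x = D.Ws (i + 1) l x := by
  simp only [V3.Ws]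
  unfold V4.Wc V4.Wb V3.wf
  by_cases hc : D.cen i l x
  · rw [if_pos hc, if_pos hc, if_neg fun h2 => h2.2 hc]
    ring
  · rw [if_neg hc, if_neg hc]
    by_cases hm : D.mov (l x)
    · rw [if_pos ⟨hm, hc⟩, if_pos hm]
      ring
    · rw [if_neg fun h2 => hm h2.1, if_neg hm]
      ring

theorem V4.Ok.Wc_nonneg (h : D.Ok ρ) {i : ℕ} (hi : i ≤ D.I) (l : Tor N → D.Λ) (x : Tor N) :
    0 ≤ D.Wc i l x := by
  unfold V4.Wc
  split_ifs
  · exact (h.e0_pos i hi).le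
  · exact le_rfl

theorem V4.Ok.Wb_nonneg (h : D.Ok ρ) {i : ℕ} (hi : i ≤ D.I) (l : Tor N → D.Λ) (x : Tor N) :
    0 ≤ D.Wb i l x := by
  have h1 := h.t_pos i (by omega)
  have h2 := h.toOk.Ws_nonneg (show i ≤ D.I + 1 by omega) l x
  have h3 := h.e0_pos i hi
  unfold V4.Wb
  refine add_nonneg (mul_nonneg h1.le h2) ?_
  split_ifs
  · positivity
  · exact le_rfl

/-- bulk weight at the moving sites which are not centres -/
theorem V4.Ok.Wb_bulk (h : D.Ok ρ) {i : ℕ} (hi : i ≤ D.I) {l : Tor N → D.Λ} {x : Tor N}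
    (hc : ¬ D.cen i l x) : D.Wb i l x = D.Ws (i + 1) l x := by
  rw [← h.Wc_add_Wb hi, V4.Wc_of_not_cen hc, zero_add]

/-- bulk weight at the centres -/
theorem V4.Ok.Wb_cen (h : D.Ok ρ) {i : ℕ} (hi : i ≤ D.I) {l : Tor N → D.Λ} {x : Tor N}
    (hc : D.cen i l x) : D.Wb i l x = D.t i * D.Ws i l x := by
  unfold V4.Wb
  rw [if_neg fun h2 => h2.2 hc, add_zero]

theorem V4.Ok.Wc_of_not_mov (h : D.Ok ρ) {i : ℕ} (hi : i ≤ D.I) {l : Tor N → D.Λ}
    {x : Tor N} (hx : ¬ D.mov (l x)) : D.Wc i l x = 0 :=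
  V4.Wc_of_not_cen fun hc => hx (h.toOk.cen_mov hi hc)

theorem V4.Ok.Wb_of_not_mov (h : D.Ok ρ) {i : ℕ} (hi : i ≤ D.I) {l : Tor N → D.Λ}
    {x : Tor N} (hx : ¬ D.mov (l x)) : D.Wb i l x = 0 := by
  have h1 := h.Wc_add_Wb hi l x
  rw [h.Wc_of_not_mov hi hx, h.toOk.Ws_of_not_mov (by omega) hx] at h1
  linarith

theorem V4.Ok.Wb_le (h : D.Ok ρ) {i : ℕ} (hi : i ≤ D.I) (l : Tor N → D.Λ) (x : Tor N) :
    D.Wb i l x ≤ 2 * (D.e0 i * Real.exp (-(D.a i))) := by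
  have h1 := h.t_small i hi
  have h2 := h.toOk.Ws_le (show i ≤ D.I + 1 by omega) l x
  have h3 := h.t_pos i (by omega)
  have h4 := h.e0_pos i hi
  have h5 : D.t i * D.Ws i l x ≤ D.t i * 33 := mul_le_mul_of_nonneg_left h2 h3.le
  have h6 := Real.exp_pos (-(D.a i))
  have h7 := mul_pos h4 h6
  unfold V4.Wb
  split_ifs <;> linarith

theorem V4.Ok.Wc_le (h : D.Ok ρ) {i : ℕ} (hi : i ≤ D.I) (l : Tor N → D.Λ) (x : Tor N) :
    D.Wc i l x ≤ D.e0 i := by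
  have h4 := h.e0_pos i hi
  unfold V4.Wc
  split_ifs
  · exact le_rfl
  · exact h4.le

/-- one strength: the profile of the stage of `V3`, with the floor -/
theorem V4.Ok.prof_diag (h : D.Ok ρ) {i : ℕ} (hi : i ≤ D.I) (s : ℝ) (l : Tor N → D.Λ)
    (x : Tor N) : D.prof i s s l x = D.us (i + 1) l x + s * D.Ws (i + 1) l x := by
  rw [V4.prof, ← h.Wc_add_Wb hi]
  ring

theorem V4.Ok.prof_ge_us (h : D.Ok ρ) {i : ℕ} (hi : i ≤ D.I) {sc sb : ℝ} (hsc : 0 ≤ sc)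
    (hsb : 0 ≤ sb) (l : Tor N → D.Λ) (x : Tor N) : D.us (i + 1) l x ≤ D.prof i sc sb l x := by
  have h2 := mul_nonneg hsc (h.Wc_nonneg hi l x)
  have h3 := mul_nonneg hsb (h.Wb_nonneg hi l x)
  unfold V4.prof
  linarith

theorem V4.Ok.prof_ge (h : D.Ok ρ) {i : ℕ} (hi : i ≤ D.I) {sc sb : ℝ} (hsc : 0 ≤ sc)
    (hsb : 0 ≤ sb) (l : Tor N → D.Λ) (x : Tor N) : D.b ≤ D.prof i sc sb l x :=
  (h.us_ge (i + 1) l x).trans (h.prof_ge_us hi hsc hsb l x)

theorem V4.Ok.prof_pos (h : D.Ok ρ) {i : ℕ} (hi : i ≤ D.I) {sc sb : ℝ} (hsc : 0 ≤ sc)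
    (hsb : 0 ≤ sb) (l : Tor N → D.Λ) (x : Tor N) : 0 < D.prof i sc sb l x :=
  h.b_pos.trans_le (h.prof_ge hi hsc hsb l x)

theorem V4.Ok.us_nonneg (h : D.Ok ρ) (i : ℕ) (l : Tor N → D.Λ) (x : Tor N) :
    0 ≤ D.us i l x := h.b_pos.le.trans (h.us_ge i l x)

theorem V4.Ok.sc_mul_Wc_le (h : D.Ok ρ) {i : ℕ} (hi : i ≤ D.I) (sc : ℝ) {sb : ℝ}
    (hsb : 0 ≤ sb) (l : Tor N → D.Λ) (x : Tor N) :
    sc * D.Wc i l x ≤ D.prof i sc sb l x := by
  have h1 := h.us_nonneg (i + 1) l x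
  have h3 := mul_nonneg hsb (h.Wb_nonneg hi l x)
  unfold V4.prof
  linarith

theorem V4.Ok.sb_mul_Wb_le (h : D.Ok ρ) {i : ℕ} (hi : i ≤ D.I) {sc : ℝ} (hsc : 0 ≤ sc)
    (sb : ℝ) (l : Tor N → D.Λ) (x : Tor N) :
    sb * D.Wb i l x ≤ D.prof i sc sb l x := by
  have h1 := h.us_nonneg (i + 1) l x
  have h3 := mul_nonneg hsc (h.Wc_nonneg hi l x)
  unfold V4.prof
  linarith

theorem V4.Ok.sb_mul_Ws_le (h : D.Ok ρ) {i : ℕ} (hi : i ≤ D.I) {sc sb : ℝ}
    (hcb : sb ≤ sc) (l : Tor N → D.Λ) (x : Tor N) :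
    sb * D.Ws (i + 1) l x ≤ D.prof i sc sb l x := by
  have h1 := h.us_nonneg (i + 1) l x
  have h3 := mul_nonneg (sub_nonneg.2 hcb) (h.Wc_nonneg hi l x)
  rw [← h.Wc_add_Wb hi]
  unfold V4.prof
  linarith

/-- upper bound of the profile -/
theorem V4.Ok.prof_le (h : D.Ok ρ) {i : ℕ} (hi : i ≤ D.I) {sc sb : ℝ} (hsb : 0 ≤ sb)
    (hsb1 : sb ≤ 1) (hsc : 0 ≤ sc) (hsc1 : sc ≤ 1) (l : Tor N → D.Λ) (x : Tor N) :
    D.prof i sc sb l x ≤ D.b' + ∑ j ∈ Finset.Ico (i + 1) (D.I + 1), D.e0 j + 3 * D.e0 i := by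
  have h1 := h.floor_le (l x) x
  have h2 : ∑ j ∈ Finset.Ico (i + 1) (D.I + 1), D.e0 j * D.wf j l x ≤
      ∑ j ∈ Finset.Ico (i + 1) (D.I + 1), D.e0 j := by
    refine Finset.sum_le_sum fun j hj => ?_
    rw [Finset.mem_Ico] at hj
    have h3 := h.toOk.wf_le (show j ≤ D.I by omega) l x
    have h4 := h.e0_pos j (by omega)
    nlinarith
  have h5 : sc * D.Wc i l x ≤ 1 * D.e0 i :=
    mul_le_mul hsc1 (h.Wc_le hi l x) (h.Wc_nonneg hi l x) zero_le_one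
  have h6 : sb * D.Wb i l x ≤ 1 * (2 * (D.e0 i * 1)) := by
    refine mul_le_mul hsb1 ((h.Wb_le hi l x).trans ?_) (h.Wb_nonneg hi l x) zero_le_one
    have h7 : Real.exp (-(D.a i)) ≤ 1 := Real.exp_le_one_iff.2 (by linarith [h.a_nonneg i hi])
    have h8 := h.e0_pos i hi
    nlinarith
  unfold V4.prof V4.us
  linarith

/-- the weights depend only on the own label and on the centres -/
theorem V3.wf_loc (D : V3) {i : ℕ} {l l' : Tor N → D.Λ} {x : Tor N} (hl : l x = l' x)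
    (hc : D.cen i l x ↔ D.cen i l' x) : D.wf i l x = D.wf i l' x := by
  classical
  unfold V3.wf
  rw [hl]
  by_cases h1 : D.cen i l' x
  · rw [if_pos (hc.2 h1), if_pos h1]
  · rw [if_neg fun h2 => h1 (hc.1 h2), if_neg h1]

theorem V3.Ws_loc (D : V3) {i : ℕ} {l l' : Tor N → D.Λ} {x : Tor N} (hl : l x = l' x)
    (hc : ∀ j < i, (D.cen j l x ↔ D.cen j l' x)) : D.Ws i l x = D.Ws i l' x := by
  induction i with
  | zero =>
    simp only [V3.Ws]
    rw [hl]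
  | succ i ih =>
    simp only [V3.Ws]
    rw [ih fun j hj => hc j (by omega), D.wf_loc hl (hc i (by omega))]

theorem V4.us_loc {i : ℕ} {l l' : Tor N → D.Λ} {x : Tor N} (hl : l x = l' x)
    (hc : ∀ j ≤ D.I, (D.cen j l x ↔ D.cen j l' x)) : D.us i l x = D.us i l' x := by
  unfold V4.us
  rw [hl]
  congr 1
  refine Finset.sum_congr rfl fun j hj => ?_
  rw [Finset.mem_Ico] at hj
  rw [D.toV3.wf_loc hl (hc j (by omega))]

theorem V4.Wc_loc {i : ℕ} {l l' : Tor N → D.Λ} {x : Tor N}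
    (hc : D.cen i l x ↔ D.cen i l' x) : D.Wc i l x = D.Wc i l' x := by
  by_cases h1 : D.cen i l' x
  · rw [V4.Wc_of_cen (hc.2 h1), V4.Wc_of_cen h1]
  · rw [V4.Wc_of_not_cen fun h2 => h1 (hc.1 h2), V4.Wc_of_not_cen h1]

/-- **the concrete profile is admissible** -/
theorem V4.Ok.prf (h : D.Ok ρ) {i : ℕ} (hi : i ≤ D.I) {sc sb : ℝ} (hsb : 0 < sb)
    (hcb : sb ≤ sc) (hsc1 : sc ≤ 1) :
    Prf D.toV3 N i sb sc (D.b' + ∑ j ∈ Finset.Ico (i + 1) (D.I + 1), D.e0 j + 3 * D.e0 i) D.b'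
      (D.prof i sc sb) where
  pos := fun l x => h.prof_pos hi (hsb.le.trans hcb) hsb.le l x
  le := fun l x => h.prof_le hi hsb.le (hcb.trans hsc1) (hsb.le.trans hcb) hsc1 l x
  loc := fun l l' x hl hc => by
    have h1 : D.Ws (i + 1) l x = D.Ws (i + 1) l' x :=
      D.toV3.Ws_loc hl fun j hj => hc j (by omega)
    have h2 := V4.Wc_loc (hc i hi)
    have h3 := h.Wc_add_Wb hi l x
    have h4 := h.Wc_add_Wb hi l' x
    have h5 : D.Wb i l x = D.Wb i l' x := by linarith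
    unfold V4.prof
    rw [V4.us_loc hl hc, h2, h5]
  mov_ge := fun l x hm => by
    have h1 := h.us_nonneg (i + 1) l x
    have h0 := h.e0_pos i hi
    have h6 : Real.exp (-(D.a i)) ≤ 1 := Real.exp_le_one_iff.2 (by linarith [h.a_nonneg i hi])
    by_cases hc : D.cen i l x
    · have h2 := h.sc_mul_Wc_le hi sc hsb.le l x
      rw [V4.Wc_of_cen hc] at h2
      refine le_trans ?_ h2
      exact mul_le_mul hcb (by nlinarith) (by positivity) (hsb.le.trans hcb)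
    · have h2 := h.sb_mul_Wb_le hi (hsb.le.trans hcb) sb l x
      rw [h.Wb_bulk hi hc] at h2
      refine le_trans ?_ h2
      exact mul_le_mul_of_nonneg_left (h.toOk.Ws_bulk hi hm hc).1 hsb.le
  cen_ge := fun l x hc => by
    have h2 := h.sc_mul_Wc_le hi sc hsb.le l x
    rwa [V4.Wc_of_cen hc] at h2
  nm_le := fun l x hm => by
    have h1 : D.us (i + 1) l x = D.β (l x) x := by
      unfold V4.us
      rw [Finset.sum_eq_zero fun j hj => ?_, add_zero]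
      rw [Finset.mem_Ico] at hj
      rw [h.toOk.wf_of_not_mov (by omega) hm, mul_zero]
    unfold V4.prof
    rw [h1, h.Wc_of_not_mov hi hm, h.Wb_of_not_mov hi hm, mul_zero, mul_zero, add_zero, add_zero]
    exact h.floor_le _ _

/-! ### the three directions -/

/-- **one-strength hub** -/
theorem V4.Ok.hub_succ (h : D.Ok ρ) {κ : Type} [Fintype κ] (F : κ → Tor N → ℝ) (E : ℝ)
    {i : ℕ} (hi : i ≤ D.I) {s ηc ηb c Ca : ℝ}
    (hs : 0 < s) (hs1 : s ≤ 1) (hηc : 0 ≤ ηc) (hηb : 0 ≤ ηb) (hc : 0 ≤ c) (hCa : 0 ≤ Ca)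
    (hcost : ∀ k, D.mov k → CostLe E Ca (D.ν k))
    (HC : HC4 D.toV3 N D.X E (D.prof i s s) i ηc)
    (HB : HBe D.toV3 N D.X F E (D.prof i s s) i s ηb c) :
    CostG (ATX N D.X) D.p D.ν E F (fun l x => D.us (i + 1) l x + s * D.Ws (i + 1) l x)
        (D.Ws (i + 1)) ≤
      Ca * (ηc + 2 * ηb) / s *
        (PhiG (ATX N D.X) D.p D.ν E F (fun l x => D.us (i + 1) l x + s * D.Ws (i + 1) l x) +
          c) := by
  have h0 := h.e0_pos i hi
  have h1 := hub_gen h.toOk hi (F := F) (σ := s) (θ := 2 * (D.e0 i * Real.exp (-(D.a i))))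
    (h.prf hi hs le_rfl hs1) hs hηc hηb hc hCa hs (by positivity) hcost HC
    (fun _ => HB) (w := D.Ws (i + 1)) (fun l x => h.toOk.Ws_nonneg (by omega) l x)
    (fun l x hx => h.toOk.Ws_of_not_mov (by omega) hx)
    (fun l x _ => h.sb_mul_Ws_le hi le_rfl l x)
    (fun l x hm hn => (h.toOk.Ws_bulk hi hm hn).2)
  have h2 : D.prof i s s = fun l x => D.us (i + 1) l x + s * D.Ws (i + 1) l x := by
    funext l x
    exact h.prof_diag hi s l x
  rw [h2] at h1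
  refine h1.trans (le_of_eq ?_)
  congr 1
  have h3 := Real.exp_pos (-(D.a i))
  field_simp

/-- **bulk-only hub** -/
theorem V4.Ok.hub_bulk (h : D.Ok ρ) {κ : Type} [Fintype κ] (F : κ → Tor N → ℝ) (E : ℝ)
    {i : ℕ} (hi : i ≤ D.I) {sc sb ηc ηb c Ca : ℝ} (hsb : 0 < sb) (hcb : sb ≤ sc)
    (hsc1 : sc ≤ 1) (hηc : 0 ≤ ηc) (hηb : 0 ≤ ηb) (hc : 0 ≤ c) (hCa : 0 ≤ Ca)
    (hcost : ∀ k, D.mov k → CostLe E Ca (D.ν k))
    (HC : HC4 D.toV3 N D.X E (D.prof i sc sb) i ηc)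
    (HB : HBe D.toV3 N D.X F E (D.prof i sc sb) i sb ηb c) :
    CostG (ATX N D.X) D.p D.ν E F (D.prof i sc sb) (D.Wb i) ≤
      Ca * (ηc + 2 * ηb) / sb * (PhiG (ATX N D.X) D.p D.ν E F (D.prof i sc sb) + c) := by
  have h0 := h.e0_pos i hi
  have h1 := hub_gen h.toOk hi (F := F) (σ := sb) (θ := 2 * (D.e0 i * Real.exp (-(D.a i))))
    (h.prf hi hsb hcb hsc1) hsb hηc hηb hc hCa hsb (by positivity) hcost HC
    (fun _ => HB) (w := D.Wb i) (fun l x => h.Wb_nonneg hi l x)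
    (fun l x hx => h.Wb_of_not_mov hi hx)
    (fun l x _ => h.sb_mul_Wb_le hi (hsb.le.trans hcb) sb l x)
    (fun l x hm hn => h.Wb_le hi l x)
  refine h1.trans (le_of_eq ?_)
  congr 1
  have h3 := Real.exp_pos (-(D.a i))
  field_simp

/-- **centres-only hub**; no bulk hub is needed -/
theorem V4.Ok.hub_cen (h : D.Ok ρ) {κ : Type} [Fintype κ] (F : κ → Tor N → ℝ) (E : ℝ)
    {i : ℕ} (hi : i ≤ D.I) {sc sb ηc c Ca : ℝ} (hsb : 0 < sb) (hcb : sb ≤ sc)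
    (hsc1 : sc ≤ 1) (hηc : 0 ≤ ηc) (hc : 0 ≤ c) (hCa : 0 ≤ Ca)
    (hcost : ∀ k, D.mov k → CostLe E Ca (D.ν k))
    (HC : HC4 D.toV3 N D.X E (D.prof i sc sb) i ηc) :
    CostG (ATX N D.X) D.p D.ν E F (D.prof i sc sb) (D.Wc i) ≤
      Ca * ηc / sc * (PhiG (ATX N D.X) D.p D.ν E F (D.prof i sc sb) + c) := by
  have h1 := hub_gen h.toOk hi (F := F) (σ := sc) (θ := 0) (ηb := 0)
    (h.prf hi hsb hcb hsc1) hsb hηc le_rfl hc hCa (hsb.trans_le hcb) le_rfl hcost HC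
    (fun hn => absurd rfl hn) (w := D.Wc i) (fun l x => h.Wc_nonneg hi l x)
    (fun l x hx => h.Wc_of_not_mov hi hx)
    (fun l x _ => h.sc_mul_Wc_le hi sc hsb.le l x)
    (fun l x _ hn => by rw [V4.Wc_of_not_cen hn])
  refine h1.trans (le_of_eq ?_)
  congr 1
  ring

end Vale.Agent.P365.J376
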