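import Vale.Agent.P365.J376.Bridge
import Vale.Agent.P365.T1a.Mix

/-!
# P365-T2, K-FLOW, part 1: the flow of the energy with the loss kept.

`dEn = loss + law error`, `loss = 2 m_z mu_z²`, `law error = Re (i b_z G_zz²)`; integrated over the
potential of `z` with a law whose second Cauchy transform is bounded, the law error is at most
`10 C Yf` in absolute value (two-sided form of chapter A).
-/

set_option linter.all false

namespace Vale.Agent.P365.J376

open P365L P365O P365T1 P365L.TL Matrix Complex MeasureTheory Filter Topology Set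
open scoped ComplexConjugate ENNReal

/-! ### one site -/

section one

variable {ι : Type*} [Fintype ι] [DecidableEq ι] {A : Matrix ι ι ℝ} {W : ι → ℂ}

/-- the law error -/
noncomputable def lawErr (A : Matrix ι ι ℝ) (W : ι → ℂ) (f : ι → ℝ) (z : ι) : ℝ :=
  (I * bz A W f z * Gr A W z z ^ 2).re

/-- the loss of one site -/
noncomputable def lossS (A : Matrix ι ι ℝ) (W : ι → ℂ) (f : ι → ℝ) (z : ι) : ℝ :=
  2 * (mm A W z * muf A W f z ^ 2)

theorem dEn_split (hA : A.IsSymm) (hW : ∀ x, (W x).im < 0) (f : ι → ℝ) (z : ι) :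
    dEn A W f z = lossS A W f z + lawErr A W f z := dEn_eq hA hW f z

theorem lossS_nonneg (hA : A.IsSymm) (hW : ∀ x, (W x).im < 0) (f : ι → ℝ) (z : ι) :
    0 ≤ lossS A W f z :=
  mul_nonneg (by norm_num) (mul_nonneg (mm_pos hA hW z).le (sq_nonneg _))

/-- `m_z mu_z² ≤ M_z` -/
theorem lossS_le (hA : A.IsSymm) (hW : ∀ x, (W x).im < 0) (f : ι → ℝ) (z : ι) :
    lossS A W f z ≤ 2 * Mf A W f z := by
  have hS := Sf_pos hA hW z
  have h1 := mm_muf_eq hA hW f z
  have h2 := mm_eq_Sf hA hW z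
  have h3 := Bf_sq_le hA hW f z
  have hg : 0 < ‖Gr A W z z‖ ^ 2 := pow_pos (norm_pos_iff.2 (Gr_self_ne_zero hA hW z)) 2
  have hm := mm_pos hA hW z
  have h4 : mm A W z * (mm A W z * muf A W f z ^ 2) ≤ mm A W z * Mf A W f z := by
    calc mm A W z * (mm A W z * muf A W f z ^ 2) = (mm A W z * muf A W f z) ^ 2 := by ring
      _ = Bf A W f z ^ 2 * (‖Gr A W z z‖ ^ 2) ^ 2 := by rw [h1]; ring
      _ ≤ Sf A W z * Nf A W f z * (‖Gr A W z z‖ ^ 2) ^ 2 := by gcongr
      _ = mm A W z * Mf A W f z := by rw [h2, Mf_eq hA hW]; ring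
  have h5 := le_of_mul_le_mul_left h4 hm
  unfold lossS
  linarith

theorem bz_rez (hA : A.IsSymm) (hW : ∀ x, (W x).im < 0) (f : ι → ℝ) (z : ι) (u : ℝ) :
    bz A (rez W z u) f z = bz A W f z := by
  have hv : ((u : ℂ) + ((W z).im : ℂ) * I).im < 0 := by rw [rez_im]; exact hW z
  have h1 : Bf A (rez W z u) f z = Bf A W f z := Bf_upd hA hW hv f
  have h2 : c0 A (rez W z u) f z = c0 A W f z := c0_upd hA hW hv f
  have h4 : Nf A (rez W z u) f z = Nf A W f z := Nf_upd hA hW hv f
  have h3 : Sf A (rez W z u) z = Sf A W z := by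
    unfold Sf
    refine Finset.sum_congr rfl fun a _ => ?_
    have h4 : gw A (rez W z u) z a = gw A W z a := gw_upd hA hW hv a
    rw [h4]
    by_cases ha : a = z
    · subst ha
      rw [rez, Function.update_self, rez_im]
    · rw [rez, Function.update_of_ne ha]
  rw [bz, bz, h1, h2, h3, h4]

theorem lawErr_rez (hA : A.IsSymm) (hW : ∀ x, (W x).im < 0) (f : ι → ℝ) (z : ι) (u : ℝ) :
    lawErr A (rez W z u) f z =
      (I * bz A W f z * (1 / ((u : ℂ) - sz A W z) ^ 2)).re := by
  rw [lawErr, bz_rez hA hW, Gr_rez hA hW, inv_pow, one_div]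

/-- bound on the second Cauchy transform of a law, seen from the energy `E` -/
def Cau2 (E C : ℝ) (ν : Measure ℝ) : Prop :=
  ∀ s : ℂ, 0 < s.im → ‖∫ v, 1 / (((v - E : ℝ) : ℂ) - s) ^ 2 ∂ν‖ ≤ C / (1 + ‖s‖ ^ 2)

theorem Cau2.nonneg {E C : ℝ} {ν : Measure ℝ} (h : Cau2 E C ν) : 0 ≤ C := by
  have h1 := (norm_nonneg _).trans (h I (by simp))
  rw [Complex.norm_I] at h1
  norm_num at h1
  linarith

theorem abs_integral_lawErr_le {ν : Measure ℝ} [IsProbabilityMeasure ν] {E C : ℝ}
    (hC : Cau2 E C ν) (hA : A.IsSymm) (hW : ∀ x, (W x).im < 0) (f : ι → ℝ) (z : ι) :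
    |∫ v, lawErr A (rez W z (v - E)) f z ∂ν| ≤ 10 * C * Yf A W f z := by
  have h1 : (∫ v, lawErr A (rez W z (v - E)) f z ∂ν) =
      (I * bz A W f z * ∫ v, 1 / (((v - E : ℝ) : ℂ) - sz A W z) ^ 2 ∂ν).re := by
    simp only [lawErr_rez hA hW]
    rw [← integral_const_mul]
    refine integral_re (f := fun v : ℝ => I * bz A W f z *
      (1 / (((v - E : ℝ) : ℂ) - sz A W z) ^ 2)) ?_
    refine Integrable.const_mul ?_ _
    have hcont : Continuous fun v : ℝ => 1 / (((v - E : ℝ) : ℂ) - sz A W z) ^ 2 := by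
      simp only [one_div, ← inv_pow]
      exact ((continuous_inv_sub hA hW z).comp (continuous_id.sub continuous_const)).pow 2
    refine Integrable.of_bound hcont.aestronglyMeasurable ((((sz A W z).im)⁻¹) ^ 2)
      (Filter.Eventually.of_forall fun v => ?_)
    rw [one_div, ← inv_pow, norm_pow]
    gcongr
    exact norm_inv_sub_le hA hW z (v - E)
  rw [h1]
  refine (Complex.abs_re_le_norm _).trans ?_
  rw [norm_mul, norm_mul, norm_I, one_mul]
  have h2 := norm_bz_le hA hW f z
  have h3 := hC (sz A W z) (sz_im_pos hA hW z)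
  have h4 := norm_sg_le_norm_sz hA hW z
  have h5 : C / (1 + ‖sz A W z‖ ^ 2) ≤ C / (1 + ‖sg A W z‖ ^ 2) :=
    div_le_div_of_nonneg_left hC.nonneg (by positivity) (by linarith)
  have h6 := Nf_nonneg hW (A := A) f z
  calc ‖bz A W f z‖ * ‖∫ v, 1 / (((v - E : ℝ) : ℂ) - sz A W z) ^ 2 ∂ν‖
      ≤ 10 * Nf A W f z * (C / (1 + ‖sg A W z‖ ^ 2)) :=
        mul_le_mul h2 (h3.trans h5) (norm_nonneg _) (by positivity)
    _ = _ := by rw [Yf]; ring

/-- two-sided cost implies the one-sided one -/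
theorem Cau2.costLe {ν : Measure ℝ} [IsProbabilityMeasure ν] {E C : ℝ} (hC : Cau2 E C ν) :
    CostLe E (10 * C) ν := by
  intro ι _ _ A W f z hA hW
  have h1 := abs_integral_lawErr_le hC hA hW f z
  have h2 : Integrable (fun v => lawErr A (rez W z (v - E)) f z) ν := by
    simp only [lawErr_rez hA hW]
    refine Integrable.re (𝕜 := ℂ) (f := fun v : ℝ => I * bz A W f z *
      (1 / (((v - E : ℝ) : ℂ) - sz A W z) ^ 2)) ?_
    refine Integrable.const_mul ?_ _
    have hcont : Continuous fun v : ℝ => 1 / (((v - E : ℝ) : ℂ) - sz A W z) ^ 2 := by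
      simp only [one_div, ← inv_pow]
      exact ((continuous_inv_sub hA hW z).comp (continuous_id.sub continuous_const)).pow 2
    refine Integrable.of_bound hcont.aestronglyMeasurable ((((sz A W z).im)⁻¹) ^ 2)
      (Filter.Eventually.of_forall fun v => ?_)
    rw [one_div, ← inv_pow, norm_pow]
    gcongr
    exact norm_inv_sub_le hA hW z (v - E)
  have hcm : Continuous fun u => dEn A (rez W z u) f z := by
    simp only [dEn_rez hA hW]
    refine (continuous_const.mul ((continuous_inv_sub hA hW z).norm.pow 4)).add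
      (Complex.continuous_re.comp (continuous_const.mul ?_))
    simp only [one_div, ← inv_pow]
    exact (continuous_inv_sub hA hW z).pow 2
  haveI : IsProbabilityMeasure (ν.map fun v => v - E) :=
    Measure.isProbabilityMeasure_map (measurable_id.sub_const E).aemeasurable
  have h3 : Integrable (fun v => dEn A (rez W z (v - E)) f z) ν := by
    have h4 := integrable_dEn_rez (ν := ν.map fun v => v - E) hA hW f z
    exact (integrable_map_measure hcm.aestronglyMeasurable
      (measurable_id.sub_const E).aemeasurable).1 h4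
  have h5 : ∫ v, lawErr A (rez W z (v - E)) f z ∂ν ≤
      ∫ v, dEn A (rez W z (v - E)) f z ∂ν := by
    refine integral_mono h2 h3 fun v => ?_
    have h6 := dEn_split hA (rez_neg hW z (v - E)) f z
    have h7 := lossS_nonneg hA (rez_neg hW z (v - E)) f z
    show lawErr A (rez W z (v - E)) f z ≤ dEn A (rez W z (v - E)) f z
    linarith
  have h8 := neg_abs_le (∫ v, lawErr A (rez W z (v - E)) f z ∂ν)
  linarith

end one

/-- the smooth law has a bounded second Cauchy transform -/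
theorem cau2_nuS {lam l : ℝ} (hl : 0 < l) (h : l < lam) (E : ℝ) :
    Cau2 E (2 * (1 + E ^ 2) * (5500 * ((1 + 2 * lam ^ 2) / l ^ 2 + 2))) (nuS lam l) := by
  intro s hs
  have hz : (s + (E : ℂ)).im ≠ 0 := by
    rw [Complex.add_im, Complex.ofReal_im, add_zero]
    exact hs.ne'
  have h1 := norm_cauchy2_nuS hl h hz
  have h2 : ∀ v : ℝ, 1 / (((v - E : ℝ) : ℂ) - s) ^ 2 = 1 / ((v : ℂ) - (s + E)) ^ 2 := by
    intro v
    congr 2
    push_cast
    ring
  simp only [h2]
  refine h1.trans ?_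
  have h5 : ‖s‖ ^ 2 ≤ 2 * ‖s + E‖ ^ 2 + 2 * E ^ 2 := by
    have h6 : ‖s‖ ≤ ‖s + E‖ + |E| := by
      calc ‖s‖ = ‖(s + E) - E‖ := by rw [add_sub_cancel_right]
        _ ≤ ‖s + E‖ + ‖(E : ℂ)‖ := norm_sub_le _ _
        _ = _ := by rw [Complex.norm_real, Real.norm_eq_abs]
    have h7 := norm_nonneg s
    have h8 := norm_nonneg (s + E)
    have h9 := sq_abs E
    nlinarith [sq_nonneg (‖s + E‖ - |E|), abs_nonneg E]
  have h6 : 1 + ‖s‖ ^ 2 ≤ 2 * (1 + E ^ 2) * (1 + ‖s + E‖ ^ 2) := by
    nlinarith [sq_nonneg E, sq_nonneg ‖s + E‖, mul_nonneg (sq_nonneg E) (sq_nonneg ‖s + E‖)]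
  rw [div_le_div_iff₀ (by positivity) (by positivity)]
  have h7 : (0 : ℝ) ≤ 5500 * ((1 + 2 * lam ^ 2) / l ^ 2 + 2) := by positivity
  calc 5500 * ((1 + 2 * lam ^ 2) / l ^ 2 + 2) * (1 + ‖s‖ ^ 2)
      ≤ 5500 * ((1 + 2 * lam ^ 2) / l ^ 2 + 2) * (2 * (1 + E ^ 2) * (1 + ‖s + E‖ ^ 2)) :=
        mul_le_mul_of_nonneg_left h6 h7
    _ = _ := by ring

/-! ### under the product law -/

section prod

variable {ι : Type*} [Fintype ι] [DecidableEq ι] {A : Matrix ι ι ℝ}

theorem measurable_muf_WV (E : ℝ) (e : ι → ℝ) (f : ι → ℝ) (z : ι) :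
    Measurable fun v : ι → ℝ => muf A (WV E e v) f z := by
  have h0 : ∀ v : ι → ℝ, ∀ a, (WV E e v a).im = -(e a) := fun v a => by rw [WV_eq_Wp, Wp_im]
  unfold muf PP
  simp only [h0]
  have hG : ∀ x y : ι, Measurable fun v : ι → ℝ => Gr A (WV E e v) x y := fun x y =>
    measurable_Gr_Wp (a := fun (v : ι → ℝ) x => v x - E) (h := fun _ => e)
      (fun x => measurable_coord_sub E x) (fun x => measurable_const) x y
  refine (Finset.measurable_sum _ fun y _ => ?_).sub_const _
  refine Measurable.mul_const ?_ _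
  refine Measurable.div ?_ ?_
  · unfold KK
    exact ((hG z y).norm.pow_const 2).const_mul _
  · unfold mm
    exact Complex.measurable_im.comp (hG z z)

theorem measurable_lossS_WV (E : ℝ) (e : ι → ℝ) (f : ι → ℝ) (z : ι) :
    Measurable fun v : ι → ℝ => lossS A (WV E e v) f z := by
  unfold lossS mm
  have hG : Measurable fun v : ι → ℝ => Gr A (WV E e v) z z :=
    measurable_Gr_Wp (a := fun (v : ι → ℝ) x => v x - E) (h := fun _ => e)
      (fun x => measurable_coord_sub E x) (fun x => measurable_const) z z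
  exact ((Complex.measurable_im.comp hG).mul ((measurable_muf_WV E e f z).pow_const 2)).const_mul _

theorem integrable_lossS (hA : A.IsSymm) (m : Measure (ι → ℝ)) [IsFiniteMeasure m] (E : ℝ)
    {e : ι → ℝ} (he : ∀ x, 0 < e x) (f : ι → ℝ) (z : ι) :
    Integrable (fun v => lossS A (WV E e v) f z) m := by
  refine Integrable.mono' ((integrable_Mf hA m E he f z).const_mul 2)
    (measurable_lossS_WV E e f z).aestronglyMeasurable (Eventually.of_forall fun v => ?_)
  rw [Real.norm_eq_abs, abs_of_nonneg (lossS_nonneg hA (WV_neg he v) f z)]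
  exact lossS_le hA (WV_neg he v) f z

theorem integrable_lawErr (hA : A.IsSymm) (m : Measure (ι → ℝ)) [IsFiniteMeasure m] (E : ℝ)
    {e : ι → ℝ} (he : ∀ x, 0 < e x) (f : ι → ℝ) (z : ι) :
    Integrable (fun v => lawErr A (WV E e v) f z) m := by
  have h1 := (integrable_dEn hA m E he f z).sub (integrable_lossS hA m E he f z)
  refine h1.congr (Eventually.of_forall fun v => ?_)
  have h2 := dEn_split hA (WV_neg (E := E) he v) f z
  simp only [Pi.sub_apply]
  linarith

/-- **the law error under the product law, two-sided** -/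
theorem abs_Ex_lawErr_le (hA : A.IsSymm) (ν : ι → Measure ℝ) [∀ x, IsProbabilityMeasure (ν x)]
    {E : ℝ} {e : ι → ℝ} (he : ∀ x, 0 < e x) (f : ι → ℝ) (x : ι) {C : ℝ}
    (hC : Cau2 E C (ν x)) :
    |Ex ν E e (fun W => lawErr A W f x)| ≤ 10 * C * Ex ν E e (fun W => Yf A W f x) := by
  have hint := integrable_lawErr hA (Measure.pi ν) E he f x
  have hmp := MAff.measurePreserving_resample ν x
  have hf' : Integrable (fun p : (ι → ℝ) × ℝ => lawErr A (WV E e (Function.update p.1 x p.2)) f x)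
      ((Measure.pi ν).prod (ν x)) := hmp.integrable_comp_of_integrable hint
  unfold Ex
  rw [integral_resample' ν x _ hint, ← integral_const_mul]
  refine (abs_integral_le_integral_abs).trans ?_
  refine integral_mono hf'.integral_prod_left.abs
    ((integrable_Yf hA _ E he f x).const_mul (10 * C)) fun c => ?_
  have h2 := abs_integral_lawErr_le hC hA (WV_neg (E := E) he c) f x
  show |∫ t, lawErr A (WV E e (Function.update c x t)) f x ∂(ν x)| ≤
    10 * C * Yf A (WV E e c) f x
  simp only [WV_update]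
  exact h2

end prod

/-! ### under labels -/

section gen

variable {ι : Type*} [Fintype ι] [DecidableEq ι] (A : Matrix ι ι ℝ)
  {Λ : Type*} [Fintype Λ] (p : Λ → ℝ) (ν : Λ → Measure ℝ) (E : ℝ)
  {κ : Type*} [Fintype κ] (f : κ → ι → ℝ)

/-- the loss in direction `w` -/
noncomputable def LossG (e w : (ι → Λ) → ι → ℝ) : ℝ :=
  ∑ l : ι → Λ, (∏ x, p (l x)) *
    ∑ x, w l x * ∑ k, Ex (fun x => ν (l x)) E (e l) (fun W => lossS A W (f k) x)

/-- the law error in direction `w` -/
noncomputable def ErrG (e w : (ι → Λ) → ι → ℝ) : ℝ :=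
  ∑ l : ι → Λ, (∏ x, p (l x)) *
    ∑ x, w l x * ∑ k, Ex (fun x => ν (l x)) E (e l) (fun W => lawErr A W (f k) x)

/-- the weighted sum of the off-resonant energies -/
noncomputable def YG (e w : (ι → Λ) → ι → ℝ) : ℝ :=
  ∑ l : ι → Λ, (∏ x, p (l x)) *
    ∑ x, w l x * ∑ k, Ex (fun x => ν (l x)) E (e l) (fun W => Yf A W (f k) x)

variable {A p ν E f}

theorem LossG_nonneg (hA : A.IsSymm) (hp : ∀ k, 0 ≤ p k) {e w : (ι → Λ) → ι → ℝ}
    (he : ∀ l x, 0 < e l x) (hw0 : ∀ l x, 0 ≤ w l x) : 0 ≤ LossG A p ν E f e w :=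
  Finset.sum_nonneg fun l _ => mul_nonneg (Finset.prod_nonneg fun x _ => hp _)
    (Finset.sum_nonneg fun x _ => mul_nonneg (hw0 l x) (Finset.sum_nonneg fun k _ =>
      Ex_nonneg _ _ _ fun v => lossS_nonneg hA (WV_neg (he l) v) _ _))

theorem YG_nonneg (hp : ∀ k, 0 ≤ p k) {e w : (ι → Λ) → ι → ℝ}
    (he : ∀ l x, 0 < e l x) (hw0 : ∀ l x, 0 ≤ w l x) : 0 ≤ YG A p ν E f e w :=
  Finset.sum_nonneg fun l _ => mul_nonneg (Finset.prod_nonneg fun x _ => hp _)
    (Finset.sum_nonneg fun x _ => mul_nonneg (hw0 l x) (Finset.sum_nonneg fun k _ =>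
      Ex_nonneg _ _ _ fun v => Yf_nonneg (WV_neg (he l) v) _ _))

/-- cost = minus loss minus law error -/
theorem CostG_eq (hA : A.IsSymm) [∀ k, IsProbabilityMeasure (ν k)]
    {e w : (ι → Λ) → ι → ℝ} (he : ∀ l x, 0 < e l x) :
    -(CostG A p ν E f e w) = LossG A p ν E f e w + ErrG A p ν E f e w := by
  unfold CostG AvG LossG ErrG
  rw [← Finset.sum_neg_distrib, ← Finset.sum_add_distrib]
  refine Finset.sum_congr rfl fun l _ => ?_
  rw [← mul_neg, ← mul_add]
  congr 1
  unfold Ex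
  rw [integral_finset_sum]
  · rw [← Finset.sum_neg_distrib, ← Finset.sum_add_distrib]
    refine Finset.sum_congr rfl fun x _ => ?_
    rw [integral_const_mul, ← mul_neg, ← mul_add, integral_finset_sum]
    · rw [← Finset.sum_neg_distrib, ← Finset.sum_add_distrib]
      congr 1
      refine Finset.sum_congr rfl fun k _ => ?_
      rw [integral_neg, neg_neg, ← integral_add (integrable_lossS hA _ E (he l) (f k) x)
        (integrable_lawErr hA _ E (he l) (f k) x)]
      exact integral_congr_ae (Eventually.of_forall fun v =>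
        dEn_split hA (WV_neg (he l) v) (f k) x)
    · intro k _
      exact (integrable_dEn hA _ E (he l) (f k) x).neg
  · intro x _
    exact (integrable_finset_sum _ fun k _ =>
      (integrable_dEn hA _ E (he l) (f k) x).neg).const_mul _

/-- **the law error is at most `10 C` times the off-resonant energy** -/
theorem abs_ErrG_le (hA : A.IsSymm) [∀ k, IsProbabilityMeasure (ν k)] (hp : ∀ k, 0 ≤ p k)
    {e w : (ι → Λ) → ι → ℝ} (he : ∀ l x, 0 < e l x) (hw0 : ∀ l x, 0 ≤ w l x) {C : ℝ}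
    (hC : ∀ l x, w l x ≠ 0 → Cau2 E C (ν (l x))) :
    |ErrG A p ν E f e w| ≤ 10 * C * YG A p ν E f e w := by
  unfold ErrG YG
  rw [Finset.mul_sum]
  refine (Finset.abs_sum_le_sum_abs _ _).trans (Finset.sum_le_sum fun l _ => ?_)
  have hpr : 0 ≤ ∏ x, p (l x) := Finset.prod_nonneg fun x _ => hp _
  rw [abs_mul, abs_of_nonneg hpr, mul_left_comm]
  refine mul_le_mul_of_nonneg_left ?_ hpr
  rw [Finset.mul_sum]
  refine (Finset.abs_sum_le_sum_abs _ _).trans (Finset.sum_le_sum fun x _ => ?_)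
  by_cases hx : w l x = 0
  · rw [hx]
    simp
  · rw [abs_mul, abs_of_nonneg (hw0 l x), mul_left_comm]
    refine mul_le_mul_of_nonneg_left ?_ (hw0 l x)
    rw [Finset.mul_sum]
    refine (Finset.abs_sum_le_sum_abs _ _).trans (Finset.sum_le_sum fun k _ => ?_)
    exact abs_Ex_lawErr_le hA (fun x => ν (l x)) (he l) (f k) x (hC l x hx)

/-- **the flow with the loss kept** -/
theorem hasDerivAt_PhiG_loss (hA : A.IsSymm) [∀ k, IsProbabilityMeasure (ν k)] {b Wm : ℝ}
    (hb : 0 < b) (hWm : 0 < Wm) {u w : (ι → Λ) → ι → ℝ} (hub : ∀ l x, b ≤ u l x)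
    (hw0 : ∀ l x, 0 ≤ w l x) (hw1 : ∀ l x, w l x ≤ Wm) {s : ℝ} (hs : 0 ≤ s) :
    HasDerivAt (fun s : ℝ => PhiG A p ν E f (fun l x => u l x + s * w l x))
      (LossG A p ν E f (fun l x => u l x + s * w l x) w +
        ErrG A p ν E f (fun l x => u l x + s * w l x) w) s := by
  have h1 := hasDerivAt_PhiG (p := p) (E := E) (f := f) (ν := ν) hA hb hWm hub hw0 hw1 hs
  have hpos : ∀ l x, 0 < u l x + s * w l x := fun l x => by
    have := mul_nonneg hs (hw0 l x)
    have := hub l x
    linarith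
  rw [CostG_eq hA hpos] at h1
  exact h1

end gen

end Vale.Agent.P365.J376
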