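import Vale.Agent.P365.T1.Conc394
import Vale.Agent.P365.T2.SeqGB795

/-!
# P365-T2: the concrete datum for a general base `β` of the sequences (`r i = rs ^ (β ^ i)`)
-/

set_option linter.all false

namespace P365V4.Datum

open P365L P365SH Vale.Agent.P365.C937 Vale.Agent.P365.J376 MeasureTheory P365T1 P365T1.Conc
open P365T2.SeqG

/-- combinatorial parameters, base `β` -/
def P4 (β : ℕ) (yf : ℕ → ℤ × ℤ) (rs I : ℕ) : Par := ⟨I, rr β rs, fun i => yf (rr β rs i)⟩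

variable {β : ℕ}

theorem P4_I (yf : ℕ → ℤ × ℤ) (rs I : ℕ) : (P4 β yf rs I).I = I := rfl

theorem P4_r (yf : ℕ → ℤ × ℤ) (rs I i : ℕ) : (P4 β yf rs I).r i = rr β rs i := rfl

theorem P4_ok [Fact (2 ≤ β)] {yf : ℕ → ℤ × ℤ} {rs : ℕ} (hrs : 2 ≤ rs)
    (hy : ∀ r, rs ≤ r → yf r ∈ Xr r) (I : ℕ) : (P4 β yf rs I).Ok where
  r_pos := fun i => one_le_rr (by omega) i
  yo_mem := fun i => hy _ (le_rr (by omega) i)

/-- analytic parameters, base `β` -/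
noncomputable def Q4 {yf : ℕ → ℤ × ℤ} {rs I : ℕ} (p : (P4 β yf rs I).Lb → ℝ)
    (ν : (P4 β yf rs I).Lb → Measure ℝ) : APar (P4 β yf rs I) :=
  ⟨aS β rs, e0S β rs, tS β rs I, bS β rs I, p, ν⟩

/-- **the concrete chain, base `β`** -/
noncomputable abbrev D4 {yf : ℕ → ℤ × ℤ} {rs I : ℕ} (p : (P4 β yf rs I).Lb → ℝ)
    (ν : (P4 β yf rs I).Lb → Measure ℝ) : V3 := mk (P4 β yf rs I) (Q4 p ν)

/-- what is used of the label laws in the skeleton -/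
structure Lw4 {P : Par} (ρ : Measure ℝ) (p : P.Lb → ℝ) (ν : P.Lb → Measure ℝ) : Prop where
  prob : ∀ k, IsProbabilityMeasure (ν k)
  p_nonneg : ∀ k, 0 ≤ p k
  p_sum : ∑ k, p k = 1
  mix : ∑ k, ENNReal.ofReal (p k) • ν k = ρ
  p_good : 1 - p none ≤ 1 / 8192

variable [Fact (2 ≤ β)] {yf : ℕ → ℤ × ℤ} {rs I : ℕ} {ρ : Measure ℝ}
  {p : (P4 β yf rs I).Lb → ℝ} {ν : (P4 β yf rs I).Lb → Measure ℝ}

theorem D4_ok (hrs : 2 ≤ rs) (hy : ∀ r, rs ≤ r → yf r ∈ Xr r) (h : Lw4 ρ p ν) :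
    (D4 p ν).Ok ρ where
  b_pos := bS_pos rs I
  prob := h.prob
  p_nonneg := h.p_nonneg
  p_sum := h.p_sum
  mix := h.mix
  p_good := h.p_good
  mov_good := Or.inl rfl
  mov_cen := fun i hi => Or.inr ⟨⟨i, Nat.lt_succ_of_le hi⟩,
    pat_y (P4_ok hrs hy I) (i := i) (Nat.lt_succ_of_le hi)⟩
  e0_pos := fun i _ => e0S_pos rs i
  e0_le := fun i _ => e0S_le_one rs i
  a_nonneg := fun i _ => aS_nonneg rs i
  t_pos := fun i _ => tS_pos rs I i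
  t_le := fun i _ => tS_le_one rs I i
  t_small := fun i hi => tS_small hi
  t_last := tS_last_le rs I

omit [Fact (2 ≤ β)] in
/-- MARKS -/
theorem D4_marks {i j : ℕ} (hi : i ≤ I) (hij : i ≠ j) (a a' : Loc) :
    (D4 p ν).pat i a ≠ (D4 p ν).pat j a' := pat_ne_pat (P := P4 β yf rs I) hi hij a a'

omit [Fact (2 ≤ β)] in
theorem D4_pat_ne_good (i : ℕ) (a : Loc) : (D4 p ν).pat i a ≠ (D4 p ν).good := pat_ne_none i a

theorem D4_m_dvd {i j : ℕ} (hij : i ≤ j) : (D4 p ν).m i ∣ (D4 p ν).m j := mS_dvd (β := β) rs hij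

theorem D4_m_pos (hrs : 1 ≤ rs) (i : ℕ) : 0 < (D4 p ν).m i := mS_pos (β := β) hrs i

theorem D4_y_mem (hrs : 2 ≤ rs) (hy : ∀ r, rs ≤ r → yf r ∈ Xr r) (i : ℕ) :
    (D4 p ν).y i ∈ blk ((D4 p ν).m i) := by
  have h := y_lt (P4_ok (β := β) hrs hy I) i
  unfold blk
  rw [Finset.mem_product, Finset.mem_range, Finset.mem_range]
  exact h

end P365V4.Datum
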