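import Vale.Agent.P365.T2.ConcG795
import Vale.Agent.P365.V4.Inst

/-!
# P365-T2: the concrete datum with free final factors `t` and free floor `b`

The admissible profiles and the hubs do not see `t` and `b`.
-/

set_option linter.all false

namespace P365V4.Free

open P365L P365L.TL P365SH Vale.Agent.P365.C937 Vale.Agent.P365.J376 MeasureTheory Set
open P365T1 P365T1.Conc P365T1.Lab37 P365T1.Bump
open P365T2.SeqG
open P365T2.ConcG (PP QQ)
open scoped ENNReal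

section generic

variable {P : Par} {a e0 t t' : ℕ → ℝ} {b b' : ℝ} {p : P.Lb → ℝ} {ν : P.Lb → Measure ℝ}
  {N : ℕ} [NeZero N] {X : Finset (Tor N)} {κ : Type} [Fintype κ] {F : κ → Tor N → ℝ} {E : ℝ}
  {e : (Tor N → P.Lb) → Tor N → ℝ} {i : ℕ} {sb sc ε b1 η c : ℝ}

/-- admissible profiles do not see `t` and `b` -/
theorem prf_tb (h : Prf (mk P ⟨a, e0, t, b, p, ν⟩) N i sb sc ε b1 e) :
    Prf (mk P ⟨a, e0, t', b', p, ν⟩) N i sb sc ε b1 e where
  pos := h.pos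
  le := h.le
  loc := h.loc
  mov_ge := h.mov_ge
  cen_ge := h.cen_ge
  nm_le := h.nm_le

theorem hc4_tb (h : Vale.Agent.P365.J376.HC4 (mk P ⟨a, e0, t, b, p, ν⟩) N X E e i η) :
    Vale.Agent.P365.J376.HC4 (mk P ⟨a, e0, t', b', p, ν⟩) N X E e i η := h

theorem hbe_tb (h : HBe (mk P ⟨a, e0, t, b, p, ν⟩) N X F E e i sb η c) :
    HBe (mk P ⟨a, e0, t', b', p, ν⟩) N X F E e i sb η c := h

end generic

section free

variable {β : ℕ} {yf : ℕ → ℤ × ℤ} {rs I : ℕ}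

/-- **the concrete datum with free `t` and `b`** -/
noncomputable abbrev Df (t : ℕ → ℝ) (b : ℝ) (p : (PP β yf rs I).Lb → ℝ)
    (ν : (PP β yf rs I).Lb → Measure ℝ) : V3 :=
  mk (PP β yf rs I) ⟨aS β rs, e0S β rs, t, b, p, ν⟩

/-- final factors: `tS` for `i ≤ I`, `b / 33` at `I + 1` -/
noncomputable def tF (β rs I : ℕ) (b : ℝ) (i : ℕ) : ℝ :=
  if i ≤ I then tS β rs I i else b / 33

theorem tF_of_le {b : ℝ} {i : ℕ} (hi : i ≤ I) : tF β rs I b i = tS β rs I i := if_pos hi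

theorem tF_last (b : ℝ) : tF β rs I b (I + 1) = b / 33 := if_neg (by omega)

variable [hβ : Fact (2 ≤ β)]

theorem Df_ok (hrs : 2 ≤ rs) (hy : ∀ r, rs ≤ r → yf r ∈ Xr r) {ρ : Measure ℝ}
    {p : (PP β yf rs I).Lb → ℝ} {ν : (PP β yf rs I).Lb → Measure ℝ} (h : Lw ρ p ν) {t : ℕ → ℝ}
    {b : ℝ} (hb : 0 < b) (ht0 : ∀ i ≤ I + 1, 0 < t i) (ht1 : ∀ i ≤ I + 1, t i ≤ 1)
    (hts : ∀ i ≤ I, t i * 33 ≤ e0S β rs i * Real.exp (-(aS β rs i)))
    (htl : t (I + 1) * 33 ≤ b) : (Df t b p ν).Ok ρ where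
  b_pos := hb
  prob := h.prob
  p_nonneg := h.p_nonneg
  p_sum := h.p_sum
  mix := h.mix
  p_good := h.p_good
  mov_good := Or.inl rfl
  mov_cen := fun i hi => Or.inr ⟨⟨i, Nat.lt_succ_of_le hi⟩,
    pat_y (P365T2.ConcG.PP_ok hrs hy I) (i := i) (Nat.lt_succ_of_le hi)⟩
  e0_pos := fun i _ => e0S_pos rs i
  e0_le := fun i _ => e0S_le_one rs i
  a_nonneg := fun i _ => aS_nonneg rs i
  t_pos := ht0
  t_le := ht1
  t_small := hts
  t_last := htl

theorem tF_pos {b : ℝ} (hb : 0 < b) (i : ℕ) : 0 < tF β rs I b i := by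
  unfold tF
  split_ifs
  · exact tS_pos rs I i
  · positivity

theorem tF_le_one {b : ℝ} (hb1 : b ≤ 1) (i : ℕ) : tF β rs I b i ≤ 1 := by
  unfold tF
  split_ifs
  · exact tS_le_one rs I i
  · linarith

/-- **the datum `Df` with the factors `tF`** -/
theorem Df_tF_ok (hrs : 2 ≤ rs) (hy : ∀ r, rs ≤ r → yf r ∈ Xr r) {ρ : Measure ℝ}
    {p : (PP β yf rs I).Lb → ℝ} {ν : (PP β yf rs I).Lb → Measure ℝ} (h : Lw ρ p ν)
    {b : ℝ} (hb : 0 < b) (hb1 : b ≤ 1) : (Df (tF β rs I b) b p ν).Ok ρ := by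
  refine Df_ok hrs hy h hb (fun i _ => tF_pos hb i) (fun i _ => tF_le_one hb1 i)
    (fun i hi => ?_) ?_
  · rw [tF_of_le hi]
    exact tS_small hi
  · rw [tF_last]
    linarith

/-- the strengths after the family `i` and a floor below the last strength -/
theorem sum_e0S_floor' (h : 2 ≤ rs) {i : ℕ} (hi : i ≤ I) :
    ∑ j ∈ Finset.Ico (i + 1) (I + 1), e0S β rs j + e0S β rs I ≤ e0S β rs i := by
  obtain ⟨d, rfl⟩ : ∃ d, I = i + d := ⟨I - i, by omega⟩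
  clear hi
  induction d generalizing i with
  | zero => simp
  | succ d ih =>
    rw [Finset.sum_eq_sum_Ico_succ_bot (show i + 1 < i + (d + 1) + 1 by omega)]
    have h1 := @ih (i + 1)
    rw [show i + 1 + d = i + (d + 1) by ring] at h1
    have h2 := e0S_succ (β := β) h i
    linarith

/-- the world of `Df` on the domain `X` with the own-label floor `fl` -/
noncomputable abbrev Wf {N : ℕ} [NeZero N] (t : ℕ → ℝ) (b : ℝ) (p : (PP β yf rs I).Lb → ℝ)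
    (ν : (PP β yf rs I).Lb → Measure ℝ) (X : Finset (Tor N))
    (fl : (PP β yf rs I).Lb → Tor N → ℝ) (b' : ℝ) : V4 N :=
  { Df t b p ν with X := X, β := fl, b' := b' }

theorem Wf_ok {N : ℕ} [NeZero N] {ρ : Measure ℝ} {t : ℕ → ℝ} {b b' : ℝ}
    {p : (PP β yf rs I).Lb → ℝ} {ν : (PP β yf rs I).Lb → Measure ℝ}
    (h : (Df t b p ν).Ok ρ) {X : Finset (Tor N)} {fl : (PP β yf rs I).Lb → Tor N → ℝ}
    (h1 : ∀ k x, b ≤ fl k x) (h2 : ∀ k x, fl k x ≤ b')
    (hX : ∀ i ≤ I, BlkU (mS β rs i) X) : (Wf t b p ν X fl b').Ok ρ :=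
  { h with
    floor_ge := h1
    floor_le := h2
    dom := fun i hi x y hxy => hX i hi x y hxy }

/-- **the profiles of the stages are admissible**: upper bound `4 e0`, own bound `b1` of the floor
at the labels which do not move -/
theorem Wf_prf {N : ℕ} [NeZero N] {ρ : Measure ℝ} {t : ℕ → ℝ} {b b' : ℝ}
    {p : (PP β yf rs I).Lb → ℝ} {ν : (PP β yf rs I).Lb → Measure ℝ}
    {X : Finset (Tor N)} {fl : (PP β yf rs I).Lb → Tor N → ℝ}
    (h : (Wf t b p ν X fl b').Ok ρ) (hrs : 2 ≤ rs) (hb' : b' ≤ e0S β rs I) {i : ℕ}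
    (hi : i ≤ I) {sc sb : ℝ} (hsb : 0 < sb) (hcb : sb ≤ sc) (hsc1 : sc ≤ 1) :
    Prf (Df t b p ν) N i sb sc (4 * e0S β rs i) (e0S β rs I)
      ((Wf t b p ν X fl b').prof i sc sb) := by
  have h1 := h.prf (N := N) (i := i) hi hsb hcb hsc1
  have h2 := sum_e0S_floor' (β := β) hrs hi
  refine ⟨h1.pos, fun l x => (h1.le l x).trans ?_, h1.loc, h1.mov_ge, h1.cen_ge,
    fun l x hm => (h1.nm_le l x hm).trans hb'⟩
  show b' + ∑ j ∈ Finset.Ico (i + 1) (I + 1), e0S β rs j + 3 * e0S β rs i ≤ 4 * e0S β rs i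
  linarith

end free

end P365V4.Free
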