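import Vale.Agent.P365.J376.PathG
import Vale.Agent.P365.T1a.StartLab

set_option linter.all false

/-!
# P365-T2: START for any profile which is at least `32` at the good sites, any symmetric matrix
dominated by the torus adjacency, test functions in vector form.
-/

namespace P365V4.Start77

open P365L P365O P365T1 P365L.TL MeasureTheory Vale.Agent.P365.J376 Matrix Complex
open scoped ComplexConjugate

variable {N : ℕ} [NeZero N]

/-- the START majorant at one site -/
noncomputable def FB1 (N : ℕ) [NeZero N] (b : Tor N) (S : Finset (Tor N)) : ℝ :=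
  4 * ∑ a, (nrm (a - b) : ℝ) ^ 2 * Real.exp (-2 * Real.log 8 * dg (nbT N) S b a)

theorem FB1_nonneg (b : Tor N) (S : Finset (Tor N)) : 0 ≤ FB1 N b S :=
  mul_nonneg (by norm_num)
    (Finset.sum_nonneg fun a _ => mul_nonneg (sq_nonneg _) (Real.exp_pos _).le)

section det

variable {A : Matrix (Tor N) (Tor N) ℝ} {W : Tor N → ℂ}

theorem weight_okA (hA : ∀ x y, |A x y| ≤ AT N x y) (hW : ∀ x, (W x).im < 0)
    (B : Finset (Tor N)) {μ : ℝ} (hμ : 0 ≤ μ)
    (hbig : ∀ x, x ∉ B → 8 * Real.sinh μ ≤ -(W x).im) (b x : Tor N) :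
    ∑ y, |A x y| * |Real.sinh (μ * dg (nbT N) B b x - μ * dg (nbT N) B b y)| ≤
      (-(W x).im) / 2 := by
  refine (Finset.sum_le_sum fun y _ => ?_).trans (weight_ok hW B hμ hbig b x)
  refine mul_le_mul_of_nonneg_right ?_ (abs_nonneg _)
  rw [abs_of_nonneg (AT_nonneg x y)]
  exact hA x y

/-- one column -/
theorem start_colA (hs : A.IsSymm) (hA : ∀ x y, |A x y| ≤ AT N x y)
    (hW : ∀ x, (W x).im < 0) (B : Finset (Tor N))
    (hbig : ∀ x, x ∉ B → 32 ≤ -(W x).im) (b : Tor N) :
    (-(W b).im) * ∑ a, (-(W a).im) * KK A W a b * (nrm (a - b) : ℝ) ^ 2 ≤ FB1 N b B := by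
  obtain ⟨μ, hμd⟩ : ∃ μ, μ = Real.log 8 := ⟨_, rfl⟩
  have hμ : 0 ≤ μ := by rw [hμd]; exact Real.log_nonneg (by norm_num)
  have hbig' : ∀ x, x ∉ B → 8 * Real.sinh μ ≤ -(W x).im := fun x hx => by
    rw [hμd]; exact sinh_log_eight.trans (hbig x hx)
  have h1 := CT_col hs hW (φ := fun x => μ * dg (nbT N) B b x)
    (fun x => weight_okA hA hW B hμ hbig' b x) b
  have he : ∀ x, 0 ≤ -(W x).im := fun x => by linarith [hW x]
  have h2 : ∀ a, (-(W b).im) * ((-(W a).im) * KK A W a b) ≤
      4 * Real.exp (-2 * μ * dg (nbT N) B b a) := by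
    intro a
    have h3 : (-(W a).im) * KK A W a b * Real.exp (2 * (μ * dg (nbT N) B b a -
        μ * dg (nbT N) B b b)) ≤ ∑ a, (-(W a).im) * KK A W a b *
        Real.exp (2 * (μ * dg (nbT N) B b a - μ * dg (nbT N) B b b)) :=
      Finset.single_le_sum (f := fun a => (-(W a).im) * KK A W a b *
        Real.exp (2 * (μ * dg (nbT N) B b a - μ * dg (nbT N) B b b)))
        (fun x _ => mul_nonneg (mul_nonneg (he x) (KK_nonneg _ _)) (Real.exp_pos _).le)
        (Finset.mem_univ a)
    have h4 := (mul_le_mul_of_nonneg_left h3 (he b)).trans h1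
    rw [dg_self, Nat.cast_zero, mul_zero, sub_zero] at h4
    have h5 : Real.exp (2 * (μ * dg (nbT N) B b a)) * Real.exp (-2 * μ * dg (nbT N) B b a) = 1 := by
      rw [← Real.exp_add]
      have : 2 * (μ * dg (nbT N) B b a) + -2 * μ * dg (nbT N) B b a = 0 := by ring
      rw [this, Real.exp_zero]
    calc (-(W b).im) * ((-(W a).im) * KK A W a b)
        = (-(W b).im) * ((-(W a).im) * KK A W a b *
          Real.exp (2 * (μ * dg (nbT N) B b a))) * Real.exp (-2 * μ * dg (nbT N) B b a) := by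
          have : ∀ u v p q : ℝ, p * q = 1 → u * v = u * (v * p) * q := by
            intro u v p q h
            calc u * v = u * v * (p * q) := by rw [h, mul_one]
              _ = _ := by ring
          exact this _ _ _ _ h5
      _ ≤ 4 * Real.exp (-2 * μ * dg (nbT N) B b a) :=
          mul_le_mul_of_nonneg_right h4 (Real.exp_pos _).le
  unfold FB1
  rw [← hμd, Finset.mul_sum, Finset.mul_sum]
  refine Finset.sum_le_sum fun a _ => ?_
  have h6 := mul_le_mul_of_nonneg_left (h2 a) (sq_nonneg (nrm (a - b) : ℝ))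
  calc (-(W b).im) * ((-(W a).im) * KK A W a b * (nrm (a - b) : ℝ) ^ 2)
      = (nrm (a - b) : ℝ) ^ 2 * ((-(W b).im) * ((-(W a).im) * KK A W a b)) := by ring
    _ ≤ _ := h6
    _ = _ := by ring

/-- an isolated site -/
theorem KK_isolated (hs : A.IsSymm) (hW : ∀ x, (W x).im < 0) {b : Tor N}
    (hb : ∀ y, A b y = 0) {a : Tor N} (hab : a ≠ b) : KK A W a b = 0 := by
  have h1 := congrFun (congrFun (Gr_mul_Kmat hs hW) a) b
  rw [Matrix.mul_apply, Matrix.one_apply_ne hab, Finset.sum_eq_single b] at h1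
  · have h2 : Kmat A W b b = W b := by
      unfold Kmat
      rw [Matrix.add_apply, Matrix.map_apply, Matrix.diagonal_apply_eq, hb b, Complex.ofReal_zero,
        zero_add]
    rw [h2] at h1
    have h3 : W b ≠ 0 := by
      intro h
      have := hW b
      rw [h, Complex.zero_im] at this
      exact lt_irrefl _ this
    have h4 := (mul_eq_zero.1 h1).resolve_right h3
    unfold KK
    rw [h4, norm_zero]
    norm_num
  · intro z _ hz
    have h2 : Kmat A W z b = 0 := by
      unfold Kmat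
      have h3 : A z b = 0 := by rw [← hs.apply z b]; exact hb z
      rw [Matrix.add_apply, Matrix.map_apply, Matrix.diagonal_apply_ne _ hz, h3,
        Complex.ofReal_zero, zero_add]
    rw [h2, mul_zero]
  · intro h
    exact absurd (Finset.mem_univ _) h

/-- the energy of a vector of test functions -/
theorem start_EnA (hs : A.IsSymm) (hA : ∀ x y, |A x y| ≤ AT N x y) {X : Finset (Tor N)}
    (hX : ∀ x, x ∉ X → ∀ y, A x y = 0) (hW : ∀ x, (W x).im < 0) (B : Finset (Tor N))
    (hbig : ∀ x, x ∉ B → 32 ≤ -(W x).im) {κ : Type*} [Fintype κ] {F : κ → Tor N → ℝ} {Λf : ℝ}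
    (hF : ∀ x y, ∑ k, (F k x - F k y) ^ 2 ≤ Λf ^ 2 * (nrm (x - y) : ℝ) ^ 2) :
    ∑ k, En A W (F k) ≤ Λf ^ 2 * ∑ b ∈ X, FB1 N b B := by
  have he : ∀ x, 0 ≤ -(W x).im := fun x => by linarith [hW x]
  have e1 : ∑ k, En A W (F k) = ∑ b, ∑ a, (-(W a).im) * (-(W b).im) * KK A W a b *
      ∑ k, (F k a - F k b) ^ 2 := by
    unfold En
    simp only [Finset.mul_sum]
    calc ∑ k, ∑ x, ∑ y, (-(W x).im) * (-(W y).im) * KK A W x y * (F k x - F k y) ^ 2
        = ∑ k, ∑ y, ∑ x, (-(W x).im) * (-(W y).im) * KK A W x y * (F k x - F k y) ^ 2 :=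
          Finset.sum_congr rfl fun k _ => Finset.sum_comm
      _ = ∑ y, ∑ k, ∑ x, (-(W x).im) * (-(W y).im) * KK A W x y * (F k x - F k y) ^ 2 :=
          Finset.sum_comm
      _ = _ := Finset.sum_congr rfl fun y _ => Finset.sum_comm
  have e2 : ∀ b, b ∉ X → ∑ a, (-(W a).im) * (-(W b).im) * KK A W a b *
      ∑ k, (F k a - F k b) ^ 2 = 0 := by
    intro b hb
    refine Finset.sum_eq_zero fun a _ => ?_
    by_cases hab : a = b
    · rw [hab]
      simp
    · rw [KK_isolated hs hW (hX b hb) hab]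
      simp
  have e3 : ∑ b, ∑ a, (-(W a).im) * (-(W b).im) * KK A W a b * ∑ k, (F k a - F k b) ^ 2 =
      ∑ b ∈ X, ∑ a, (-(W a).im) * (-(W b).im) * KK A W a b * ∑ k, (F k a - F k b) ^ 2 :=
    (Finset.sum_subset (Finset.subset_univ X) fun b _ hb => e2 b hb).symm
  rw [e1, e3, Finset.mul_sum]
  refine Finset.sum_le_sum fun b _ => ?_
  refine le_trans ?_ (mul_le_mul_of_nonneg_left (start_colA hs hA hW B hbig b) (sq_nonneg Λf))
  rw [Finset.mul_sum, Finset.mul_sum]
  refine Finset.sum_le_sum fun a _ => ?_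
  have h2 : 0 ≤ (-(W a).im) * (-(W b).im) * KK A W a b :=
    mul_nonneg (mul_nonneg (he a) (he b)) (KK_nonneg _ _)
  calc (-(W a).im) * (-(W b).im) * KK A W a b * ∑ k, (F k a - F k b) ^ 2
      ≤ (-(W a).im) * (-(W b).im) * KK A W a b * (Λf ^ 2 * (nrm (a - b) : ℝ) ^ 2) :=
        mul_le_mul_of_nonneg_left (hF a b) h2
    _ = _ := by ring

end det

/-! ### label average of the majorant -/

/-- expectation of the majorant at one site: coins version -/
theorem FB1_integral_coins {Ω : Type*} [MeasurableSpace Ω] {P : Measure Ω}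
    [IsProbabilityMeasure P] (b : Tor N)
    {J : Type*} [Fintype J] (X : J → Set Ω) (hX : ∀ j, MeasurableSet (X j)) (q : J → ℝ)
    (hq0 : ∀ j, 0 ≤ q j)
    (hP : ∀ T : Finset J, P.real (⋂ j ∈ T, X j) ≤ ∏ j ∈ T, q j)
    (bx : J → Finset (Tor N))
    (hsum : ∀ x, ∑ j, (if x ∈ bx j then q j * (4096 : ℝ) ^ (bx j).card else 0) ≤ 1)
    {B : Ω → Finset (Tor N)} (hB : ∀ x, MeasurableSet {ω | x ∈ B ω})
    (hcov : ∀ ω, ∀ x ∈ B ω, ∃ j, ω ∈ X j ∧ x ∈ bx j) :
    ∫ ω, FB1 N b (B ω) ∂P ≤ 22 := by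
  classical
  have hlog : 0 ≤ Real.log 8 := Real.log_nonneg (by norm_num)
  have h8 : Real.exp (Real.log 8) = 8 := Real.exp_log (by norm_num)
  have hs : ∀ k : ℕ, Real.exp (4 * Real.log 8 * k) = (4096 : ℝ) ^ k := by
    intro k
    have : 4 * Real.log 8 * k = (4 * k : ℕ) * Real.log 8 := by push_cast; ring
    rw [this, Real.exp_nat_mul, h8, pow_mul]
    norm_num
  have he1 : Real.exp 1 ≤ 2.7182818286 := Real.exp_one_lt_d9.le
  have hE : ∀ l : List (Tor N), l.Nodup →
      ∫ ω, Real.exp (4 * Real.log 8 * (l.countP (fun z => decide (z ∈ B ω)) : ℕ)) ∂P ≤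
        Real.exp 1 ^ l.length := fun l hl =>
    coins X hX q hq0 hP bx hB hcov (s := 4 * Real.log 8) (by positivity)
      (fun x => by simp only [hs]; exact hsum x) l hl
  have hq : 4 * Real.exp 1 * Real.exp (-2 * Real.log 8) ≤ 1 / 4 := by
    have h2 : Real.exp (-2 * Real.log 8) = 1 / 64 := by
      have : -2 * Real.log 8 = -((2 : ℕ) * Real.log 8) := by push_cast; ring
      rw [this, Real.exp_neg, Real.exp_nat_mul, h8]
      norm_num
    rw [h2]
    linarith
  have hterm : ∫ ω, ∑ a, (nrm (a - b) : ℝ) ^ 2 *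
      Real.exp (-2 * Real.log 8 * dg (nbT N) (B ω) b a) ∂P ≤ 2 * Real.exp 1 := by
    refine integral_sum_exp_le (nb := nbT N) (b := b) (conn_tor b) hB
      (g := fun a => nrm (a - b)) (by simp only [sub_self]; exact nrm_zero) ?_ hlog (Δ := 4)
      (fun x => card_nbT_le x) (Real.exp_pos _).le hE (by exact_mod_cast hq)
    intro x y hy
    have h2 : y - b = (x - b) + (y - x) := by abel
    rw [h2]
    exact (nrm_add_le _ _).trans (Nat.add_le_add_left (nrm_nbs (mem_nbT.1 hy)) _)
  simp only [FB1]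
  rw [integral_const_mul]
  linarith

section labels

variable {Λ : Type*} [Fintype Λ] [DecidableEq Λ]

/-- average of the majorant over independent labels -/
theorem FB1_sum_labels (b : Tor N) (p : Λ → ℝ) (hp : ∀ l, 0 ≤ p l) (hp1 : ∑ l, p l = 1)
    (good : Λ) (h1 : 1 - p good ≤ 1 / 8192)
    {B : (Tor N → Λ) → Finset (Tor N)} (hcov : ∀ L, ∀ x ∈ B L, L x ≠ good) :
    ∑ L : Tor N → Λ, (∏ x, p (L x)) * FB1 N b (B L) ≤ 22 := by
  classical
  letI : MeasurableSpace Λ := ⊤
  haveI : MeasurableSingletonClass Λ := ⟨fun _ => trivial⟩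
  obtain ⟨κ, hκ⟩ : ∃ κ : Tor N → Measure Λ,
      κ = fun _ => ∑ l, ENNReal.ofReal (p l) • Measure.dirac l := ⟨_, rfl⟩
  have hκs : ∀ x (S : Set Λ), (κ x).real S = ∑ l, p l * S.indicator (fun _ => (1 : ℝ)) l := by
    intro x S
    simp only [hκ, Measure.real]
    rw [Measure.finset_sum_apply, ENNReal.toReal_sum (fun l _ => by
      rw [Measure.smul_apply, smul_eq_mul]
      exact ENNReal.mul_ne_top ENNReal.ofReal_ne_top (measure_ne_top _ _))]
    refine Finset.sum_congr rfl fun l _ => ?_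
    rw [Measure.smul_apply, smul_eq_mul, ENNReal.toReal_mul, ENNReal.toReal_ofReal (hp l),
      Measure.dirac_apply' _ (by trivial)]
    congr 1
    by_cases h : l ∈ S <;> simp [h]
  haveI : ∀ x, IsProbabilityMeasure (κ x) := by
    intro x
    refine ⟨?_⟩
    simp only [hκ]
    rw [Measure.finset_sum_apply]
    simp only [Measure.smul_apply, smul_eq_mul, measure_univ, mul_one]
    rw [← ENNReal.ofReal_sum_of_nonneg fun l _ => hp l, hp1, ENNReal.ofReal_one]
  have hsing : ∀ x l, (κ x).real {l} = p l := by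
    intro x l
    rw [hκs x, Finset.sum_eq_single l]
    · simp
    · intro l' _ hne; simp [hne]
    · intro h; exact absurd (Finset.mem_univ _) h
  have hmeas : ∀ S : Set (Tor N → Λ), MeasurableSet S := fun S => S.toFinite.measurableSet
  have h := FB1_integral_coins (P := Measure.pi κ) b (fun x : Tor N => {L : Tor N → Λ | L x ≠ good})
    (fun j => hmeas _) (fun _ => 1 / 8192) (fun _ => by norm_num) ?_ (fun x => {x}) ?_
    (B := B) (fun x => hmeas _) (fun L x hx => ⟨x, hcov L x hx, Finset.mem_singleton_self x⟩)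
  · rw [integral_fintype Integrable.of_finite] at h
    refine le_trans (le_of_eq ?_) h
    refine Finset.sum_congr rfl fun L _ => ?_
    rw [smul_eq_mul]
    congr 1
    rw [Measure.real, ← Set.univ_pi_singleton, Measure.pi_pi, ENNReal.toReal_prod]
    exact Finset.prod_congr rfl fun x _ => (hsing x (L x)).symm
  · intro T
    have e1 : (⋂ j ∈ T, {L : Tor N → Λ | L j ≠ good}) =
        Set.univ.pi fun x => if x ∈ T then {l : Λ | l ≠ good} else Set.univ := by
      ext L
      simp only [Set.mem_iInter, Set.mem_setOf_eq, Set.mem_univ_pi]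
      constructor
      · intro h x
        by_cases hx : x ∈ T
        · rw [if_pos hx]; exact h x hx
        · rw [if_neg hx]; exact Set.mem_univ _
      · intro h x hx
        have := h x
        rw [if_pos hx] at this
        exact this
    rw [e1, Measure.real, Measure.pi_pi, ENNReal.toReal_prod]
    have e2 : ∀ x, ((κ x) (if x ∈ T then {l : Λ | l ≠ good} else Set.univ)).toReal ≤
        if x ∈ T then (1 / 8192 : ℝ) else 1 := by
      intro x
      by_cases hx : x ∈ T
      · rw [if_pos hx, if_pos hx]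
        have hc : {l : Λ | l ≠ good} = {good}ᶜ := by ext l; simp
        rw [hc]
        have := measureReal_compl (μ := κ x) (MeasurableSet.singleton good)
        rw [hsing, probReal_univ] at this
        change (κ x).real {good}ᶜ ≤ _
        rw [this]
        exact h1
      · rw [if_neg hx, if_neg hx, measure_univ, ENNReal.toReal_one]
    refine (Finset.prod_le_prod (fun x _ => ENNReal.toReal_nonneg) fun x _ => e2 x).trans ?_
    rw [Finset.prod_ite, Finset.prod_const_one, mul_one]
    simp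
  · intro x
    have e1 : ∀ j : Tor N, (if x ∈ ({j} : Finset (Tor N)) then
        (1 / 8192 : ℝ) * 4096 ^ ({j} : Finset (Tor N)).card else 0) =
        if j = x then (1 / 2 : ℝ) else 0 := by
      intro j
      by_cases h : j = x
      · subst h
        rw [if_pos (Finset.mem_singleton_self _), if_pos rfl, Finset.card_singleton]
        norm_num
      · rw [if_neg h, if_neg]
        rw [Finset.mem_singleton]
        exact fun h' => h h'.symm
    rw [Finset.sum_congr rfl fun j _ => e1 j, Finset.sum_ite_eq' Finset.univ x]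
    simp
    norm_num

/-- **START**: any symmetric matrix dominated by the adjacency of the torus and vanishing off `X`,
any profile which is at least `32` at the sites with the good label, test functions in vector
form -/
theorem start {A : Matrix (Tor N) (Tor N) ℝ} (hs : A.IsSymm) (hA : ∀ x y, |A x y| ≤ AT N x y)
    {X : Finset (Tor N)} (hX : ∀ x, x ∉ X → ∀ y, A x y = 0)
    {p : Λ → ℝ} (hp : ∀ l, 0 ≤ p l) (hp1 : ∑ l, p l = 1) {good : Λ} (h1 : 1 - p good ≤ 1 / 8192)
    {ν : Λ → Measure ℝ} (hν : ∀ k, IsProbabilityMeasure (ν k)) (E : ℝ)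
    {e : (Tor N → Λ) → Tor N → ℝ} (he : ∀ l x, 0 < e l x) (hbig : ∀ l x, l x = good → 32 ≤ e l x)
    {κ : Type*} [Fintype κ] {F : κ → Tor N → ℝ} {Λf : ℝ}
    (hF : ∀ x y, ∑ k, (F k x - F k y) ^ 2 ≤ Λf ^ 2 * (nrm (x - y) : ℝ) ^ 2) :
    PhiG A p ν E F e ≤ 22 * (Λf ^ 2 * X.card) := by
  classical
  haveI := hν
  obtain ⟨B, hB⟩ : ∃ B : (Tor N → Λ) → Finset (Tor N),
      B = fun l => Finset.univ.filter fun x => l x ≠ good := ⟨_, rfl⟩
  have hBm : ∀ l x, x ∈ B l ↔ l x ≠ good := by
    intro l x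
    rw [hB]
    simp
  have hEx : ∀ l : Tor N → Λ, Ex (fun x => ν (l x)) E (e l) (fun W => ∑ k, En A W (F k)) ≤
      Λf ^ 2 * ∑ b ∈ X, FB1 N b (B l) := by
    intro l
    have him : ∀ v x, (WV E (e l) v x).im < 0 := by
      intro v x
      have h2 : (WV E (e l) v x).im = -e l x := by simp [WV]
      rw [h2]
      linarith [he l x]
    unfold Ex
    have h0 : ∀ v, 0 ≤ ∑ k, En A (WV E (e l) v) (F k) := fun v =>
      Finset.sum_nonneg fun k _ => Finset.sum_nonneg fun x _ => Finset.sum_nonneg fun y _ =>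
        mul_nonneg (mul_nonneg (mul_nonneg (by linarith [him v x]) (by linarith [him v y]))
          (KK_nonneg _ _)) (sq_nonneg _)
    have h3 : ∀ v, ∑ k, En A (WV E (e l) v) (F k) ≤ Λf ^ 2 * ∑ b ∈ X, FB1 N b (B l) := by
      intro v
      refine start_EnA hs hA hX (him v) (B l) (fun x hx => ?_) hF
      have h2 : (WV E (e l) v x).im = -e l x := by simp [WV]
      rw [h2, neg_neg]
      refine hbig l x ?_
      by_contra hcon
      exact hx ((hBm l x).2 hcon)
    refine (integral_mono_of_nonneg (Filter.Eventually.of_forall h0) (integrable_const _)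
      (Filter.Eventually.of_forall h3)).trans ?_
    simp
  unfold PhiG AvG
  calc ∑ l : Tor N → Λ, (∏ x, p (l x)) * Ex (fun x => ν (l x)) E (e l)
        (fun W => ∑ k, En A W (F k))
      ≤ ∑ l : Tor N → Λ, (∏ x, p (l x)) * (Λf ^ 2 * ∑ b ∈ X, FB1 N b (B l)) :=
        Finset.sum_le_sum fun l _ => mul_le_mul_of_nonneg_left (hEx l)
          (Finset.prod_nonneg fun x _ => hp _)
    _ = Λf ^ 2 * ∑ b ∈ X, ∑ l : Tor N → Λ, (∏ x, p (l x)) * FB1 N b (B l) := by
        rw [Finset.sum_comm, Finset.mul_sum]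
        refine Finset.sum_congr rfl fun l _ => ?_
        rw [← Finset.mul_sum]
        ring
    _ ≤ Λf ^ 2 * ∑ b ∈ X, 22 := by
        refine mul_le_mul_of_nonneg_left (Finset.sum_le_sum fun b _ => ?_) (sq_nonneg _)
        exact FB1_sum_labels b p hp hp1 good h1 fun L x hx => (hBm L x).1 hx
    _ = 22 * (Λf ^ 2 * X.card) := by
        rw [Finset.sum_const, nsmul_eq_mul]
        ring

end labels

end P365V4.Start77
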