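import Vale.Agent.P365.V4.FlowV4_548
import Vale.Agent.P365.V4.Start77

/-!
# P365-T2: the energy bound at every state of the chain.

START + stage `0` (trivial rate `10 / s`) + growth on the stages `1, …, i + 1`.
-/

set_option linter.all false

namespace Vale.Agent.P365.J376

open P365L P365O P365T1 P365L.TL Matrix Complex MeasureTheory Filter Topology Set
open scoped ComplexConjugate ENNReal

section v4

variable {N : ℕ} [NeZero N] {D : V4 N} {ρ : Measure ℝ}

/-- the accumulated rate before stage `i + 1` -/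
noncomputable def V4.acc (D : V4 N) (C : ℝ) (ηc ηb : ℕ → ℝ) (i : ℕ) : ℝ :=
  10 * Real.log (1 / D.t 0) +
    ∑ j ∈ Finset.range i, 10 * C * (ηc j + 2 * ηb j) * Real.log (1 / D.t (j + 1))

theorem eT_zero {ι Λ : Type*} (u w : (ι → Λ) → ι → ℝ) :
    eT u w 0 = fun l x => u l x + w l x := by
  funext l x
  simp [eT]

theorem eT_log {ι Λ : Type*} (u w : (ι → Λ) → ι → ℝ) {t : ℝ} (ht : 0 < t) :
    eT u w (Real.log (1 / t)) = fun l x => u l x + t * w l x := by
  funext l x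
  rw [eT, one_div, Real.log_inv, neg_neg, Real.exp_log ht]

/-- **START and stage `0`** -/
theorem V4.Ok.state_zero (h : D.Ok ρ) {κ : Type} [Fintype κ] {F : κ → Tor N → ℝ} {Λf : ℝ}
    (hF : VecLip F Λf) (E : ℝ) {s : ℝ} (hs : 0 < s) (hs1 : s ≤ 1) :
    PhiG (ATX N D.X) D.p D.ν E F (fun l x => D.us 0 l x + s * D.Ws 0 l x) +
        Λf ^ 2 * D.X.card ≤
      23 * (Λf ^ 2 * D.X.card) * Real.exp (10 * Real.log (1 / s)) := by
  haveI := h.prob
  have hc : 0 ≤ Λf ^ 2 * (D.X.card : ℝ) := by positivity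
  have h1 := stage_inv (p := D.p) (ν := D.ν) (E := E) (f := F) (A := ATX N D.X)
    (c := Λf ^ 2 * (D.X.card : ℝ)) (η := 10) (t := s) (u := D.us 0) (w := D.Ws 0)
    (ATX_symm N D.X) h.b_pos (show (0 : ℝ) < 33 by norm_num)
    (fun l x => h.us_ge 0 l x) (fun l x => h.toOk.Ws_nonneg (by omega) l x)
    (fun l x => h.toOk.Ws_le (by omega) l x) hs hs1 (fun r hr => by
      have hr0 : 0 < r := hs.trans hr.1
      have hpos : ∀ l x, 0 < D.us 0 l x + r * D.Ws 0 l x := fun l x => by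
        have h2 := h.us_ge 0 l x
        have h3 := h.b_pos
        have h4 := mul_nonneg hr0.le (h.toOk.Ws_nonneg (i := 0) (by omega) l x)
        linarith
      refine (CostG_triv (ATX_symm N D.X) h.p_nonneg hr0 hpos
        (fun l x => h.toOk.Ws_nonneg (by omega) l x) (fun l x => ?_)).trans ?_
      · have h2 := h.us_ge 0 l x
        have h3 := h.b_pos
        linarith
      · exact mul_le_mul_of_nonneg_left (le_add_of_nonneg_right hc) (by positivity))
  refine h1.trans (mul_le_mul_of_nonneg_right ?_ (Real.exp_pos _).le)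
  have h2 := P365V4.Start77.start (A := ATX N D.X) (X := D.X) (p := D.p) (ν := D.ν)
    (good := D.good) (ATX_symm N D.X) (fun x y => by
      rw [abs_of_nonneg (ATX_nonneg x y)]
      exact ATX_le x y) (fun x hx y => ATX_of_not_left hx y) h.p_nonneg h.p_sum h.p_good
    h.prob E (e := fun l x => D.us 0 l x + D.Ws 0 l x) (fun l x => by
      have h2 := h.us_ge 0 l x
      have h3 := h.b_pos
      have h4 := h.toOk.Ws_nonneg (i := 0) (by omega) l x
      linarith) (fun l x hl => by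
      have h2 := h.us_ge 0 l x
      have h3 := h.b_pos
      have h4 : D.Ws 0 l x = 32 := by
        simp only [V3.Ws]
        rw [if_pos hl]
      linarith) hF
  linarith

/-- the state at the beginning of stage `i + 1` -/
theorem V4.Ok.state_start (h : D.Ok ρ) {κ : Type} [Fintype κ] {F : κ → Tor N → ℝ} {Λf : ℝ}
    (hF : VecLip F Λf) {E C : ℝ} {ηc ηb : ℕ → ℝ} (hηc : ∀ j ≤ D.I, 0 ≤ ηc j)
    (hηb : ∀ j ≤ D.I, 0 ≤ ηb j) (hC0 : 0 ≤ C) (hC : ∀ k, D.mov k → Cau2 E C (D.ν k))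
    (HC : ∀ j ≤ D.I, ∀ s ∈ Ioo (D.t (j + 1)) 1,
      HC4 D.toV3 N D.X E (D.prof j s s) j (ηc j))
    (HB : ∀ j ≤ D.I, ∀ s ∈ Ioo (D.t (j + 1)) 1,
      HBe D.toV3 N D.X F E (D.prof j s s) j s (ηb j) (Λf ^ 2 * D.X.card)) :
    ∀ i ≤ D.I,
      PhiG (ATX N D.X) D.p D.ν E F (eT (D.us (i + 1)) (D.Ws (i + 1)) 0) + Λf ^ 2 * D.X.card ≤
        23 * (Λf ^ 2 * D.X.card) * Real.exp (D.acc C ηc ηb i) := by
  intro i
  induction i with
  | zero =>
    intro _
    have h1 := h.state_zero hF E (h.t_pos 0 (by omega)) (h.t_le 0 (by omega))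
    have h2 : (fun l x => D.us 0 l x + D.t 0 * D.Ws 0 l x) =
        eT (D.us (0 + 1)) (D.Ws (0 + 1)) 0 := by
      rw [eT_zero]
      funext l x
      exact V4.link (by omega) l x
    rw [h2] at h1
    unfold V4.acc
    rw [Finset.range_zero, Finset.sum_empty, add_zero]
    exact h1
  | succ i ih =>
    intro hi
    have hi' : i ≤ D.I := by omega
    have ht := h.t_pos (i + 1) (by omega)
    have ht1 := h.t_le (i + 1) (by omega)
    have hlog : 0 ≤ Real.log (1 / D.t (i + 1)) := Real.log_nonneg (by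
      rw [le_div_iff₀ ht]
      linarith)
    have hmem : ∀ τ ∈ Ioo 0 (Real.log (1 / D.t (i + 1))),
        Real.exp (-τ) ∈ Ioo (D.t (i + 1)) 1 := by
      intro τ hτ
      constructor
      · have h3 : -Real.log (1 / D.t (i + 1)) < -τ := neg_lt_neg hτ.2
        rw [one_div, Real.log_inv, neg_neg] at h3
        calc D.t (i + 1) = Real.exp (Real.log (D.t (i + 1))) := (Real.exp_log ht).symm
          _ < Real.exp (-τ) := Real.exp_lt_exp.2 h3
      · exact Real.exp_lt_one_iff.2 (by linarith [hτ.1])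
    have h1 := h.growth_log F (E := E) hi' (hηc i hi') (hηb i hi')
      (show 0 ≤ Λf ^ 2 * (D.X.card : ℝ) by positivity) hC0 hC le_rfl hlog
      (fun τ hτ => HC i hi' _ (hmem τ hτ)) (fun τ hτ => HB i hi' _ (hmem τ hτ))
    have h2 : eT (D.us (i + 1)) (D.Ws (i + 1)) (Real.log (1 / D.t (i + 1))) =
        eT (D.us (i + 1 + 1)) (D.Ws (i + 1 + 1)) 0 := by
      rw [eT_zero, eT_log _ _ ht]
      funext l x
      exact V4.link (by omega) l x
    rw [h2] at h1
    refine h1.trans ?_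
    have h3 : D.acc C ηc ηb (i + 1) = D.acc C ηc ηb i +
        10 * C * (ηc i + 2 * ηb i) * (Real.log (1 / D.t (i + 1)) - 0) := by
      unfold V4.acc
      rw [Finset.sum_range_succ]
      ring
    rw [h3, Real.exp_add, ← mul_assoc]
    exact mul_le_mul_of_nonneg_right (ih hi') (Real.exp_pos _).le

/-- **the energy bound at every state**: stage `i + 1`, logarithmic time `τ` -/
theorem V4.Ok.state_le (h : D.Ok ρ) {κ : Type} [Fintype κ] {F : κ → Tor N → ℝ} {Λf : ℝ}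
    (hF : VecLip F Λf) {E C : ℝ} {ηc ηb : ℕ → ℝ} (hηc : ∀ j ≤ D.I, 0 ≤ ηc j)
    (hηb : ∀ j ≤ D.I, 0 ≤ ηb j) (hC0 : 0 ≤ C) (hC : ∀ k, D.mov k → Cau2 E C (D.ν k))
    (HC : ∀ j ≤ D.I, ∀ s ∈ Ioo (D.t (j + 1)) 1,
      HC4 D.toV3 N D.X E (D.prof j s s) j (ηc j))
    (HB : ∀ j ≤ D.I, ∀ s ∈ Ioo (D.t (j + 1)) 1,
      HBe D.toV3 N D.X F E (D.prof j s s) j s (ηb j) (Λf ^ 2 * D.X.card))
    {i : ℕ} (hi : i ≤ D.I) {τ : ℝ} (hτ : τ ∈ Icc 0 (Real.log (1 / D.t (i + 1)))) :
    PhiG (ATX N D.X) D.p D.ν E F (eT (D.us (i + 1)) (D.Ws (i + 1)) τ) + Λf ^ 2 * D.X.card ≤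
      23 * (Λf ^ 2 * D.X.card) *
        Real.exp (D.acc C ηc ηb i + 10 * C * (ηc i + 2 * ηb i) * τ) := by
  have ht := h.t_pos (i + 1) (by omega)
  have h1 := h.growth_log F (E := E) hi (hηc i hi) (hηb i hi)
    (show 0 ≤ Λf ^ 2 * (D.X.card : ℝ) by positivity) hC0 hC le_rfl hτ.1
    (fun r hr => HC i hi _ ⟨?_, ?_⟩) (fun r hr => HB i hi _ ⟨?_, ?_⟩)
  · refine h1.trans ?_
    rw [sub_zero, Real.exp_add, ← mul_assoc]
    exact mul_le_mul_of_nonneg_right (h.state_start hF hηc hηb hC0 hC HC HB i hi)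
      (Real.exp_pos _).le
  all_goals first
    | exact Real.exp_lt_one_iff.2 (by linarith [hr.1])
    | (have h3 : -Real.log (1 / D.t (i + 1)) < -r := neg_lt_neg (hr.2.trans_le hτ.2)
       rw [one_div, Real.log_inv, neg_neg] at h3
       calc D.t (i + 1) = Real.exp (Real.log (D.t (i + 1))) := (Real.exp_log ht).symm
         _ < Real.exp (-r) := Real.exp_lt_exp.2 h3)

/-- the per-state bound with one constant -/
theorem V4.Ok.state_le_const (h : D.Ok ρ) {κ : Type} [Fintype κ] {F : κ → Tor N → ℝ} {Λf : ℝ}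
    (hF : VecLip F Λf) {E C B : ℝ} {ηc ηb : ℕ → ℝ} (hηc : ∀ j ≤ D.I, 0 ≤ ηc j)
    (hηb : ∀ j ≤ D.I, 0 ≤ ηb j) (hC0 : 0 ≤ C) (hC : ∀ k, D.mov k → Cau2 E C (D.ν k))
    (HC : ∀ j ≤ D.I, ∀ s ∈ Ioo (D.t (j + 1)) 1,
      HC4 D.toV3 N D.X E (D.prof j s s) j (ηc j))
    (HB : ∀ j ≤ D.I, ∀ s ∈ Ioo (D.t (j + 1)) 1,
      HBe D.toV3 N D.X F E (D.prof j s s) j s (ηb j) (Λf ^ 2 * D.X.card))
    (hB : D.acc C ηc ηb (D.I + 1) ≤ B)
    {i : ℕ} (hi : i ≤ D.I) {τ : ℝ} (hτ : τ ∈ Icc 0 (Real.log (1 / D.t (i + 1)))) :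
    PhiG (ATX N D.X) D.p D.ν E F (eT (D.us (i + 1)) (D.Ws (i + 1)) τ) + Λf ^ 2 * D.X.card ≤
      23 * (Λf ^ 2 * D.X.card) * Real.exp B := by
  refine (h.state_le hF hηc hηb hC0 hC HC HB hi hτ).trans ?_
  refine mul_le_mul_of_nonneg_left (Real.exp_le_exp.2 ?_) (by positivity)
  refine le_trans ?_ hB
  have hlog : ∀ j ≤ D.I, 0 ≤ Real.log (1 / D.t (j + 1)) := fun j hj => Real.log_nonneg (by
    rw [le_div_iff₀ (h.t_pos (j + 1) (by omega))]
    linarith [h.t_le (j + 1) (by omega)])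
  have h1 : D.acc C ηc ηb i + 10 * C * (ηc i + 2 * ηb i) * τ ≤ D.acc C ηc ηb (i + 1) := by
    unfold V4.acc
    rw [Finset.sum_range_succ, ← add_assoc]
    have h2 : 0 ≤ 10 * C * (ηc i + 2 * ηb i) := by
      have := hηc i hi
      have := hηb i hi
      positivity
    have h3 := mul_le_mul_of_nonneg_left hτ.2 h2
    linarith
  refine h1.trans ?_
  unfold V4.acc
  have h4 : ∑ j ∈ Finset.range (i + 1), 10 * C * (ηc j + 2 * ηb j) *
      Real.log (1 / D.t (j + 1)) ≤ ∑ j ∈ Finset.range (D.I + 1),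
        10 * C * (ηc j + 2 * ηb j) * Real.log (1 / D.t (j + 1)) := by
    refine Finset.sum_le_sum_of_subset_of_nonneg
      (Finset.range_mono (by omega)) fun j hj _ => ?_
    rw [Finset.mem_range] at hj
    have h5 := hηc j (by omega)
    have h6 := hηb j (by omega)
    have h7 := hlog j (by omega)
    positivity
  linarith

end v4

end Vale.Agent.P365.J376
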