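import Vale.Agent.P365.V4.FlowLoss548b
import Vale.Agent.P365.V4.Inst

/-!
# P365-T2, K-FLOW, part 3: the flow of the energy with the loss kept, on the stages of `V4`.

`YG_le_gen`: the weighted sum of the off-resonant energies (no cost, real form) from `HC4` and
`HBe`.  `V4.Ok.YG_log`, `V4.Ok.flow_*`: stage `i + 1` in logarithmic time `s = exp (-τ)`.
-/

set_option linter.all false

namespace Vale.Agent.P365.J376

open P365L P365O P365T1 P365L.TL Matrix Complex MeasureTheory Filter Topology Set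
open scoped ComplexConjugate ENNReal

section bridge

variable {ι : Type} [Fintype ι] [DecidableEq ι] {A : Matrix ι ι ℝ}
  {Λ : Type*} [Fintype Λ] {p : Λ → ℝ} {ν : Λ → Measure ℝ} {E : ℝ}
  {κ : Type*} [Fintype κ] {f : κ → ι → ℝ}

/-- from the `lintegral` form to the real form -/
theorem YG_le_of_lintegral (hA : A.IsSymm) [∀ k, IsProbabilityMeasure (ν k)]
    (hp : ∀ k, 0 ≤ p k) {e w : (ι → Λ) → ι → ℝ} (he : ∀ l x, 0 < e l x)
    (hw0 : ∀ l x, 0 ≤ w l x) {r c : ℝ} (hr : 0 ≤ r) (hc : 0 ≤ c)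
    (H : ∑ l : ι → Λ, ENNReal.ofReal (∏ x, p (l x)) * ∑ x, ENNReal.ofReal (w l x) *
        ∑ k, ∫⁻ v, ENNReal.ofReal (Yf A (WV E (e l) v) (f k) x) ∂(Measure.pi fun x => ν (l x)) ≤
      ENNReal.ofReal r * (∑ l : ι → Λ, ENNReal.ofReal (∏ x, p (l x)) *
        ∑ x, ENNReal.ofReal (e l x) *
          ∑ k, ∫⁻ v, ENNReal.ofReal (Mf A (WV E (e l) v) (f k) x)
            ∂(Measure.pi fun x => ν (l x)) + ENNReal.ofReal c)) :
    YG A p ν E f e w ≤ r * (PhiG A p ν E f e + c) := by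
  have hPhi0 : 0 ≤ PhiG A p ν E f e := PhiG_nonneg hp fun l x => (he l x).le
  rw [← ENNReal.ofReal_le_ofReal_iff (mul_nonneg hr (add_nonneg hPhi0 hc)),
    ENNReal.ofReal_mul hr, ENNReal.ofReal_add hPhi0 hc, PhiG_eq_sum_Mf hA he, YG]
  rw [ofReal_sum_prod hp hw0 fun l x k =>
      Ex_nonneg _ _ _ fun v => Yf_nonneg (WV_neg (he l) v) _ _,
    ofReal_sum_prod hp (fun l x => (he l x).le) fun l x k =>
      Ex_nonneg _ _ _ fun v => Mf_nonneg (WV_neg (he l) v) _ _]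
  simp_rw [ofReal_Ex_Yf hA _ (he _), ofReal_Ex_Mf hA _ (he _)]
  exact H

end bridge

section hub

variable {D : V3} {N : ℕ} [NeZero N] {X : Finset (Tor N)} {κ : Type} [Fintype κ]
  {F : κ → Tor N → ℝ} {E : ℝ} {e : (Tor N → D.Λ) → Tor N → ℝ} {i : ℕ} {sb sc ε b1 : ℝ}

/-- **general hub without the one-variable cost** (real form of `hub_gen`) -/
theorem YG_le_gen {ρ : Measure ℝ} (h : D.Ok ρ) (hi : i ≤ D.I) {ηc ηb c σ θ : ℝ}
    (he : Prf D N i sb sc ε b1 e) (hsb : 0 < sb) (hηc : 0 ≤ ηc)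
    (hηb : 0 ≤ ηb) (hc : 0 ≤ c) (hσ : 0 < σ) (hθ : 0 ≤ θ)
    (HC : HC4 D N X E e i ηc) (HB : θ ≠ 0 → HBe D N X F E e i sb ηb c)
    {w : (Tor N → D.Λ) → Tor N → ℝ} (hw0 : ∀ l x, 0 ≤ w l x)
    (hwm : ∀ l x, ¬ D.mov (l x) → w l x = 0)
    (hwc : ∀ l x, D.cen i l x → σ * w l x ≤ e l x)
    (hwb : ∀ l x, D.mov (l x) → ¬ D.cen i l x → w l x ≤ θ) :
    YG (ATX N X) D.p D.ν E F e w ≤
      (ηc / σ + θ * (ηb / (sb * (D.e0 i * Real.exp (-(D.a i)))))) *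
        (PhiG (ATX N X) D.p D.ν E F e + c) := by
  classical
  haveI := h.prob
  have h00 := h.e0_pos i hi
  have hden : 0 < sb * (D.e0 i * Real.exp (-(D.a i))) := by positivity
  set η' : ℝ := ηb / (sb * (D.e0 i * Real.exp (-(D.a i)))) with hη'
  have hη'0 : 0 ≤ η' := div_nonneg hηb hden.le
  refine YG_le_of_lintegral (ATX_symm N X) h.p_nonneg he.pos hw0 (by positivity) hc ?_
  set P : (Tor N → D.Λ) → ℝ≥0∞ := fun l => ENNReal.ofReal (∏ x, D.p (l x)) with hP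
  have hsplit : ∀ l x, ENNReal.ofReal (w l x) * FY4 D N X F E e l x ≤
      ENNReal.ofReal (ηc / σ) * (ENNReal.ofReal (e l x) * FM4 D N X F E e l x) +
      ENNReal.ofReal θ *
        (if x ∈ X ∧ D.mov (l x) ∧ ¬ D.cen i l x then FY4 D N X F E e l x else 0) := by
    intro l x
    have hW0 := hw0 l x
    by_cases hlx : D.cen i l x
    · refine le_trans ?_ le_self_add
      calc ENNReal.ofReal (w l x) * FY4 D N X F E e l x
          ≤ ENNReal.ofReal (w l x) * (ENNReal.ofReal ηc * FM4 D N X F E e l x) :=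
            mul_le_mul_right (FY4_le_of_HC4 HC he.pos hlx) _
        _ = ENNReal.ofReal (w l x * ηc) * FM4 D N X F E e l x := by
            rw [← mul_assoc, ← ENNReal.ofReal_mul hW0]
        _ ≤ ENNReal.ofReal (ηc / σ * e l x) * FM4 D N X F E e l x := by
            refine mul_le_mul_left (ENNReal.ofReal_le_ofReal ?_) _
            have h1 := hwc l x hlx
            rw [div_mul_eq_mul_div, le_div_iff₀ hσ]
            nlinarith
        _ = _ := by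
            rw [ENNReal.ofReal_mul (by positivity), mul_assoc]
    · by_cases hx : x ∈ X
      · by_cases hmv : D.mov (l x)
        · rw [if_pos ⟨hx, hmv, hlx⟩]
          refine le_trans ?_ le_add_self
          exact mul_le_mul_left (ENNReal.ofReal_le_ofReal (hwb l x hmv hlx)) _
        · rw [hwm l x hmv]
          simp
      · rw [FY4_off he.pos l hx, mul_zero]
        exact zero_le
  have hHB : ENNReal.ofReal θ *
        ∑ l : Tor N → D.Λ, P l * ∑ x,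
          (if x ∈ X ∧ D.mov (l x) ∧ ¬ D.cen i l x then FY4 D N X F E e l x else 0) ≤
      ENNReal.ofReal θ *
        (ENNReal.ofReal η' * (FR4 D N X F E e + ENNReal.ofReal c)) := by
    by_cases h0 : θ = 0
    · rw [h0, ENNReal.ofReal_zero, zero_mul, zero_mul]
    · exact mul_le_mul_right (HB h0) _
  change ∑ l : Tor N → D.Λ, P l * ∑ x, ENNReal.ofReal (w l x) * FY4 D N X F E e l x ≤
    ENNReal.ofReal (ηc / σ + θ * η') * (FR4 D N X F E e + ENNReal.ofReal c)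
  calc ∑ l : Tor N → D.Λ, P l * ∑ x, ENNReal.ofReal (w l x) * FY4 D N X F E e l x
      ≤ ∑ l : Tor N → D.Λ, P l * ∑ x,
        (ENNReal.ofReal (ηc / σ) * (ENNReal.ofReal (e l x) * FM4 D N X F E e l x) +
        ENNReal.ofReal θ *
          (if x ∈ X ∧ D.mov (l x) ∧ ¬ D.cen i l x then FY4 D N X F E e l x else 0)) := by
        gcongr with l _ x _
        exact hsplit l x
    _ = ENNReal.ofReal (ηc / σ) * FR4 D N X F E e + ENNReal.ofReal θ *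
        ∑ l : Tor N → D.Λ, P l * ∑ x,
          (if x ∈ X ∧ D.mov (l x) ∧ ¬ D.cen i l x then FY4 D N X F E e l x else 0) := by
        rw [FR4, Finset.mul_sum, Finset.mul_sum, ← Finset.sum_add_distrib]
        refine Finset.sum_congr rfl fun l _ => ?_
        rw [Finset.sum_add_distrib, ← Finset.mul_sum, ← Finset.mul_sum]
        ring
    _ ≤ ENNReal.ofReal (ηc / σ) * FR4 D N X F E e + ENNReal.ofReal θ *
        (ENNReal.ofReal η' * (FR4 D N X F E e + ENNReal.ofReal c)) := add_le_add le_rfl hHB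
    _ ≤ ENNReal.ofReal (ηc / σ) * (FR4 D N X F E e + ENNReal.ofReal c) +
        ENNReal.ofReal (θ * η') * (FR4 D N X F E e + ENNReal.ofReal c) := by
        refine add_le_add (mul_le_mul_right le_self_add _) (le_of_eq ?_)
        rw [← mul_assoc, ← ENNReal.ofReal_mul hθ]
    _ = ENNReal.ofReal (ηc / σ + θ * η') *
        (FR4 D N X F E e + ENNReal.ofReal c) := by
        rw [← add_mul, ← ENNReal.ofReal_add (by positivity) (by positivity)]

end hub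

/-! ### the stages of `V4` in logarithmic time -/

section v4

variable {N : ℕ} [NeZero N] {D : V4 N} {ρ : Measure ℝ}

/-- the profile of stage `i + 1` in logarithmic time -/
theorem V4.Ok.prof_log (h : D.Ok ρ) {i : ℕ} (hi : i ≤ D.I) (τ : ℝ) :
    D.prof i (Real.exp (-τ)) (Real.exp (-τ)) = eT (D.us (i + 1)) (D.Ws (i + 1)) τ := by
  funext l x
  exact h.prof_diag hi _ l x

/-- off-resonant energies of stage `i + 1`, strength `s` -/
theorem V4.Ok.YG_succ (h : D.Ok ρ) {κ : Type} [Fintype κ] (F : κ → Tor N → ℝ) (E : ℝ)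
    {i : ℕ} (hi : i ≤ D.I) {s ηc ηb c : ℝ} (hs : 0 < s) (hs1 : s ≤ 1) (hηc : 0 ≤ ηc)
    (hηb : 0 ≤ ηb) (hc : 0 ≤ c) (HC : HC4 D.toV3 N D.X E (D.prof i s s) i ηc)
    (HB : HBe D.toV3 N D.X F E (D.prof i s s) i s ηb c) :
    YG (ATX N D.X) D.p D.ν E F (D.prof i s s) (D.Ws (i + 1)) ≤
      (ηc + 2 * ηb) / s * (PhiG (ATX N D.X) D.p D.ν E F (D.prof i s s) + c) := by
  have h0 := h.e0_pos i hi
  have h1 := YG_le_gen h.toOk hi (F := F) (σ := s) (θ := 2 * (D.e0 i * Real.exp (-(D.a i))))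
    (h.prf hi hs le_rfl hs1) hs hηc hηb hc hs (by positivity) HC
    (fun _ => HB) (w := D.Ws (i + 1)) (fun l x => h.toOk.Ws_nonneg (by omega) l x)
    (fun l x hx => h.toOk.Ws_of_not_mov (by omega) hx)
    (fun l x _ => h.sb_mul_Ws_le hi le_rfl l x)
    (fun l x hm hn => (h.toOk.Ws_bulk hi hm hn).2)
  refine h1.trans (le_of_eq ?_)
  congr 1
  have h3 := Real.exp_pos (-(D.a i))
  field_simp

/-- **the hub in logarithmic time** -/
theorem V4.Ok.YG_log (h : D.Ok ρ) {κ : Type} [Fintype κ] (F : κ → Tor N → ℝ) (E : ℝ)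
    {i : ℕ} (hi : i ≤ D.I) {ηc ηb c : ℝ} (hηc : 0 ≤ ηc) (hηb : 0 ≤ ηb) (hc : 0 ≤ c)
    {τ : ℝ} (hτ : 0 ≤ τ)
    (HC : HC4 D.toV3 N D.X E (D.prof i (Real.exp (-τ)) (Real.exp (-τ))) i ηc)
    (HB : HBe D.toV3 N D.X F E (D.prof i (Real.exp (-τ)) (Real.exp (-τ))) i
      (Real.exp (-τ)) ηb c) :
    YG (ATX N D.X) D.p D.ν E F (eT (D.us (i + 1)) (D.Ws (i + 1)) τ) (wT (D.Ws (i + 1)) τ) ≤
      (ηc + 2 * ηb) *
        (PhiG (ATX N D.X) D.p D.ν E F (eT (D.us (i + 1)) (D.Ws (i + 1)) τ) + c) := by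
  have hs : 0 < Real.exp (-τ) := Real.exp_pos _
  have hs1 : Real.exp (-τ) ≤ 1 := Real.exp_le_one_iff.2 (by linarith)
  have h1 := h.YG_succ F E hi hs hs1 hηc hηb hc HC HB
  rw [h.prof_log hi τ] at h1
  have h2 : YG (ATX N D.X) D.p D.ν E F (eT (D.us (i + 1)) (D.Ws (i + 1)) τ)
      (wT (D.Ws (i + 1)) τ) = Real.exp (-τ) *
      YG (ATX N D.X) D.p D.ν E F (eT (D.us (i + 1)) (D.Ws (i + 1)) τ) (D.Ws (i + 1)) :=
    YG_smul _ _ _
  rw [h2]
  have h3 := mul_le_mul_of_nonneg_left h1 hs.le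
  refine h3.trans (le_of_eq ?_)
  field_simp

/-- the law error of stage `i + 1` -/
theorem V4.Ok.abs_ErrG_log (h : D.Ok ρ) {κ : Type} [Fintype κ] (F : κ → Tor N → ℝ) {E : ℝ}
    {i : ℕ} (hi : i ≤ D.I) {ηc ηb c C : ℝ} (hηc : 0 ≤ ηc) (hηb : 0 ≤ ηb) (hc : 0 ≤ c)
    (hC0 : 0 ≤ C) (hC : ∀ k, D.mov k → Cau2 E C (D.ν k)) {τ : ℝ} (hτ : 0 ≤ τ)
    (HC : HC4 D.toV3 N D.X E (D.prof i (Real.exp (-τ)) (Real.exp (-τ))) i ηc)
    (HB : HBe D.toV3 N D.X F E (D.prof i (Real.exp (-τ)) (Real.exp (-τ))) i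
      (Real.exp (-τ)) ηb c) :
    |ErrG (ATX N D.X) D.p D.ν E F (eT (D.us (i + 1)) (D.Ws (i + 1)) τ) (wT (D.Ws (i + 1)) τ)| ≤
      10 * C * (ηc + 2 * ηb) *
        (PhiG (ATX N D.X) D.p D.ν E F (eT (D.us (i + 1)) (D.Ws (i + 1)) τ) + c) := by
  haveI := h.prob
  have h1 := h.YG_log F E hi hηc hηb hc hτ HC HB
  have h2 := abs_ErrG_le (A := ATX N D.X) (E := E) (f := F) (ν := D.ν) (ATX_symm N D.X)
    h.p_nonneg (e := eT (D.us (i + 1)) (D.Ws (i + 1)) τ) (w := wT (D.Ws (i + 1)) τ)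
    (eT_pos h.b_pos (fun l x => h.us_ge (i + 1) l x)
      (fun l x => h.toOk.Ws_nonneg (by omega) l x) τ)
    (wT_nonneg (fun l x => h.toOk.Ws_nonneg (by omega) l x) τ) (C := C)
    (fun l x hx => hC _ (by
      by_contra hcon
      apply hx
      unfold wT
      rw [h.toOk.Ws_of_not_mov (by omega) hcon, mul_zero]))
  refine h2.trans ?_
  have h3 := mul_le_mul_of_nonneg_left h1 (show (0 : ℝ) ≤ 10 * C by positivity)
  refine h3.trans (le_of_eq ?_)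
  ring

/-- **the derivative in logarithmic time** -/
theorem V4.Ok.hasDerivAt_log (h : D.Ok ρ) {κ : Type} [Fintype κ] (F : κ → Tor N → ℝ) (E : ℝ)
    {i : ℕ} (hi : i ≤ D.I) (τ : ℝ) :
    HasDerivAt (fun τ : ℝ => PhiG (ATX N D.X) D.p D.ν E F
        (eT (D.us (i + 1)) (D.Ws (i + 1)) τ))
      (-(LossG (ATX N D.X) D.p D.ν E F (eT (D.us (i + 1)) (D.Ws (i + 1)) τ)
          (wT (D.Ws (i + 1)) τ) +
        ErrG (ATX N D.X) D.p D.ν E F (eT (D.us (i + 1)) (D.Ws (i + 1)) τ)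
          (wT (D.Ws (i + 1)) τ))) τ := by
  haveI := h.prob
  exact hasDerivAt_PhiG_log (ATX_symm N D.X) h.b_pos (show (0 : ℝ) < 33 by norm_num)
    (fun l x => h.us_ge (i + 1) l x) (fun l x => h.toOk.Ws_nonneg (by omega) l x)
    (fun l x => h.toOk.Ws_le (by omega) l x) τ

/-- **growth on a stage** -/
theorem V4.Ok.growth_log (h : D.Ok ρ) {κ : Type} [Fintype κ] (F : κ → Tor N → ℝ) {E : ℝ}
    {i : ℕ} (hi : i ≤ D.I) {ηc ηb c C : ℝ} (hηc : 0 ≤ ηc) (hηb : 0 ≤ ηb) (hc : 0 ≤ c)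
    (hC0 : 0 ≤ C) (hC : ∀ k, D.mov k → Cau2 E C (D.ν k)) {τ₁ τ₂ : ℝ} (h0 : 0 ≤ τ₁)
    (h12 : τ₁ ≤ τ₂)
    (HC : ∀ τ ∈ Ioo τ₁ τ₂,
      HC4 D.toV3 N D.X E (D.prof i (Real.exp (-τ)) (Real.exp (-τ))) i ηc)
    (HB : ∀ τ ∈ Ioo τ₁ τ₂,
      HBe D.toV3 N D.X F E (D.prof i (Real.exp (-τ)) (Real.exp (-τ))) i
        (Real.exp (-τ)) ηb c) :
    PhiG (ATX N D.X) D.p D.ν E F (eT (D.us (i + 1)) (D.Ws (i + 1)) τ₂) + c ≤
      (PhiG (ATX N D.X) D.p D.ν E F (eT (D.us (i + 1)) (D.Ws (i + 1)) τ₁) + c) *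
        Real.exp (10 * C * (ηc + 2 * ηb) * (τ₂ - τ₁)) := by
  haveI := h.prob
  exact PhiG_log_le (ATX_symm N D.X) h.p_nonneg h.b_pos (show (0 : ℝ) < 33 by norm_num)
    (fun l x => h.us_ge (i + 1) l x) (fun l x => h.toOk.Ws_nonneg (by omega) l x)
    (fun l x => h.toOk.Ws_le (by omega) l x) hC0
    (fun l x hx => hC _ (by
      by_contra hcon
      exact hx (h.toOk.Ws_of_not_mov (by omega) hcon))) h12
    (fun τ hτ => h.YG_log F E hi hηc hηb hc (h0.trans hτ.1.le) (HC τ hτ) (HB τ hτ))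

/-- **the integrated loss of a stage** -/
theorem V4.Ok.loss_log (h : D.Ok ρ) {κ : Type} [Fintype κ] (F : κ → Tor N → ℝ) {E : ℝ}
    {i : ℕ} (hi : i ≤ D.I) {ηc ηb c C M : ℝ} (hηc : 0 ≤ ηc) (hηb : 0 ≤ ηb) (hc : 0 ≤ c)
    (hC0 : 0 ≤ C) (hC : ∀ k, D.mov k → Cau2 E C (D.ν k)) {τ₁ τ₂ : ℝ} (h0 : 0 ≤ τ₁)
    (h12 : τ₁ ≤ τ₂)
    (HC : ∀ τ ∈ Ioo τ₁ τ₂,
      HC4 D.toV3 N D.X E (D.prof i (Real.exp (-τ)) (Real.exp (-τ))) i ηc)
    (HB : ∀ τ ∈ Ioo τ₁ τ₂,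
      HBe D.toV3 N D.X F E (D.prof i (Real.exp (-τ)) (Real.exp (-τ))) i
        (Real.exp (-τ)) ηb c)
    (hM : ∀ τ ∈ Ioo τ₁ τ₂,
      PhiG (ATX N D.X) D.p D.ν E F (eT (D.us (i + 1)) (D.Ws (i + 1)) τ) + c ≤ M) :
    ∫⁻ τ in Ioo τ₁ τ₂, ENNReal.ofReal (LossG (ATX N D.X) D.p D.ν E F
        (eT (D.us (i + 1)) (D.Ws (i + 1)) τ) (wT (D.Ws (i + 1)) τ)) ≤
      ENNReal.ofReal (PhiG (ATX N D.X) D.p D.ν E F (eT (D.us (i + 1)) (D.Ws (i + 1)) τ₁) -
        PhiG (ATX N D.X) D.p D.ν E F (eT (D.us (i + 1)) (D.Ws (i + 1)) τ₂) +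
        10 * C * ((ηc + 2 * ηb) * M) * (τ₂ - τ₁)) := by
  haveI := h.prob
  refine lintegral_LossG_le (ATX_symm N D.X) h.p_nonneg h.b_pos (show (0 : ℝ) < 33 by norm_num)
    (fun l x => h.us_ge (i + 1) l x) (fun l x => h.toOk.Ws_nonneg (by omega) l x)
    (fun l x => h.toOk.Ws_le (by omega) l x) hC0
    (fun l x hx => hC _ (by
      by_contra hcon
      exact hx (h.toOk.Ws_of_not_mov (by omega) hcon))) h12 fun τ hτ => ?_
  refine (h.YG_log F E hi hηc hηb hc (h0.trans hτ.1.le) (HC τ hτ) (HB τ hτ)).trans ?_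
  exact mul_le_mul_of_nonneg_left (hM τ hτ) (by positivity)

end v4

end Vale.Agent.P365.J376
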