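import Vale.Agent.P365.V4.Free227
import Vale.Agent.P365.V4.FlowV4_548
import Vale.Agent.P365.V4.H685.ChainK

/-!
# P365-T2, chain V4: the top file of the K side

`HBdd` = the bulk hubs of the concrete chain (hypothesis, 376), `Wk` = the world of the concrete
chain with free floor `b`, own-label floor `fl` (`b ≤ fl ≤ e0 I`), domain `X` (union of blocks);
`KStage` = centre hub and bulk hub of one stage, with the bounds of the off-resonant energies;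
`ktop` = `KStage` on all stages of all worlds.
-/

set_option linter.all false

namespace P365V4.K685

open P365L P365O P365L.TL P365SH Vale.Agent.P365.C937 Vale.Agent.P365.J376 MeasureTheory Set Filter
open P365T1 P365T1.Link P365T1.Bump P365T1.HCnum P365T2.SeqG P365T2.HCnumG
open P365T2.ConcG (PP QQ DD PP_ok pS nuD AdmS lw_DD nuD_mov' nuD_win)
open P365T1.Conc (Par APar mk Lw tau0 tau0_pos tau0_le l0_pos l0_lt two_l0_le mem_Xr_of_abs)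
open P365V4.Free
open P365V4.H685 (hc4_ddK)
open scoped ENNReal

/-- the bulk hubs of the concrete chain, every rate `1 / r ^ g`, every admissible profile at most
`6 e0`, every finite family of test functions -/
def HBdd (β : ℕ) (lam E : ℝ) : Prop :=
  ∀ g : ℕ, ∃ R : ℕ, 2 ≤ R ∧ ∀ rs, R ≤ rs → ∀ (yf : ℕ → ℤ × ℤ) (Vsf : ℕ → ℤ × ℤ → ℝ) (I : ℕ),
    (∀ r, rs ≤ r → yf r ∈ Xr r) → AdmS β lam yf Vsf rs I →
    ∀ (N : ℕ) [NeZero N] (X : Finset (Tor N)), (∀ j ≤ I, mS β rs j ∣ N) →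
      (∀ j ≤ I, BlkU (mS β rs j) X) → ∀ i ≤ I,
    ∀ (sb sc ε b1 : ℝ) (e : (Tor N → (PP β yf rs I).Lb) → Tor N → ℝ),
      0 < sb → sb ≤ sc → sc ≤ 1 → ε ≤ 6 * e0S β rs i →
      Prf (DD (pS β yf rs I) (nuD β lam yf Vsf rs I)) N i sb sc ε b1 e →
      ∀ (κ : Type) [Fintype κ] (F : κ → Tor N → ℝ) (Λf : ℝ), 0 ≤ Λf → VecLip F Λf →
        HBe (DD (pS β yf rs I) (nuD β lam yf Vsf rs I)) N X F E e i sb
          (1 / (rr β rs i : ℝ) ^ g) (Λf ^ 2 * (X.card : ℝ))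

/-- the world of the concrete chain: floor `b`, own-label floor `fl`, domain `X` -/
noncomputable abbrev Wk (β : ℕ) (lam : ℝ) (yf : ℕ → ℤ × ℤ) (Vsf : ℕ → ℤ × ℤ → ℝ) (rs I : ℕ)
    {N : ℕ} [NeZero N] (X : Finset (Tor N)) (b : ℝ) (fl : (PP β yf rs I).Lb → Tor N → ℝ) :
    V4 N :=
  Wf (tF β rs I b) b (pS β yf rs I) (nuD β lam yf Vsf rs I) X fl (e0S β rs I)

/-- conditions on the world: the floor is between `exp (-r_I ^ A)` and the last strength, the block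
sides divide `N`, the domain is a union of blocks -/
structure WOk (β rs I A : ℕ) {N : ℕ} [NeZero N] (X : Finset (Tor N)) (b : ℝ) {Λ : Type}
    (fl : Λ → Tor N → ℝ) : Prop where
  b_pos : 0 < b
  b_ge : Real.exp (-((rr β rs I : ℝ) ^ A)) ≤ b
  fl_ge : ∀ k x, b ≤ fl k x
  fl_le : ∀ k x, fl k x ≤ e0S β rs I
  dvd : ∀ j ≤ I, mS β rs j ∣ N
  dom : ∀ j ≤ I, BlkU (mS β rs j) X

variable {β : ℕ} [hβ : Fact (2 ≤ β)]

/-- the final factors times the bulk weight are at least `exp (-8 r ^ A')` -/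
theorem tF_own_ge {rs I : ℕ} (hrs : 2 ≤ rs) {b : ℝ} {A : ℕ}
    (hb : Real.exp (-((rr β rs I : ℝ) ^ A)) ≤ b) {i : ℕ} (hi : i ≤ I) :
    Real.exp (-(8 * (rr β rs i : ℝ) ^ (max (max A 5) (5 * β)))) ≤
      tF β rs I b (i + 1) * (e0S β rs i * Real.exp (-(aS β rs i))) := by
  have hr2 : (2 : ℝ) ≤ rr β rs i := two_le_cast_rr hrs i
  have hr1 : (1 : ℝ) ≤ rr β rs i := by linarith
  set M := max (max A 5) (5 * β) with hM
  rcases Nat.lt_or_ge i I with h | h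
  · rw [tF_of_le (show i + 1 ≤ I by omega)]
    refine le_trans (Real.exp_le_exp.2 ?_) (own_ge hrs hi)
    have h1 : (rr β rs i : ℝ) ^ (5 * β) ≤ (rr β rs i : ℝ) ^ M :=
      pow_le_pow_right₀ hr1 (le_max_right _ _)
    linarith
  · have hiI : i = I := by omega
    subst hiI
    rw [tF_last]
    have h1 : (rr β rs i : ℝ) ^ A ≤ (rr β rs i : ℝ) ^ M :=
      pow_le_pow_right₀ hr1 ((le_max_left _ _).trans (le_max_left _ _))
    have h2 : (rr β rs i : ℝ) ^ 5 ≤ (rr β rs i : ℝ) ^ M :=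
      pow_le_pow_right₀ hr1 ((le_max_right _ _).trans (le_max_left _ _))
    have h3 : (rr β rs i : ℝ) ≤ (rr β rs i : ℝ) ^ 5 := by
      calc (rr β rs i : ℝ) = (rr β rs i : ℝ) ^ 1 := (pow_one _).symm
        _ ≤ (rr β rs i : ℝ) ^ 5 := pow_le_pow_right₀ hr1 (by norm_num)
    have h4 : (33 : ℝ) ≤ Real.exp (2 * (rr β rs i : ℝ) ^ M) := by
      have h5 : (4 : ℝ) ≤ 2 * (rr β rs i : ℝ) ^ M := by linarith
      have h6 : Real.exp 4 ≤ Real.exp (2 * (rr β rs i : ℝ) ^ M) := Real.exp_le_exp.2 h5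
      have h7 : (33 : ℝ) ≤ Real.exp 4 := by
        have h8 : (2.7 : ℝ) < Real.exp 1 := by linarith [Real.exp_one_gt_d9]
        have h9 : Real.exp 4 = Real.exp 1 ^ 4 := by
          rw [← Real.exp_nat_mul]
          norm_num
        rw [h9]
        calc (33 : ℝ) ≤ 2.7 ^ 4 := by norm_num
          _ ≤ Real.exp 1 ^ 4 := by gcongr
      exact h7.trans h6
    have h5 : Real.exp (-(8 * (rr β rs i : ℝ) ^ M)) ≤
        Real.exp (-(2 * (rr β rs i : ℝ) ^ M)) * Real.exp (-((rr β rs i : ℝ) ^ A)) *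
          (Real.exp (-(rr β rs i : ℝ)) * Real.exp (-((rr β rs i : ℝ) ^ 5))) := by
      rw [← Real.exp_add, ← Real.exp_add, ← Real.exp_add]
      refine Real.exp_le_exp.2 ?_
      linarith
    refine h5.trans ?_
    have h6 : Real.exp (-(2 * (rr β rs i : ℝ) ^ M)) ≤ 1 / 33 := by
      rw [Real.exp_neg, ← one_div]
      exact one_div_le_one_div_of_le (by norm_num) h4
    have h7 : Real.exp (-(2 * (rr β rs i : ℝ) ^ M)) * Real.exp (-((rr β rs i : ℝ) ^ A)) ≤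
        b / 33 := by
      have h8 := Real.exp_pos (-((rr β rs i : ℝ) ^ A))
      calc Real.exp (-(2 * (rr β rs i : ℝ) ^ M)) * Real.exp (-((rr β rs i : ℝ) ^ A))
          ≤ 1 / 33 * b := by gcongr
        _ = b / 33 := by ring
    exact mul_le_mul_of_nonneg_right h7 (by positivity)

/-! ### one stage of a world -/

/-- centre hub and bulk hub of stage `i + 1` of the world `W`, rate `η`, all strengths from `t`
on -/
structure KStage {N : ℕ} [NeZero N] (W : V4 N) (E : ℝ) (i : ℕ) (η t : ℝ) : Prop where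
  hc : ∀ sc sb : ℝ, t ≤ sb → sb ≤ sc → sc ≤ 1 →
    Vale.Agent.P365.J376.HC4 W.toV3 N W.X E (W.prof i sc sb) i η
  hb : ∀ sc sb : ℝ, 0 < sb → sb ≤ sc → sc ≤ 1 →
    ∀ (κ : Type) [Fintype κ] (F : κ → Tor N → ℝ) (Λf : ℝ), 0 ≤ Λf → VecLip F Λf →
      HBe W.toV3 N W.X F E (W.prof i sc sb) i sb η (Λf ^ 2 * (W.X.card : ℝ))

section stage

variable {N : ℕ} [NeZero N] {W : V4 N} {ρ : Measure ℝ} {E η t : ℝ} {i : ℕ}

/-- **off-resonant energies in logarithmic time** -/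
theorem KStage.yg (h : KStage W E i η t) (hW : W.Ok ρ) (hi : i ≤ W.I) (hη : 0 ≤ η)
    {τ : ℝ} (hτ : 0 ≤ τ) (ht : t ≤ Real.exp (-τ)) {κ : Type} [Fintype κ] {F : κ → Tor N → ℝ}
    {Λf : ℝ} (hΛ : 0 ≤ Λf) (hF : VecLip F Λf) :
    YG (ATX N W.X) W.p W.ν E F (eT (W.us (i + 1)) (W.Ws (i + 1)) τ) (wT (W.Ws (i + 1)) τ) ≤
      3 * η * (PhiG (ATX N W.X) W.p W.ν E F (eT (W.us (i + 1)) (W.Ws (i + 1)) τ) +
        Λf ^ 2 * (W.X.card : ℝ)) := by
  have hs1 : Real.exp (-τ) ≤ 1 := Real.exp_le_one_iff.2 (by linarith)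
  have h5 := hW.YG_log F E (i := i) hi (ηc := η) (ηb := η) (c := Λf ^ 2 * (W.X.card : ℝ)) hη hη
    (by positivity) hτ (h.hc _ _ ht le_rfl hs1) (h.hb _ _ (Real.exp_pos _) le_rfl hs1 κ F Λf hΛ hF)
  refine h5.trans (le_of_eq ?_)
  ring

/-- **growth of the energy on a stage** -/
theorem KStage.growth (h : KStage W E i η t) (hW : W.Ok ρ) (hi : i ≤ W.I) (hη : 0 ≤ η)
    {C : ℝ} (hC0 : 0 ≤ C) (hC : ∀ k, W.mov k → Cau2 E C (W.ν k)) {τ₁ τ₂ : ℝ} (h0 : 0 ≤ τ₁)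
    (h12 : τ₁ ≤ τ₂) (ht : t ≤ Real.exp (-τ₂)) {κ : Type} [Fintype κ] {F : κ → Tor N → ℝ}
    {Λf : ℝ} (hΛ : 0 ≤ Λf) (hF : VecLip F Λf) :
    PhiG (ATX N W.X) W.p W.ν E F (eT (W.us (i + 1)) (W.Ws (i + 1)) τ₂) +
        Λf ^ 2 * (W.X.card : ℝ) ≤
      (PhiG (ATX N W.X) W.p W.ν E F (eT (W.us (i + 1)) (W.Ws (i + 1)) τ₁) +
        Λf ^ 2 * (W.X.card : ℝ)) * Real.exp (30 * C * η * (τ₂ - τ₁)) := by
  have h5 := hW.growth_log F (E := E) (i := i) hi (ηc := η) (ηb := η)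
    (c := Λf ^ 2 * (W.X.card : ℝ)) hη hη (by positivity) hC0 hC h0 h12
    (fun τ hτ => h.hc _ _ (ht.trans (Real.exp_le_exp.2 (by linarith [hτ.2]))) le_rfl
      (Real.exp_le_one_iff.2 (by linarith [hτ.1])))
    (fun τ hτ => h.hb _ _ (Real.exp_pos _) le_rfl
      (Real.exp_le_one_iff.2 (by linarith [hτ.1])) κ F Λf hΛ hF)
  have e1 : 10 * C * (η + 2 * η) * (τ₂ - τ₁) = 30 * C * η * (τ₂ - τ₁) := by ring
  rw [e1] at h5
  exact h5

end stage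

/-! ### the concrete worlds -/

/-- one stage of the concrete world from the hubs of `DD` -/
theorem kstage_Wk {lam E : ℝ} {yf : ℕ → ℤ × ℤ} {Vsf : ℕ → ℤ × ℤ → ℝ} {rs I : ℕ}
    (hrs : 2 ≤ rs) {N : ℕ} [NeZero N] {X : Finset (Tor N)} {b : ℝ}
    {fl : (PP β yf rs I).Lb → Tor N → ℝ} {A : ℕ} (hw : WOk β rs I A X b fl)
    (hW : (Wk β lam yf Vsf rs I X b fl).Ok (nuL lam)) {i : ℕ} (hi : i ≤ I) {η : ℝ}
    (hHC : ∀ (sb sc ε b1 : ℝ) (e : (Tor N → (PP β yf rs I).Lb) → Tor N → ℝ),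
      Prf (DD (pS β yf rs I) (nuD β lam yf Vsf rs I)) N i sb sc ε b1 e →
      Real.exp (-(8 * (rr β rs i : ℝ) ^ (max (max A 5) (5 * β)))) ≤
        sb * (e0S β rs i * Real.exp (-(aS β rs i))) →
      ε ≤ 4 * e0S β rs i → b1 ≤ e0S β rs i →
      Vale.Agent.P365.J376.HC4 (DD (pS β yf rs I) (nuD β lam yf Vsf rs I)) N X E e i η)
    (hHB : ∀ (sb sc ε b1 : ℝ) (e : (Tor N → (PP β yf rs I).Lb) → Tor N → ℝ),
      0 < sb → sb ≤ sc → sc ≤ 1 → ε ≤ 6 * e0S β rs i →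
      Prf (DD (pS β yf rs I) (nuD β lam yf Vsf rs I)) N i sb sc ε b1 e →
      ∀ (κ : Type) [Fintype κ] (F : κ → Tor N → ℝ) (Λf : ℝ), 0 ≤ Λf → VecLip F Λf →
        HBe (DD (pS β yf rs I) (nuD β lam yf Vsf rs I)) N X F E e i sb η
          (Λf ^ 2 * (X.card : ℝ))) :
    KStage (Wk β lam yf Vsf rs I X b fl) E i η (tF β rs I b (i + 1)) := by
  have h8 := e0S_pos (β := β) rs i
  have hpr : ∀ sc sb : ℝ, 0 < sb → sb ≤ sc → sc ≤ 1 →
      Prf (DD (pS β yf rs I) (nuD β lam yf Vsf rs I)) N i sb sc (4 * e0S β rs i)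
        (e0S β rs I) ((Wk β lam yf Vsf rs I X b fl).prof i sc sb) := fun sc sb h5 h6 h7 =>
    prf_tb (t' := tS β rs I) (b' := bS β rs I) (Wf_prf hW hrs le_rfl hi h5 h6 h7)
  refine ⟨fun sc sb h5 h6 h7 => ?_, fun sc sb h5 h6 h7 κ _ F Λf hΛ hF => ?_⟩
  · have h9 : 0 < sb := (tF_pos hw.b_pos (i + 1)).trans_le h5
    refine hHC sb sc _ _ _ (hpr sc sb h9 h6 h7) ?_ le_rfl (e0S_antitone (by omega) hi)
    refine (tF_own_ge hrs hw.b_ge hi).trans ?_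
    gcongr
  · exact hHB sb sc _ _ _ h5 h6 h7
      (show 4 * e0S β rs i ≤ 6 * e0S β rs i by linarith) (hpr sc sb h5 h6 h7) κ F Λf hΛ hF

/-- **top of the K side**: cells `yf`, `Vsf` (from the energy and `lam` only), and for all rates `n`
and all floor exponents `A`, from some first radius on: admissible laws, standing conditions and
the hubs on every stage of every world -/
theorem ktop {lam E : ℝ} (hlam : 0 < lam) (hE : |E| < 4 + lam) (hHB : HBdd β lam E) :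
    ∃ (lam' : ℝ) (yf : ℕ → ℤ × ℤ) (Vsf : ℕ → ℤ × ℤ → ℝ) (R1 : ℕ), 0 < lam' ∧ lam' < lam ∧
      2 ≤ R1 ∧ (∀ r, R1 ≤ r → |(yf r).1| < r ∧ |(yf r).2| < r) ∧ (∀ r z, |Vsf r z| ≤ lam') ∧
      ∀ A n : ℕ, ∃ R : ℕ, R1 ≤ R ∧ ∀ rs, R ≤ rs → ∀ I : ℕ, AdmS β lam yf Vsf rs I ∧
        ∀ (N : ℕ) [NeZero N] (X : Finset (Tor N)) (b : ℝ)
          (fl : (PP β yf rs I).Lb → Tor N → ℝ), WOk β rs I A X b fl →
          (Wk β lam yf Vsf rs I X b fl).Ok (nuL lam) ∧ ∀ i ≤ I,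
            KStage (Wk β lam yf Vsf rs I X b fl) E i (1 / (rr β rs i : ℝ) ^ n)
              (tF β rs I b (i + 1)) := by
  obtain ⟨lam', yf, Vsf, R1, h1, h2, hR1, h3, h4, hmain⟩ := hc4_ddK β hlam hE
  refine ⟨lam', yf, Vsf, R1, h1, h2, hR1, h3, h4, fun A n => ?_⟩
  obtain ⟨R, hR, hmain⟩ := hmain 4 (max (max A 5) (5 * β)) n
  obtain ⟨R2, hR2, hHB⟩ := hHB n
  refine ⟨max R R2, hR.trans (le_max_left _ _), fun rs hrs I => ?_⟩
  obtain ⟨hadm, hok, hHC⟩ := hmain rs (by omega) I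
  refine ⟨hadm, ?_⟩
  intro N _ X b fl hw
  have hrs2 : 2 ≤ rs := by omega
  have hy : ∀ r, rs ≤ r → yf r ∈ Xr r := fun r hr =>
    mem_Xr_of_abs (h3 r (by omega)).1 (h3 r (by omega)).2
  have hb1 : b ≤ 1 := ((hw.fl_ge none 0).trans (hw.fl_le none 0)).trans (e0S_le_one rs I)
  have hW : (Wk β lam yf Vsf rs I X b fl).Ok (nuL lam) :=
    Wf_ok (Df_tF_ok hrs2 hy (lw_DD hadm) hw.b_pos hb1) hw.fl_ge hw.fl_le hw.dom
  exact ⟨hW, fun i hi => kstage_Wk hrs2 hw hW hi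
    (fun sb sc ε b1 e hp hT hε hb => hHC N X i hi (hw.dvd i hi) (hw.dom i hi) sb sc ε b1 e hp hT
      hε hb)
    (fun sb sc ε b1 e h5 h6 h7 hε hp => hHB rs (by omega) yf Vsf I hy hadm N X hw.dvd hw.dom i hi
      sb sc ε b1 e h5 h6 h7 hε hp)⟩

end P365V4.K685
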