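import Vale.Agent.P365.V4.H376.HBfin
import Vale.Agent.P365.V4.KTop685

/-!
# P365-T2, chain V4: the K side, unconditional

`hbdd` = 376's bulk hubs in the form `HBdd`; `ktop_fin` = `ktop` without hypothesis.
-/

set_option linter.all false

namespace P365V4.K685

open P365L P365O P365L.TL P365SH Vale.Agent.P365.C937 Vale.Agent.P365.J376 MeasureTheory Set Filter
open P365T1 P365T2.SeqG
open P365T2.ConcG (PP QQ DD pS nuD AdmS)

variable {β : ℕ} [hβ : Fact (2 ≤ β)]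

/-- `6 e0 ≤ 1` -/
theorem six_e0S_le_one685 {rs : ℕ} (hrs : 2 ≤ rs) (i : ℕ) : 6 * e0S β rs i ≤ 1 := by
  have hr2 : (2 : ℝ) ≤ rr β rs i := two_le_cast_rr hrs i
  have h1 : e0S β rs i ≤ Real.exp (-2) := Real.exp_le_exp.2 (by linarith)
  have h2 : Real.exp (-2) ≤ 1 / 6 := by
    rw [Real.exp_neg, ← one_div]
    refine one_div_le_one_div_of_le (by norm_num) ?_
    have h3 : Real.exp 2 = Real.exp 1 ^ 2 := by
      rw [← Real.exp_nat_mul]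
      norm_num
    rw [h3]
    have h4 : (2.7 : ℝ) < Real.exp 1 := by linarith [Real.exp_one_gt_d9]
    calc (6 : ℝ) ≤ 2.7 ^ 2 := by norm_num
      _ ≤ Real.exp 1 ^ 2 := by gcongr
  linarith

/-- **the bulk hubs of the concrete chain** -/
theorem hbdd (β : ℕ) [Fact (2 ≤ β)] {lam : ℝ} (hlam : 0 < lam) (E : ℝ) : HBdd β lam E := by
  intro g
  obtain ⟨R, hR2, hR⟩ := P365V4.H376.hb_dd β hlam E g
  refine ⟨R, hR2, fun rs hrs yf Vsf I hy ha N _ X hN hX i hi sb sc ε b1 e h1 h2 h3 h4 hp κ _ F Λf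
    hΛ hF => ?_⟩
  exact hR rs hrs yf Vsf I hy ha N X i hi (hN i hi) hX sb sc ε b1 e h1 h2 (h2.trans h3)
    (h4.trans (six_e0S_le_one685 (by omega) i)) hp κ F Λf hF

/-- **the K side**: `ktop` without hypothesis -/
theorem ktop_fin (β : ℕ) [Fact (2 ≤ β)] {lam E : ℝ} (hlam : 0 < lam) (hE : |E| < 4 + lam) :
    ∃ (lam' : ℝ) (yf : ℕ → ℤ × ℤ) (Vsf : ℕ → ℤ × ℤ → ℝ) (R1 : ℕ), 0 < lam' ∧ lam' < lam ∧
      2 ≤ R1 ∧ (∀ r, R1 ≤ r → |(yf r).1| < r ∧ |(yf r).2| < r) ∧ (∀ r z, |Vsf r z| ≤ lam') ∧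
      ∀ A n : ℕ, ∃ R : ℕ, R1 ≤ R ∧ ∀ rs, R ≤ rs → ∀ I : ℕ, AdmS β lam yf Vsf rs I ∧
        ∀ (N : ℕ) [NeZero N] (X : Finset (Tor N)) (b : ℝ)
          (fl : (PP β yf rs I).Lb → Tor N → ℝ), WOk β rs I A X b fl →
          (Wk β lam yf Vsf rs I X b fl).Ok (nuL lam) ∧ ∀ i ≤ I,
            KStage (Wk β lam yf Vsf rs I X b fl) E i (1 / (rr β rs i : ℝ) ^ n)
              (P365V4.Free.tF β rs I b (i + 1)) :=
  ktop hlam hE (hbdd β hlam E)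

end P365V4.K685
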