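import Vale.Agent.P365.T2.SeqF795
import Vale.Agent.P365.V4.State548
import Vale.Agent.P365.V4.KFin685

/-!
# P365-T2, chain V4: all facts of the K side for one concrete world

`KWorld W lam E η C C1`: standing conditions, laws, hubs of all stages, energy bound `C1` at every
state for every vector-Lipschitz family.  `kworld` = the concrete worlds `Wk` are such.
-/

set_option linter.all false

namespace P365V4.K685

open P365L P365O P365L.TL P365SH Vale.Agent.P365.C937 Vale.Agent.P365.J376 MeasureTheory Set Filter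
open P365T1 P365T1.Bump P365T2.SeqG P365T2.SeqF
open P365T2.ConcG (PP QQ DD pS nuD DS AdmS nuD_mov' nuD_supp nuD_densLe DS_pos sum_pS_DS
  pS_mul_DS_le nuD_law)
open P365T1.Conc (tau0 tau0_pos tau0_le l0_pos l0_lt two_l0_le)
open P365V4.Free (tF tF_pos tF_le_one)

/-- all facts of the K side for one world -/
structure KWorld {N : ℕ} [NeZero N] (W : V4 N) (lam E : ℝ) (η : ℕ → ℝ) (C C1 : ℝ) : Prop where
  ok : W.Ok (nuL lam)
  /-- the smooth law at the moving labels -/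
  mov_law : ∀ k, W.mov k → W.ν k = nuS lam (lam * tau0 / 2)
  supp : ∀ k, W.ν k (Icc (-lam) lam)ᶜ = 0
  dens : ∃ Dn : W.Λ → ℝ, (∀ k, 0 < Dn k) ∧ (∀ k, DensLe (Dn k) (W.ν k)) ∧
    ∑ k, W.p k * Dn k ≤ 2 / lam
  C0 : 0 ≤ C
  cau : ∀ k, W.mov k → Cau2 E C (W.ν k)
  η0 : ∀ i, 0 ≤ η i
  /-- hubs of all stages -/
  stage : ∀ i ≤ W.I, KStage W E i (η i) (W.t (i + 1))
  /-- the energy at every state -/
  state : ∀ i ≤ W.I, ∀ τ ∈ Icc 0 (Real.log (1 / W.t (i + 1))),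
    ∀ (κ : Type) [Fintype κ] (F : κ → Tor N → ℝ) (Λf : ℝ), 0 ≤ Λf → VecLip F Λf →
      PhiG (ATX N W.X) W.p W.ν E F (eT (W.us (i + 1)) (W.Ws (i + 1)) τ) +
        Λf ^ 2 * (W.X.card : ℝ) ≤ C1 * (Λf ^ 2 * (W.X.card : ℝ))

/-- the constant of the second Cauchy transform of the smooth law -/
noncomputable def CauC (lam E : ℝ) : ℝ :=
  2 * (1 + E ^ 2) * (5500 * ((1 + 2 * lam ^ 2) / (lam * tau0 / 2) ^ 2 + 2))

theorem CauC_nonneg (lam E : ℝ) : 0 ≤ CauC lam E := by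
  unfold CauC
  positivity

theorem cau2_CauC {lam : ℝ} (hlam : 0 < lam) (E : ℝ) :
    Cau2 E (CauC lam E) (nuS lam (lam * tau0 / 2)) := cau2_nuS (l0_pos hlam) (l0_lt hlam) E

/-- the energy constant of the chain -/
noncomputable def C1K (lam E : ℝ) (rs : ℕ) : ℝ :=
  23 * Real.exp (10 * (4 + (rs : ℝ) + (rs : ℝ) ^ 5) + 3 * (30 * CauC lam E) / rs)

variable {β : ℕ} [hβ : Fact (2 ≤ β)]

/-- **the concrete worlds**: rates `1 / r_i ^ n` with `n ≥ 5 β + 2`, floor exponent `A ≤ 5 β` -/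
theorem kworld_of {lam E : ℝ} (hlam : 0 < lam) {yf : ℕ → ℤ × ℤ} {Vsf : ℕ → ℤ × ℤ → ℝ}
    {rs I : ℕ} (hrs : 2 ≤ rs) (ha : AdmS β lam yf Vsf rs I) {N : ℕ} [NeZero N]
    {X : Finset (Tor N)} {b : ℝ} {fl : (PP β yf rs I).Lb → Tor N → ℝ} {A n : ℕ}
    (hA : A ≤ 5 * β) (hn : 5 * β + 2 ≤ n) (hw : WOk β rs I A X b fl)
    (hW : (Wk β lam yf Vsf rs I X b fl).Ok (nuL lam))
    (hst : ∀ i ≤ I, KStage (Wk β lam yf Vsf rs I X b fl) E i (1 / (rr β rs i : ℝ) ^ n)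
      (tF β rs I b (i + 1))) :
    KWorld (Wk β lam yf Vsf rs I X b fl) lam E (fun i => 1 / (rr β rs i : ℝ) ^ n)
      (CauC lam E) (C1K lam E rs) := by
  have hb1 : b ≤ 1 := ((hw.fl_ge none 0).trans (hw.fl_le none 0)).trans (e0S_le_one rs I)
  have hη0 : ∀ i, 0 ≤ 1 / (rr β rs i : ℝ) ^ n := fun i => by positivity
  have hcau : ∀ k, (Wk β lam yf Vsf rs I X b fl).mov k →
      Cau2 E (CauC lam E) ((Wk β lam yf Vsf rs I X b fl).ν k) := by
    intro k hk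
    have h7 : (Wk β lam yf Vsf rs I X b fl).ν k = nuS lam (lam * tau0 / 2) := nuD_mov' ha hk
    rw [h7]
    exact cau2_CauC hlam E
  refine ⟨hW, fun k hk => nuD_mov' ha hk, fun k => nuD_supp ha k,
    ⟨DS β lam yf rs I, fun k => DS_pos ha k, fun k => nuD_densLe ha k, sum_pS_DS ha⟩,
    CauC_nonneg lam E, hcau, hη0, hst, ?_⟩
  intro i hi τ hτ κ _ F Λf hΛ hF
  have hB : (Wk β lam yf Vsf rs I X b fl).acc (CauC lam E)
      (fun i => 1 / (rr β rs i : ℝ) ^ n) (fun i => 1 / (rr β rs i : ℝ) ^ n)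
      ((Wk β lam yf Vsf rs I X b fl).I + 1) ≤
      10 * (4 + (rs : ℝ) + (rs : ℝ) ^ 5) + 3 * (30 * CauC lam E) / rs := by
    have h1 := hsum_F (β := β) (b := b) (I := I) (A := A) hrs hA hw.b_ge hb1
      (Ca := 30 * CauC lam E) (η := fun i => 1 / (rr β rs i : ℝ) ^ n)
      (by have := CauC_nonneg lam E; positivity) hη0 (fun i => by
        have h2 := two_le_cast_rr (β := β) hrs i
        exact one_div_le_one_div_of_le (by positivity) (pow_le_pow_right₀ (by linarith) hn))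
    refine le_trans (le_of_eq ?_) h1
    show 10 * Real.log (1 / tF β rs I b 0) + ∑ j ∈ Finset.range (I + 1),
      10 * CauC lam E * (1 / (rr β rs j : ℝ) ^ n + 2 * (1 / (rr β rs j : ℝ) ^ n)) *
        Real.log (1 / tF β rs I b (j + 1)) = _
    congr 1
    refine Finset.sum_congr rfl fun j _ => ?_
    ring
  have h2 := hW.state_le_const hF (E := E) (C := CauC lam E)
    (ηc := fun i => 1 / (rr β rs i : ℝ) ^ n) (ηb := fun i => 1 / (rr β rs i : ℝ) ^ n)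
    (fun j _ => hη0 j) (fun j _ => hη0 j) (CauC_nonneg lam E) hcau
    (fun j hj s hs => (hst j hj).hc s s hs.1.le le_rfl hs.2.le)
    (fun j hj s hs => (hst j hj).hb s s ((tF_pos hw.b_pos (j + 1)).trans hs.1) le_rfl hs.2.le
      κ F Λf hΛ hF) hB hi hτ
  refine h2.trans (le_of_eq ?_)
  unfold C1K
  ring

/-- **the K side**: for every energy `|E| < 4 + lam`, one cell; for every rate `n ≥ 5 β + 2`, from
some first radius on, every world with `A ≤ 5 β` is a `KWorld`; the constants `C`, `C1` depend on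
`lam`, `E` and the first radius only -/
theorem kworld (β : ℕ) [Fact (2 ≤ β)] {lam E : ℝ} (hlam : 0 < lam) (hE : |E| < 4 + lam) :
    ∃ (yf : ℕ → ℤ × ℤ) (Vsf : ℕ → ℤ × ℤ → ℝ), ∀ n : ℕ, 5 * β + 2 ≤ n → ∃ R : ℕ, 2 ≤ R ∧
      ∀ rs, R ≤ rs → ∀ (I : ℕ) (N : ℕ) [NeZero N] (X : Finset (Tor N)) (b : ℝ)
        (fl : (PP β yf rs I).Lb → Tor N → ℝ), WOk β rs I (5 * β) X b fl →
        AdmS β lam yf Vsf rs I ∧
        KWorld (Wk β lam yf Vsf rs I X b fl) lam E (fun i => 1 / (rr β rs i : ℝ) ^ n)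
          (CauC lam E) (C1K lam E rs) := by
  obtain ⟨lam', yf, Vsf, R1, h1, h2, hR1, h3, h4, hmain⟩ := ktop_fin β hlam hE
  refine ⟨yf, Vsf, fun n hn => ?_⟩
  obtain ⟨R, hR, hmain⟩ := hmain (5 * β) n
  refine ⟨R, by omega, fun rs hrs I N _ X b fl hw => ?_⟩
  obtain ⟨ha, hmain⟩ := hmain rs hrs I
  obtain ⟨hW, hst⟩ := hmain N X b fl hw
  exact ⟨ha, kworld_of hlam (by omega) ha le_rfl hn hw hW hst⟩

end P365V4.K685
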