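import Vale.Agent.P365.J376.PathG
import Vale.Agent.P365.H763.Cmp

set_option linter.all false

/-!
# P365-T2, late start: raising the absorption by at most a factor `2` multiplies the energies by at
most `16`.
-/

namespace P365V4.Pert77

open P365L P365O P365T1 P365L.TL MeasureTheory Vale.Agent.P365.J376 Matrix Complex P365H763

/-- one environment -/
theorem En_le_sixteen {ι : Type*} [Fintype ι] [DecidableEq ι] {A : Matrix ι ι ℝ} (hA : A.IsSymm)
    {E : ℝ} {e e' v : ι → ℝ} (he : ∀ x, 0 < e x) (h1 : ∀ x, e x ≤ 2 * e' x)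
    (h2 : ∀ x, e' x ≤ 2 * e x) (f : ι → ℝ) :
    En A (WV E e' v) f ≤ 16 * En A (WV E e v) f := by
  have him : ∀ (g : ι → ℝ) x, (WV E g v x).im = -g x := fun g x => by simp [WV]
  have hre : ∀ (g : ι → ℝ) x, (WV E g v x).re = v x - E := fun g x => by simp [WV]
  have h := En_cmp_abs (A := A) (W := WV E e v) (W' := WV E e' v) hA
    (fun x => by rw [him]; linarith [he x]) (θ := 1 / 2) (by norm_num)
    (fun x => by rw [hre, hre]) (fun x => by rw [him, him]; linarith [h1 x])
    (fun x => by rw [him, him]; linarith [h2 x]) f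
  refine h.trans (le_of_eq ?_)
  norm_num

/-- **late start**: label-dependent profiles which are comparable within a factor `2` -/
theorem PhiG_le_sixteen {ι : Type*} [Fintype ι] [DecidableEq ι] {A : Matrix ι ι ℝ} (hA : A.IsSymm)
    {Λ : Type*} [Fintype Λ] {p : Λ → ℝ} (hp : ∀ k, 0 ≤ p k) {ν : Λ → Measure ℝ}
    [∀ k, IsProbabilityMeasure (ν k)] (E : ℝ) {κ : Type*} [Fintype κ] (f : κ → ι → ℝ)
    {e e' : (ι → Λ) → ι → ℝ} (he0 : ∀ l x, 0 < e l x)
    (h1 : ∀ l x, e l x ≤ 2 * e' l x) (h2 : ∀ l x, e' l x ≤ 2 * e l x) :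
    PhiG A p ν E f e' ≤ 16 * PhiG A p ν E f e := by
  unfold PhiG AvG
  rw [Finset.mul_sum]
  refine Finset.sum_le_sum fun l _ => ?_
  have hP : 0 ≤ ∏ x, p (l x) := Finset.prod_nonneg fun x _ => hp _
  have he : ∀ x, 0 < e l x := he0 l
  have hint : Integrable (fun v => ∑ k, En A (WV E (e l) v) (f k))
      (Measure.pi fun x => ν (l x)) :=
    integrable_sum_En hA _ E he f
  have h3 : Ex (fun x => ν (l x)) E (e' l) (fun W => ∑ k, En A W (f k)) ≤
      16 * Ex (fun x => ν (l x)) E (e l) (fun W => ∑ k, En A W (f k)) := by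
    unfold Ex
    rw [← integral_const_mul]
    refine integral_mono_of_nonneg (Filter.Eventually.of_forall fun v => ?_)
      (hint.const_mul 16) (Filter.Eventually.of_forall fun v => ?_)
    · refine Finset.sum_nonneg fun k _ => Finset.sum_nonneg fun x _ => Finset.sum_nonneg fun y _ => ?_
      have him : ∀ x, (WV E (e' l) v x).im = -e' l x := fun x => by simp [WV]
      have hpos : ∀ x, 0 ≤ e' l x := fun x => by linarith [h1 l x, he x]
      rw [him, him, neg_neg, neg_neg]
      exact mul_nonneg (mul_nonneg (mul_nonneg (hpos x) (hpos y)) (KK_nonneg _ _)) (sq_nonneg _)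
    · beta_reduce
      rw [Finset.mul_sum]
      exact Finset.sum_le_sum fun k _ => En_le_sixteen hA he (h1 l) (h2 l) (f k)
  calc (∏ x, p (l x)) * Ex (fun x => ν (l x)) E (e' l) (fun W => ∑ k, En A W (f k))
      ≤ (∏ x, p (l x)) * (16 * Ex (fun x => ν (l x)) E (e l) (fun W => ∑ k, En A W (f k))) :=
        mul_le_mul_of_nonneg_left h3 hP
    _ = _ := by ring

end P365V4.Pert77
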