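import Vale.Agent.P365.V4.Start77

set_option linter.all false

/-!
# P365-T2: Combes–Thomas in the first passage metric, pair form, any rate.
-/

namespace P365V4.Start77

open P365L P365O P365T1 P365L.TL MeasureTheory Matrix Complex

variable {N : ℕ} [NeZero N] {A : Matrix (Tor N) (Tor N) ℝ} {W : Tor N → ℂ}

/-- one column, weighted: the transmitted power in the first passage metric -/
theorem ct_col (hs : A.IsSymm) (hA : ∀ x y, |A x y| ≤ AT N x y) (hW : ∀ x, (W x).im < 0)
    (B : Finset (Tor N)) {μ : ℝ} (hμ : 0 ≤ μ)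
    (hbig : ∀ x, x ∉ B → 8 * Real.sinh μ ≤ -(W x).im) (b : Tor N) :
    (-(W b).im) * ∑ a, (-(W a).im) * KK A W a b * Real.exp (2 * μ * dg (nbT N) B b a) ≤ 4 := by
  have h1 := CT_col hs hW (φ := fun x => μ * dg (nbT N) B b x)
    (fun x => weight_okA hA hW B hμ hbig b x) b
  refine le_trans (le_of_eq ?_) h1
  congr 1
  refine Finset.sum_congr rfl fun a _ => ?_
  rw [dg_self, Nat.cast_zero, mul_zero, sub_zero]
  congr 2
  ring

/-- **the pair form**: `e_a e_b |G_ab|² ≤ 4 exp (-2 μ dg)`, `dg` the first passage distance in which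
the edges touching `B` are free, `8 sinh μ ≤ e` off `B` -/
theorem ct_pair (hs : A.IsSymm) (hA : ∀ x y, |A x y| ≤ AT N x y) (hW : ∀ x, (W x).im < 0)
    (B : Finset (Tor N)) {μ : ℝ} (hμ : 0 ≤ μ)
    (hbig : ∀ x, x ∉ B → 8 * Real.sinh μ ≤ -(W x).im) (b a : Tor N) :
    (-(W b).im) * (-(W a).im) * KK A W a b ≤ 4 * Real.exp (-2 * μ * dg (nbT N) B b a) := by
  have h1 := ct_col hs hA hW B hμ hbig b
  have he : ∀ x, 0 ≤ -(W x).im := fun x => by linarith [hW x]
  have h3 : (-(W a).im) * KK A W a b * Real.exp (2 * μ * dg (nbT N) B b a) ≤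
      ∑ a, (-(W a).im) * KK A W a b * Real.exp (2 * μ * dg (nbT N) B b a) :=
    Finset.single_le_sum (f := fun a => (-(W a).im) * KK A W a b *
      Real.exp (2 * μ * dg (nbT N) B b a))
      (fun x _ => mul_nonneg (mul_nonneg (he x) (KK_nonneg _ _)) (Real.exp_pos _).le)
      (Finset.mem_univ a)
  have h4 := (mul_le_mul_of_nonneg_left h3 (he b)).trans h1
  have h5 : Real.exp (2 * μ * dg (nbT N) B b a) * Real.exp (-2 * μ * dg (nbT N) B b a) = 1 := by
    rw [← Real.exp_add]
    have : 2 * μ * (dg (nbT N) B b a : ℝ) + -2 * μ * dg (nbT N) B b a = 0 := by ring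
    rw [this, Real.exp_zero]
  calc (-(W b).im) * (-(W a).im) * KK A W a b
      = (-(W b).im) * ((-(W a).im) * KK A W a b * Real.exp (2 * μ * dg (nbT N) B b a)) *
        Real.exp (-2 * μ * dg (nbT N) B b a) := by
        have : ∀ u v w p q : ℝ, p * q = 1 → u * v * w = u * (v * w * p) * q := by
          intro u v w p q h
          calc u * v * w = u * v * w * (p * q) := by rw [h, mul_one]
            _ = _ := by ring
        exact this _ _ _ _ _ h5
    _ ≤ 4 * Real.exp (-2 * μ * dg (nbT N) B b a) :=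
        mul_le_mul_of_nonneg_right h4 (Real.exp_pos _).le

/-- the rate `μ = ε / 16` is admissible for `0 < ε ≤ 1` -/
theorem sinh_rate {ε : ℝ} (h0 : 0 ≤ ε) (h1 : ε ≤ 1) : 8 * Real.sinh (ε / 16) ≤ ε := by
  have h2 : 0 ≤ ε / 16 := by linarith
  have h3 : ε / 16 ≤ 1 := by linarith
  have h4 : Real.sinh (ε / 16) ≤ 2 * (ε / 16) := by
    rw [Real.sinh_eq]
    have a1 := Real.abs_exp_sub_one_le (x := ε / 16) (by rw [abs_of_nonneg h2]; exact h3)
    rw [abs_of_nonneg h2] at a1
    have a2 := (abs_le.1 a1).2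
    have a3 := Real.one_sub_le_exp_neg (ε / 16)
    linarith
  linarith

end P365V4.Start77
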