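import Vale.Agent.P365.V4.HubSum937
import Vale.Agent.P365.V4.FlowLoss548b

/-!
# P365-T2, V4: the hubs for `YG` (548), also in logarithmic time
-/

set_option autoImplicit false
set_option linter.all false

namespace Vale.Agent.P365.V4.H937

open Vale.Agent.P365.J376 P365L P365O P365T1 P365L.TL Matrix Complex MeasureTheory Filter Set
open scoped ComplexConjugate ENNReal

section v3

variable {D : V3} {N : ℕ} [NeZero N] {X : Finset (Tor N)} {κ : Type} [Fintype κ]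
  {F : κ → Tor N → ℝ} {E : ℝ} {e w : (Tor N → D.Λ) → Tor N → ℝ} {i : ℕ} {sb sc ε b1 : ℝ}
  {ρ : Measure ℝ}

theorem YSum_eq_YG : YSum D N X F E e w = YG (ATX N X) D.p D.ν E F e w := rfl

/-- **general hub** -/
theorem hubYG (h : D.Ok ρ) (hi : i ≤ D.I) {ηc ηb c σ θ : ℝ}
    (he : Prf D N i sb sc ε b1 e) (hsb : 0 < sb) (hηc : 0 ≤ ηc) (hηb : 0 ≤ ηb) (hc : 0 ≤ c)
    (hσ : 0 < σ) (hθ : 0 ≤ θ) (HC : HC4 D N X E e i ηc)
    (HB : θ ≠ 0 → HBe D N X F E e i sb ηb c)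
    (hw0 : ∀ l x, 0 ≤ w l x) (hwm : ∀ l x, ¬ D.mov (l x) → w l x = 0)
    (hwc : ∀ l x, D.cen i l x → σ * w l x ≤ e l x)
    (hwb : ∀ l x, D.mov (l x) → ¬ D.cen i l x → w l x ≤ θ) :
    YG (ATX N X) D.p D.ν E F e w ≤
      (ηc / σ + θ * (ηb / (sb * (D.e0 i * Real.exp (-(D.a i)))))) *
        (PhiG (ATX N X) D.p D.ν E F e + c) :=
  hubY h hi he hsb hηc hηb hc hσ hθ HC HB hw0 hwm hwc hwb

end v3

variable {N : ℕ} [NeZero N] {D : J376.V4 N} {ρ : Measure ℝ} {κ : Type} [Fintype κ]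
  {F : κ → Tor N → ℝ} {E : ℝ} {i : ℕ}

/-- **one strength** -/
theorem hubYG_succ (h : D.Ok ρ) (hi : i ≤ D.I) {s ηc ηb c : ℝ} (hs : 0 < s) (hs1 : s ≤ 1)
    (hηc : 0 ≤ ηc) (hηb : 0 ≤ ηb) (hc : 0 ≤ c)
    (HC : HC4 D.toV3 N D.X E (D.prof i s s) i ηc)
    (HB : HBe D.toV3 N D.X F E (D.prof i s s) i s ηb c) :
    YG (ATX N D.X) D.p D.ν E F (fun l x => D.us (i + 1) l x + s * D.Ws (i + 1) l x)
        (D.Ws (i + 1)) ≤
      (ηc + 2 * ηb) / s * (PhiG (ATX N D.X) D.p D.ν E F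
        (fun l x => D.us (i + 1) l x + s * D.Ws (i + 1) l x) + c) :=
  hubY_succ' h hi hs hs1 hηc hηb hc HC HB

/-- the profile at logarithmic time `τ` -/
theorem eT_eq_prof (h : D.Ok ρ) (hi : i ≤ D.I) (τ : ℝ) :
    eT (D.us (i + 1)) (D.Ws (i + 1)) τ = D.prof i (Real.exp (-τ)) (Real.exp (-τ)) := by
  funext l x
  exact (h.prof_diag hi _ l x).symm

/-- **one strength, logarithmic time**: rate `ηc + 2 ηb` -/
theorem hubYG_log (h : D.Ok ρ) (hi : i ≤ D.I) {τ ηc ηb c : ℝ} (hτ : 0 ≤ τ)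
    (hηc : 0 ≤ ηc) (hηb : 0 ≤ ηb) (hc : 0 ≤ c)
    (HC : HC4 D.toV3 N D.X E (D.prof i (Real.exp (-τ)) (Real.exp (-τ))) i ηc)
    (HB : HBe D.toV3 N D.X F E (D.prof i (Real.exp (-τ)) (Real.exp (-τ))) i
      (Real.exp (-τ)) ηb c) :
    YG (ATX N D.X) D.p D.ν E F (eT (D.us (i + 1)) (D.Ws (i + 1)) τ) (wT (D.Ws (i + 1)) τ) ≤
      (ηc + 2 * ηb) *
        (PhiG (ATX N D.X) D.p D.ν E F (eT (D.us (i + 1)) (D.Ws (i + 1)) τ) + c) := by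
  have hs := Real.exp_pos (-τ)
  have h1 := hubYG_succ (F := F) h hi hs (Real.exp_le_one_iff.2 (by linarith)) hηc hηb hc HC HB
  have h2 : YG (ATX N D.X) D.p D.ν E F (eT (D.us (i + 1)) (D.Ws (i + 1)) τ)
      (wT (D.Ws (i + 1)) τ) = Real.exp (-τ) * YG (ATX N D.X) D.p D.ν E F
        (eT (D.us (i + 1)) (D.Ws (i + 1)) τ) (D.Ws (i + 1)) := YG_smul _ _ _
  rw [h2]
  refine (mul_le_mul_of_nonneg_left h1 hs.le).trans (le_of_eq ?_)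
  rw [← mul_assoc, mul_div_cancel₀ _ hs.ne']
  rfl

/-- **bulk only** -/
theorem hubYG_bulk (h : D.Ok ρ) (hi : i ≤ D.I) {sc sb ηc ηb c : ℝ} (hsb : 0 < sb)
    (hcb : sb ≤ sc) (hsc1 : sc ≤ 1) (hηc : 0 ≤ ηc) (hηb : 0 ≤ ηb) (hc : 0 ≤ c)
    (HC : HC4 D.toV3 N D.X E (D.prof i sc sb) i ηc)
    (HB : HBe D.toV3 N D.X F E (D.prof i sc sb) i sb ηb c) :
    YG (ATX N D.X) D.p D.ν E F (D.prof i sc sb) (D.Wb i) ≤
      (ηc + 2 * ηb) / sb * (PhiG (ATX N D.X) D.p D.ν E F (D.prof i sc sb) + c) :=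
  hubY_bulk h hi hsb hcb hsc1 hηc hηb hc HC HB

/-- **centres only** -/
theorem hubYG_cen (h : D.Ok ρ) (hi : i ≤ D.I) {sc sb ηc : ℝ} (hsb : 0 < sb)
    (hcb : sb ≤ sc) (hsc1 : sc ≤ 1) (hηc : 0 ≤ ηc)
    (HC : HC4 D.toV3 N D.X E (D.prof i sc sb) i ηc) :
    YG (ATX N D.X) D.p D.ν E F (D.prof i sc sb) (D.Wc i) ≤
      ηc / sc * PhiG (ATX N D.X) D.p D.ν E F (D.prof i sc sb) :=
  hubY_cen h hi hsb hcb hsc1 hηc HC

/-! ### the stage in logarithmic time -/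

/-- **(T-D)**: the stage from `τ₁` to `τ₂`, energy and loss -/
theorem stage_log (h : D.Ok ρ) (hi : i ≤ D.I) {C ηc ηb c τ₁ τ₂ : ℝ} (h0 : 0 ≤ τ₁)
    (h12 : τ₁ ≤ τ₂) (hηc : 0 ≤ ηc) (hηb : 0 ≤ ηb) (hc : 0 ≤ c) (hC0 : 0 ≤ C)
    (hC : ∀ k, D.mov k → Cau2 E C (D.ν k))
    (HC : ∀ τ ∈ Ioo τ₁ τ₂, HC4 D.toV3 N D.X E (D.prof i (Real.exp (-τ)) (Real.exp (-τ))) i ηc)
    (HB : ∀ τ ∈ Ioo τ₁ τ₂, HBe D.toV3 N D.X F E (D.prof i (Real.exp (-τ)) (Real.exp (-τ))) i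
      (Real.exp (-τ)) ηb c) :
    PhiG (ATX N D.X) D.p D.ν E F (eT (D.us (i + 1)) (D.Ws (i + 1)) τ₂) + c ≤
      (PhiG (ATX N D.X) D.p D.ν E F (eT (D.us (i + 1)) (D.Ws (i + 1)) τ₁) + c) *
        Real.exp (10 * C * (ηc + 2 * ηb) * (τ₂ - τ₁)) := by
  haveI := h.prob
  exact PhiG_log_le (ATX_symm N D.X) h.p_nonneg h.b_pos (Wm := 33) (by norm_num)
    (fun l x => h.us_ge (i + 1) l x) (fun l x => h.toOk.Ws_nonneg (by omega) l x)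
    (fun l x => h.toOk.Ws_le (by omega) l x) hC0
    (fun l x hx => hC _ (by
      by_contra hm
      exact hx (h.toOk.Ws_of_not_mov (by omega) hm))) h12
    fun τ hτ => hubYG_log h hi (h0.trans hτ.1.le) hηc hηb hc (HC τ hτ) (HB τ hτ)

/-- **(T-D), loss** of the stage from `τ₁` to `τ₂` -/
theorem stage_log_loss (h : D.Ok ρ) (hi : i ≤ D.I) {C ηc ηb c τ₁ τ₂ : ℝ} (h0 : 0 ≤ τ₁)
    (h12 : τ₁ ≤ τ₂) (hηc : 0 ≤ ηc) (hηb : 0 ≤ ηb) (hc : 0 ≤ c) (hC0 : 0 ≤ C)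
    (hC : ∀ k, D.mov k → Cau2 E C (D.ν k))
    (HC : ∀ τ ∈ Ioo τ₁ τ₂, HC4 D.toV3 N D.X E (D.prof i (Real.exp (-τ)) (Real.exp (-τ))) i ηc)
    (HB : ∀ τ ∈ Ioo τ₁ τ₂, HBe D.toV3 N D.X F E (D.prof i (Real.exp (-τ)) (Real.exp (-τ))) i
      (Real.exp (-τ)) ηb c) {K : ℝ}
    (hK : (PhiG (ATX N D.X) D.p D.ν E F (eT (D.us (i + 1)) (D.Ws (i + 1)) τ₁) + c) *
        Real.exp (10 * C * (ηc + 2 * ηb) * (τ₂ - τ₁)) ≤ K) :
    ∫⁻ τ in Ioo τ₁ τ₂, ENNReal.ofReal (J376.LossG (ATX N D.X) D.p D.ν E F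
        (eT (D.us (i + 1)) (D.Ws (i + 1)) τ) (wT (D.Ws (i + 1)) τ)) ≤
      ENNReal.ofReal (PhiG (ATX N D.X) D.p D.ν E F (eT (D.us (i + 1)) (D.Ws (i + 1)) τ₁) -
        PhiG (ATX N D.X) D.p D.ν E F (eT (D.us (i + 1)) (D.Ws (i + 1)) τ₂) +
        10 * C * ((ηc + 2 * ηb) * K) * (τ₂ - τ₁)) := by
  haveI := h.prob
  refine lintegral_LossG_le (ATX_symm N D.X) h.p_nonneg h.b_pos (Wm := 33) (by norm_num)
    (fun l x => h.us_ge (i + 1) l x) (fun l x => h.toOk.Ws_nonneg (by omega) l x)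
    (fun l x => h.toOk.Ws_le (by omega) l x) hC0
    (fun l x hx => hC _ (by
      by_contra hm
      exact hx (h.toOk.Ws_of_not_mov (by omega) hm))) h12 fun τ hτ => ?_
  refine (hubYG_log h hi (h0.trans hτ.1.le) hηc hηb hc (HC τ hτ) (HB τ hτ)).trans ?_
  refine mul_le_mul_of_nonneg_left ?_ (by positivity)
  refine (stage_log h hi h0 hτ.1.le hηc hηb hc hC0 hC
    (fun r hr => HC r ⟨hr.1, hr.2.trans hτ.2⟩)
    (fun r hr => HB r ⟨hr.1, hr.2.trans hτ.2⟩)).trans (le_trans ?_ hK)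
  have hP : 0 ≤ PhiG (ATX N D.X) D.p D.ν E F (eT (D.us (i + 1)) (D.Ws (i + 1)) τ₁) + c :=
    add_nonneg (PhiG_nonneg h.p_nonneg fun l x =>
      (eT_pos h.b_pos (fun l x => h.us_ge (i + 1) l x)
        (fun l x => h.toOk.Ws_nonneg (by omega) l x) τ₁ l x).le) hc
  refine mul_le_mul_of_nonneg_left (Real.exp_le_exp.2 ?_) hP
  exact mul_le_mul_of_nonneg_left (by linarith [hτ.2]) (by positivity)

end Vale.Agent.P365.V4.H937
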