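import Vale.Agent.P365.T1c.V3Swap548
import Vale.Agent.P365.H509.Loc548b
import Vale.Agent.P365.T1.PeelV963

/-!
# P365-T2, V4: the centres after a switch or an insertion

Facts about `V3.cen` only.  A profile which depends on the own label and on the centres only
(`Loc`) does not change: (s1) off a switched region which cuts no matched block, (s2) off a block
in which the pattern of family `i` is inserted, (s3) off a closed set, any part of which is
switched, (s4) off the region of a normal site (`Chg`).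
-/

set_option autoImplicit false
set_option linter.all false

namespace Vale.Agent.P365.V4.C937

open Vale.Agent.P365.J376 P365L P365T1 P365T1.Switch P365T1.Peel

variable {D : V3} {N : ℕ} [NeZero N] {l : Tor N → D.Λ}

/-- the profile `e` depends on the own label and on the centres only -/
def Loc' (D : V3) (N : ℕ) [NeZero N] (e : (Tor N → D.Λ) → Tor N → ℝ) : Prop :=
  ∀ (l l' : Tor N → D.Λ) (x : Tor N), l x = l' x →
    (∀ j ≤ D.I, (D.cen j l x ↔ D.cen j l' x)) → e l x = e l' x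

/-! ### (s1) switching a region which cuts no matched block -/

/-- **(s1)** -/
theorem cen_swf_K (hgood : ∀ j ≤ D.I, ∀ a, D.pat j a ≠ D.good) {K : Finset (Tor N)}
    (hK : ∀ j ≤ D.I, ∀ x ∈ K, D.Mat j l x → ∀ z, bi (D.m j) z = bi (D.m j) x → z ∈ K) {j : ℕ}
    (hj : j ≤ D.I) {z : Tor N} (hz : z ∉ K) : D.cen j l z ↔ D.cen j (swf K D.good l) z :=
  (V3.cen_swf hgood (V3.closed_of_block hK) hj hz).symm

/-- inside the switched region there is no centre -/
theorem not_cen_swf (hgood : ∀ j ≤ D.I, ∀ a, D.pat j a ≠ D.good) {K : Finset (Tor N)} {j : ℕ}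
    (hj : j ≤ D.I) {z : Tor N} (hz : z ∈ K) : ¬ D.cen j (swf K D.good l) z :=
  V3.not_cen_of_good hgood hj (swf_in hz)

/-- no centre is created by a switch -/
theorem cen_of_swf (hgood : ∀ j ≤ D.I, ∀ a, D.pat j a ≠ D.good) {K : Finset (Tor N)} {j : ℕ}
    (hj : j ≤ D.I) {z : Tor N} (h : D.cen j (swf K D.good l) z) : D.cen j l z := by
  refine ⟨fun w hw => ?_, h.2⟩
  have h1 := h.1 w hw
  by_cases hS : w ∈ K
  · rw [swf_in hS] at h1
    exact absurd h1.symm (hgood j hj _)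
  · rwa [swf_out hS] at h1

theorem e_swf_K {e : (Tor N → D.Λ) → Tor N → ℝ} (he : Loc' D N e)
    (hgood : ∀ j ≤ D.I, ∀ a, D.pat j a ≠ D.good) {K : Finset (Tor N)}
    (hK : ∀ j ≤ D.I, ∀ x ∈ K, D.Mat j l x → ∀ z, bi (D.m j) z = bi (D.m j) x → z ∈ K) :
    ∀ z, z ∉ K → e l z = e (swf K D.good l) z := fun z hz =>
  he _ _ _ (swf_out hz).symm fun _ hj => cen_swf_K hgood hK hj hz

/-! ### (s1') closed sets, `ClosedC` sets -/

theorem cen_swf_closed (hgood : ∀ j ≤ D.I, ∀ a, D.pat j a ≠ D.good) {S : Finset (Tor N)}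
    (hcl : D.Closed l S) {j : ℕ} (hj : j ≤ D.I) {z : Tor N} (hz : z ∉ S) :
    D.cen j l z ↔ D.cen j (swf S D.good l) z :=
  (V3.cen_swf hgood hcl hj hz).symm

theorem e_swf_closed {e : (Tor N → D.Λ) → Tor N → ℝ} (he : Loc' D N e)
    (hgood : ∀ j ≤ D.I, ∀ a, D.pat j a ≠ D.good) {S : Finset (Tor N)} (hcl : D.Closed l S) :
    ∀ z, z ∉ S → e l z = e (swf S D.good l) z := fun z hz =>
  he _ _ _ (swf_out hz).symm fun _ hj => cen_swf_closed hgood hcl hj hz

theorem cen_swf_closedC (hgood : ∀ j ≤ D.I, ∀ a, D.pat j a ≠ D.good) {S : Finset (Tor N)}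
    (hcl : D.ClosedC l S) {j : ℕ} (hj : j ≤ D.I) {z : Tor N} (hz : z ∉ S) :
    D.cen j l z ↔ D.cen j (swf S D.good l) z :=
  (V3.cen_swf_c hgood hcl hj hz).symm

theorem e_swf_closedC {e : (Tor N → D.Λ) → Tor N → ℝ} (he : Loc' D N e)
    (hgood : ∀ j ≤ D.I, ∀ a, D.pat j a ≠ D.good) {S : Finset (Tor N)} (hcl : D.ClosedC l S) :
    ∀ z, z ∉ S → e l z = e (swf S D.good l) z := fun z hz =>
  he _ _ _ (swf_out hz).symm fun _ hj => cen_swf_closedC hgood hcl hj hz

/-! ### (s3) any part of a closed set is switched -/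

/-- **(s3)** -/
theorem cen_swf_sub (hgood : ∀ j ≤ D.I, ∀ a, D.pat j a ≠ D.good) {S S' : Finset (Tor N)}
    (hcl : D.Closed l S) (hS' : S' ⊆ S) {j : ℕ} (hj : j ≤ D.I) {z : Tor N} (hz : z ∉ S) :
    D.cen j l z ↔ D.cen j (swf S' D.good l) z :=
  and_congr_left fun _ => (V3.Mat_swf_sub hgood hcl hS' hj hz).symm

theorem e_swf_sub {e : (Tor N → D.Λ) → Tor N → ℝ} (he : Loc' D N e)
    (hgood : ∀ j ≤ D.I, ∀ a, D.pat j a ≠ D.good) {S S' : Finset (Tor N)}
    (hcl : D.Closed l S) (hS' : S' ⊆ S) : ∀ z, z ∉ S → e l z = e (swf S' D.good l) z :=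
  fun z hz => he _ _ _ (swf_out fun h => hz (hS' h)).symm fun _ hj =>
    cen_swf_sub hgood hcl hS' hj hz

/-- 509's form: the site `x` keeps its label -/
theorem e_swf_erase {e : (Tor N → D.Λ) → Tor N → ℝ} (he : Loc' D N e)
    (hgood : ∀ j ≤ D.I, ∀ a, D.pat j a ≠ D.good) {S : Finset (Tor N)} (x : Tor N)
    (hcl : ∀ j ≤ D.I, ∀ z, D.Mat j l z → (∃ a ∈ S, bi (D.m j) a = bi (D.m j) z) → z ∈ S) :
    ∀ z, z ∉ S → e l z = e (swf (S.erase x) D.good l) z :=
  e_swf_sub he hgood hcl (Finset.erase_subset x S)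

/-- 509's form: the whole set is switched -/
theorem e_swf {e : (Tor N → D.Λ) → Tor N → ℝ} (he : Loc' D N e)
    (hgood : ∀ j ≤ D.I, ∀ a, D.pat j a ≠ D.good) {S : Finset (Tor N)}
    (hcl : ∀ j ≤ D.I, ∀ z, D.Mat j l z → (∃ a ∈ S, bi (D.m j) a = bi (D.m j) z) → z ∈ S) :
    ∀ z, z ∉ S → e l z = e (swf S D.good l) z :=
  e_swf_closed he hgood hcl

/-! ### (s2) insertion of the pattern of family `i` in a good block -/

/-- **(s2)** off the block -/
theorem cen_ins_out (hgood : ∀ j ≤ D.I, ∀ a, D.pat j a ≠ D.good) {i : ℕ}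
    (hdis : ∀ j ≤ D.I, j ≠ i → ∀ a a', D.pat j a ≠ D.pat i a') {c : Loc}
    (hl : ∀ z, bi (D.m i) z = c → l z = D.good) {j : ℕ} (hj : j ≤ D.I) {z : Tor N}
    (hz : bi (D.m i) z ≠ c) : D.cen j (D.ins i c l) z ↔ D.cen j l z :=
  and_congr_left fun _ => V3.Mat_ins_out hgood hdis hl hj hz

/-- in the block, family `i` -/
theorem cen_ins_in {i : ℕ} {c : Loc} {z : Tor N} (hz : bi (D.m i) z = c) :
    D.cen i (D.ins i c l) z ↔ lc (D.m i) z = D.y i :=
  ⟨fun h => h.2, fun h => ⟨V3.Mat_ins hz, h⟩⟩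

/-- in the block, the other families have no centre -/
theorem not_cen_ins_in {i : ℕ} (hdis : ∀ j ≤ D.I, j ≠ i → ∀ a a', D.pat j a ≠ D.pat i a')
    {c : Loc} {j : ℕ} (hj : j ≤ D.I) (hji : j ≠ i) {z : Tor N} (hz : bi (D.m i) z = c) :
    ¬ D.cen j (D.ins i c l) z := fun h =>
  hdis j hj hji (lc (D.m j) z) (lc (D.m i) z) (by rw [← h.1 z rfl, V3.ins_in hz])

/-- **(s2)** the centre of the inserted block -/
theorem cen_ins_st {i : ℕ} {c : Loc} (hc : BIn N (D.m i) c) (hy : D.y i ∈ blk (D.m i)) :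
    D.cen i (D.ins i c l) (st N (D.m i) c (D.y i)) := V3.cen_ins hc hy

/-- the centre of the block of `x` -/
theorem cen_ins_bi {i : ℕ} (hmN : D.m i ∣ N) (hy : D.y i ∈ blk (D.m i)) (x : Tor N) :
    D.cen i (D.ins i (bi (D.m i) x) l) (st N (D.m i) (bi (D.m i) x) (D.y i)) :=
  cen_ins_st (bIn_bi hmN x) hy

theorem e_ins_out {e : (Tor N → D.Λ) → Tor N → ℝ} (he : Loc' D N e)
    (hgood : ∀ j ≤ D.I, ∀ a, D.pat j a ≠ D.good) {i : ℕ}
    (hdis : ∀ j ≤ D.I, j ≠ i → ∀ a a', D.pat j a ≠ D.pat i a') {c : Loc}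
    (hl : ∀ z, bi (D.m i) z = c → l z = D.good) {z : Tor N} (hz : bi (D.m i) z ≠ c) :
    e (D.ins i c l) z = e l z :=
  he _ _ _ (V3.ins_out hz) fun _ hj => cen_ins_out hgood hdis hl hj hz

/-- the profile in the inserted block does not depend on the labels off the block -/
theorem e_ins_in {e : (Tor N → D.Λ) → Tor N → ℝ} (he : Loc' D N e) {i : ℕ}
    (hdis : ∀ j ≤ D.I, j ≠ i → ∀ a a', D.pat j a ≠ D.pat i a') {c : Loc} {l' : Tor N → D.Λ}
    {z : Tor N} (hz : bi (D.m i) z = c) : e (D.ins i c l) z = e (D.ins i c l') z := by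
  refine he _ _ _ (by rw [V3.ins_in hz, V3.ins_in hz]) fun j hj => ?_
  rcases eq_or_ne j i with rfl | hji
  · rw [cen_ins_in hz, cen_ins_in hz]
  · exact iff_of_false (not_cen_ins_in hdis hj hji hz) (not_cen_ins_in hdis hj hji hz)

/-! ### good sites -/

/-- the profile is the same at a good site for all labellings which are good there -/
theorem e_good {e : (Tor N → D.Λ) → Tor N → ℝ} (he : Loc' D N e)
    (hgood : ∀ j ≤ D.I, ∀ a, D.pat j a ≠ D.good) {l' : Tor N → D.Λ} {z : Tor N}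
    (hz : l z = D.good) (hz' : l' z = D.good) : e l z = e l' z :=
  he _ _ _ (hz.trans hz'.symm) fun _ hj =>
    iff_of_false (V3.not_cen_of_good hgood hj hz) (V3.not_cen_of_good hgood hj hz')

/-- two labellings with the same label at `z`, neither has a centre at `z` -/
theorem e_not_cen {e : (Tor N → D.Λ) → Tor N → ℝ} (he : Loc' D N e) {l' : Tor N → D.Λ}
    {z : Tor N} (hz : l z = l' z) (h : ∀ j ≤ D.I, ¬ D.cen j l z) (h' : ∀ j ≤ D.I, ¬ D.cen j l' z) :
    e l z = e l' z := he _ _ _ hz fun j hj => iff_of_false (h j hj) (h' j hj)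

/-! ### (s4) the region of a normal site -/

theorem e_off {e : (Tor N → D.Λ) → Tor N → ℝ} (he : Loc' D N e) {i : ℕ} {l1 : Tor N → D.Λ}
    {x : Tor N} (hgood : ∀ j ≤ D.I, ∀ a, D.pat j a ≠ D.good)
    (hoff : ∀ z, z ∉ QL D i l x → l1 z = l z)
    (hin : ∀ z ∈ QL D i l x, z ∉ KL D i l x → l1 z = D.good) {z : Tor N}
    (hz : z ∉ QL D i l x) : e l1 z = e l z :=
  he _ _ _ (hoff z hz) fun _ hj => cen_off hgood hoff hin hj hz

theorem e_chg {e : (Tor N → D.Λ) → Tor N → ℝ} (he : Loc' D N e) {i : ℕ} {l1 : Tor N → D.Λ}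
    {x : Tor N} (h : Chg D i l l1 x) (hm : 3 ≤ D.m i) (hN : NL D i l x)
    (hgood : ∀ j ≤ D.I, ∀ a, D.pat j a ≠ D.good) {z : Tor N} (hz : z ∉ QL D i l x) :
    e l1 z = e l z :=
  he _ _ _ (h.off hz) fun _ hj => h.cen hm hN hgood hj hz

/-! ### the instance: the profile of V3 -/

theorem loc_prof {i : ℕ} (hi : i ≤ D.I + 1) (s : ℝ) :
    Loc' D N fun (l : Tor N → D.Λ) x => D.prof i s l x := fun _ _ _ hl hc =>
  prof_congr hl hc hi s

/-- sums, products and functions of the own label keep the property -/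
theorem Loc'.comp {e e' : (Tor N → D.Λ) → Tor N → ℝ} (he : Loc' D N e) (he' : Loc' D N e')
    (f : D.Λ → ℝ → ℝ → ℝ) : Loc' D N fun l x => f (l x) (e l x) (e' l x) := by
  intro l l' x hl hc
  show f (l x) (e l x) (e' l x) = f (l' x) (e l' x) (e' l' x)
  rw [hl, he l l' x hl hc, he' l l' x hl hc]

theorem loc_wf {j : ℕ} (hj : j ≤ D.I) : Loc' D N fun (l : Tor N → D.Λ) x => D.wf j l x :=
  fun _ _ _ hl hc => wf_congr hl (hc j hj)

theorem loc_Ws {i : ℕ} (hi : i ≤ D.I + 1) : Loc' D N fun (l : Tor N → D.Λ) x => D.Ws i l x :=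
  fun _ _ _ hl hc => Ws_congr hl hc hi

theorem loc_us (i : ℕ) : Loc' D N fun (l : Tor N → D.Λ) x => D.us i l x := by
  intro l l' x hl hc
  show D.us i l x = D.us i l' x
  unfold V3.us
  congr 1
  refine Finset.sum_congr rfl fun j hj => ?_
  rw [Finset.mem_Ico] at hj
  rw [wf_congr hl (hc j (by omega))]

end Vale.Agent.P365.V4.C937
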