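import Vale.Agent.P365.V4.PeelV963
import Vale.Agent.P365.H509.Cl908

/-!
# P365-T2: every site is NORMAL or LONG (domain `X`)
-/

set_option linter.all false

namespace P365V4.Cov798

open P365L P365T1 P365T1.Peel P365V4.Peel Vale.Agent.P365.J376

variable {D : V3} {N : ℕ} [NeZero N] {X : Finset (Tor N)} {i : ℕ} {l : Tor N → D.Λ} {x : Tor N}

/-- a site which is not NORMAL has a cluster of at least `n` non-good sites within `2 m` -/
theorem long_of_not_NX {n : ℕ} (hn : 3 * n + 3 ≤ D.m i) (h : ¬ NX D X i l x) :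
    LONG D.good n (2 * D.m i) l x := by
  rcases Nat.eq_zero_or_pos n with h0 | hpos
  · subst h0
    exact ⟨x, by rw [sub_self, nrm_zero]; exact Nat.zero_le _, Nat.zero_le _⟩
  obtain ⟨k, rfl⟩ : ∃ k, n = k + 1 := ⟨n - 1, by omega⟩
  obtain ⟨p, h1, h2, h3⟩ := chain_nrmX (n := k) (show 3 * k + 6 ≤ D.m i by omega) h
  refine long_of_chain p (fun j hj => mem_badS.1 (h1 j (by omega)).1)
    (fun j hj => (h2 j (by omega)).trans (by norm_num))
    (fun j hj j' hj' => h3 j (by omega) j' (by omega)) (h1 0 (by omega)).2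

/-- **every site is NORMAL or LONG** -/
theorem cover {n R : ℕ} (hn : 3 * n + 3 ≤ D.m i) (hR : 2 * D.m i ≤ R) (l : Tor N → D.Λ)
    (x : Tor N) : NX D X i l x ∨ LONG D.good n R l x := by
  by_cases h : NX D X i l x
  · exact Or.inl h
  · exact Or.inr ((long_of_not_NX hn h).mono le_rfl hR)

end P365V4.Cov798
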