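import Vale.Agent.P365.V4.PeelV963
import Vale.Agent.P365.E913.Link
import Vale.Agent.P365.T1c.Cov548

/-!
# P365-T2, chain V4 on a domain `X`: every site is NORMAL or LONG (helper930, port of 913 and 548)
-/

set_option autoImplicit false
set_option linter.all false

namespace P365V4.Cov930

open Finset P365L P365T1 P365T1.Peel P365V4.Peel Vale.Agent.P365.J376

variable {N : ℕ} [NeZero N] {X : Finset (Tor N)}

section lab

variable {Λ : Type*} [DecidableEq Λ]

/-- **not NORMAL: a cluster of at least `n + 1` non-good sites within distance `2 m` of `x`** -/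
theorem cluster_of_not_NrmX {m n : ℕ} (hmn : 3 * n + 6 ≤ m) {g : Λ} {l : Tor N → Λ} {x : Tor N}
    {S : Finset (Tor N)} (hS : ∀ z, z ∈ S ↔ l z ≠ g) (h : ¬ NrmX X m S x) :
    ∃ v, l v ≠ g ∧ nrm (v - x) ≤ 2 * m ∧
      n + 1 ≤ (P365T1.Ani.Kc P365T1.Ani.R5 S v).card := by
  obtain ⟨p, h1, h2, h3⟩ := chain_nrmX hmn h
  exact ⟨p 0, (hS _).1 (h1 0 (by omega)).1, (h1 0 (by omega)).2,
    P365T1.Pair.card_le_of_chain (fun i hi => (h1 i hi).1)
      (fun i hi => (h2 i hi).trans (by norm_num)) h3⟩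

end lab

/-- **not NORMAL implies LONG** -/
theorem long_of_not_NrmX {Λ : Type*} {g : Λ} {l : Tor N → Λ} {m n : ℕ} (hmn : 3 * n + 6 ≤ m)
    {S : Finset (Tor N)} (hS : ∀ z ∈ S, l z ≠ g) {x : Tor N} (h : ¬ NrmX X m S x) :
    LONG g (n + 1) (2 * m) l x := by
  obtain ⟨p, h1, h2, h3⟩ := chain_nrmX hmn h
  exact long_of_chain p (fun i hi => hS _ (h1 i (by omega)).1)
    (fun i hi => (h2 i (by omega)).trans (by norm_num))
    (fun i hi j hj => h3 i (by omega) j (by omega)) (h1 0 (by omega)).2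

variable {D : V3} {i : ℕ} {l : Tor N → D.Λ} {x : Tor N}

/-- a site which is not NORMAL has a cluster of at least `n` non-good sites within `2 m` -/
theorem long_of_not_NX {n : ℕ} (hn : 3 * n + 3 ≤ D.m i) (h : ¬ NX D X i l x) :
    LONG D.good n (2 * D.m i) l x := by
  rcases Nat.eq_zero_or_pos n with h0 | hpos
  · subst h0
    exact ⟨x, by rw [sub_self, nrm_zero]; exact Nat.zero_le _, Nat.zero_le _⟩
  obtain ⟨k, rfl⟩ : ∃ k, n = k + 1 := ⟨n - 1, by omega⟩
  exact long_of_not_NrmX (show 3 * k + 6 ≤ D.m i by omega) (S := D.badS l)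
    (fun z hz => mem_badS.1 hz) h

/-- **every site is NORMAL or LONG** -/
theorem coverX {n R : ℕ} (hn : 3 * n + 3 ≤ D.m i) (hR : 2 * D.m i ≤ R) (l : Tor N → D.Λ)
    (x : Tor N) : NX D X i l x ∨ LONG D.good n R l x := by
  by_cases h : NX D X i l x
  · exact Or.inl h
  · exact Or.inr ((long_of_not_NX hn h).mono le_rfl hR)

end P365V4.Cov930
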