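import Vale.Agent.P365.V4.HoleM509
import Vale.Agent.P365.V4.H376.HB

/-!
# P365-T2 (LONG): the laws of the datum (`μ l z = ν (l z)`)
-/

set_option linter.all false

namespace Vale.Agent.P365.J376

open P365L P365O P365T1 P365T1.Switch P365T1.OneVar P365L.TL Matrix Complex MeasureTheory Finset
open P365T1.HBasm P365T1.H770
open scoped ComplexConjugate ENNReal

variable {D : V3} {N : ℕ} [NeZero N] {ρ : Measure ℝ} {X : Finset (Tor N)} {κ : Type}
  [Fintype κ] {F : κ → Tor N → ℝ} {E : ℝ} {e : (Tor N → D.Λ) → Tor N → ℝ}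

theorem Lws_nu (h : D.Ok ρ) : Lws D N (fun l x => D.ν (l x)) where
  prob := fun l x => h.prob (l x)
  loc := fun l l' x hl _ => by rw [hl]

/-- **the one-shot switch for the laws of the datum** -/
theorem oneShot_nu (h : D.Ok ρ) {i : ℕ} {sb sc Pm b1 L D0 : ℝ} (he : Prf D N i sb sc Pm b1 e)
    (hw : 0 < sb * (D.e0 i * Real.exp (-(D.a i)))) (hL0 : 0 ≤ L)
    {Dd : D.Λ → ℝ} (hDd0 : ∀ k, 0 ≤ Dd k) (hDd : ∀ k, DensLe (Dd k) (D.ν k))
    (hD0 : ∑ k, D.p k * Dd k ≤ D0)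
    (hL : ∀ l : Tor N → D.Λ, ∀ k z, ∀ᵐ u ∂D.ν k, |u - E| + e l z ≤ L) :
    OneShot D N X E (fun l x => D.ν (l x)) e (sb * (D.e0 i * Real.exp (-(D.a i))))
      (KqU L ((L + 1) ^ 2 * (Real.pi * D0)) (1 - D.p D.good)) := by
  intro Tm S x hx Tl hng hmov hloc
  classical
  haveI := h.prob
  set w : ℝ := sb * (D.e0 i * Real.exp (-(D.a i))) with hwd
  set τ : ℝ := 1 - D.p D.good with hτd
  have hsum : ∑ b ∈ Finset.univ.erase D.good, D.p b = τ := by
    have := Finset.add_sum_erase Finset.univ D.p (Finset.mem_univ D.good)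
    rw [h.p_sum] at this
    rw [hτd]
    linarith
  have hτ0 : 0 ≤ τ := hsum ▸ Finset.sum_nonneg fun b _ => h.p_nonneg b
  have hτ1 : τ ≤ 1 / 8192 := h.p_good
  have hpg : 8191 / 8192 ≤ D.p D.good := by
    rw [hτd] at hτ1
    linarith
  have hD00 : 0 ≤ D0 :=
    (Finset.sum_nonneg fun k _ => mul_nonneg (h.p_nonneg k) (hDd0 k)).trans hD0
  have hKq0 : 0 ≤ Kq L D0 τ S.card := Kq_nonneg hD00 hτ0 _
  rw [KqU_eq]
  rw [← Finset.sum_fiberwise_of_maps_to (g := swf S D.good) (t := Tl.image (swf S D.good))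
    (fun l hl => Finset.mem_image_of_mem _ hl), Finset.mul_sum]
  refine Finset.sum_le_sum fun l' hl' => ?_
  set T : Finset (Tor N → D.Λ) := Tl.filter fun l => swf S D.good l = l' with hT
  have hmem : ∀ l ∈ T, l ∈ Tl ∧ swf S D.good l = l' := fun l hl => Finset.mem_filter.1 hl
  have hone := one_shot_sum (A := ATX N X) (ATX_symm N X) (Tm l') (ν := D.ν) (p := D.p)
    h.p_nonneg (E := E) (L := L) (D := Dd) (e := e)
    he.pos (S := S) (x := x) hx (g := D.good)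
    (by linarith) (al := fun _ => Finset.univ.erase D.good) (T := T)
    (fun l hl k hk => Finset.mem_erase.2 ⟨hng l (hmem l hl).1 k hk, Finset.mem_univ _⟩)
    (fun l hl z hz => (hloc l (hmem l hl).1 z hz).1) (fun l _ k _ => hDd _) hL0
    (fun l _ k _ => hL l _ k) (fun l _ k _ => hL _ _ k)
  have hgn := gn_erase_le (ι := Tor N) h.p_nonneg hDd0 hL0 (g := D.good) (τ := τ) hsum.le
    (by linarith) hD0 S
  have hK : gn D.p L Dd S (fun _ => Finset.univ.erase D.good) *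
      ENNReal.ofReal (1 / D.p D.good) ^ S.card *
        ENNReal.ofReal (2 * (1 + (S.card + 1) * (L + 1) ^ 2)) ≤
      ENNReal.ofReal (Kq L D0 τ S.card) := by
    have h2 : ENNReal.ofReal (1 / D.p D.good) ^ S.card ≤ ENNReal.ofReal (2 ^ S.card) := by
      rw [ENNReal.ofReal_pow (by norm_num)]
      gcongr
      rw [div_le_iff₀ (by linarith)]
      linarith
    refine (mul_le_mul' (mul_le_mul' hgn h2) le_rfl).trans ?_
    rw [← ENNReal.ofReal_mul (by positivity), ← ENNReal.ofReal_mul (by positivity)]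
    refine ENNReal.ofReal_le_ofReal ?_
    set n : ℝ := (S.card : ℝ) with hn
    have hn0 : 0 ≤ n := Nat.cast_nonneg _
    set Z : ℝ := (L + 1) ^ 2 * (Real.pi * D0) with hZ
    have hZ0 : 0 ≤ Z := by positivity
    set Y : ℝ := (L + 1) ^ 2 with hY
    have hY0 : 0 ≤ Y := by positivity
    have h5 : (4 + 4 * n ^ 2 * Z) ≤ 4 * (1 + Z) * (n + 1) ^ 2 := by
      nlinarith [mul_nonneg hn0 hZ0]
    have h6 : 2 * (1 + (n + 1) * Y) ≤ 2 * (1 + Y) * (n + 1) := by nlinarith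
    have h7 : (4 + 4 * n ^ 2 * Z) * (2 * (1 + (n + 1) * Y)) ≤
        8 * (1 + Z) * (1 + Y) * (n + 1) ^ 3 := by
      calc (4 + 4 * n ^ 2 * Z) * (2 * (1 + (n + 1) * Y))
          ≤ (4 * (1 + Z) * (n + 1) ^ 2) * (2 * (1 + Y) * (n + 1)) := by gcongr
        _ = _ := by ring
    have h8 : 0 ≤ (2 : ℝ) ^ S.card * τ ^ (S.card - 1) := by positivity
    calc (4 + 4 * n ^ 2 * Z) * τ ^ (S.card - 1) * 2 ^ S.card * (2 * (1 + (n + 1) * Y))
        = ((4 + 4 * n ^ 2 * Z) * (2 * (1 + (n + 1) * Y))) * (2 ^ S.card * τ ^ (S.card - 1)) := by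
          ring
      _ ≤ (8 * (1 + Z) * (1 + Y) * (n + 1) ^ 3) * (2 ^ S.card * τ ^ (S.card - 1)) :=
          mul_le_mul_of_nonneg_right h7 h8
      _ ≤ (16 * (1 + Z) * (1 + Y) * (n + 1) ^ 3) * (2 ^ S.card * τ ^ (S.card - 1)) := by
          refine mul_le_mul_of_nonneg_right ?_ h8
          have : 0 ≤ (1 + Z) * (1 + Y) * (n + 1) ^ 3 := by positivity
          linarith
      _ = Kq L D0 τ S.card := by
          rw [Kq]
          ring
  -- lower bound of the profile on `insert x S`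
  have hge : ∀ l ∈ T, ∀ z ∈ insert x S, w ≤ e (swf S D.good l) z := by
    intro l hl z hz
    refine he.mov_ge _ _ ?_
    rcases Finset.mem_insert.1 hz with rfl | hz
    · rw [swf_out hx]
      exact hmov l (hmem l hl).1
    · rw [swf_in hz]
      exact h.mov_good
  have himg : T.image (swf S D.good) ⊆ {l'} := by
    intro l hl
    obtain ⟨m, hm, rfl⟩ := Finset.mem_image.1 hl
    exact Finset.mem_singleton.2 (hmem m hm).2
  have hlhs : ∑ l ∈ T, D.Pl l * ∫⁻ v, ENNReal.ofReal (Yv (ATX N X) (WV E (e l) v)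
        (Tm (swf S D.good l)) x) ∂(Measure.pi fun x => D.ν (l x)) =
      ∑ l ∈ T, ENNReal.ofReal (∏ z, D.p (l z)) *
        ∫⁻ v, ENNReal.ofReal (Yv (ATX N X) (WV E (e l) v) (Tm l') x)
          ∂Measure.pi (fun z => D.ν (l z)) :=
    Finset.sum_congr rfl fun l hl => by rw [(hmem l hl).2]; rfl
  rw [hlhs]
  refine hone.trans ?_
  refine (mul_le_mul' hK le_rfl).trans ?_
  have e2 : ENNReal.ofReal (Kq L D0 τ S.card / w) =
      ENNReal.ofReal (Kq L D0 τ S.card) * ENNReal.ofReal (1 / w) := by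
    rw [← ENNReal.ofReal_mul hKq0]
    congr 1
    ring
  rw [e2, mul_assoc]
  refine mul_le_mul' le_rfl ?_
  calc ∑ l'' ∈ T.image (swf S D.good), ENNReal.ofReal (∏ z, D.p (l'' z)) *
        ∑ z ∈ insert x S, ∫⁻ v, MV (ATX N X) (WV E (e l'') v) (Tm l') z
            ∂Measure.pi (fun z => D.ν (l'' z))
      ≤ ∑ l'' ∈ T.image (swf S D.good), ENNReal.ofReal (∏ z, D.p (l'' z)) *
        ∑ z ∈ insert x S, ENNReal.ofReal (1 / w) * (ENNReal.ofReal (e l'' z) *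
          ∫⁻ v, MV (ATX N X) (WV E (e l'') v) (Tm l') z
            ∂Measure.pi (fun z => D.ν (l'' z))) := by
        refine Finset.sum_le_sum fun l'' hl'' => mul_le_mul' le_rfl
          (Finset.sum_le_sum fun z hz => ?_)
        obtain ⟨l, hl, rfl⟩ := Finset.mem_image.1 hl''
        have h1 := hge l hl z hz
        rw [← mul_assoc, ← ENNReal.ofReal_mul (by positivity)]
        refine le_mul_of_one_le_left zero_le ?_
        rw [← ENNReal.ofReal_one]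
        refine ENNReal.ofReal_le_ofReal ?_
        rw [one_div, inv_mul_eq_div, le_div_iff₀ hw]
        linarith
    _ ≤ ∑ l'' ∈ {l'}, ENNReal.ofReal (∏ z, D.p (l'' z)) *
        ∑ z ∈ insert x S, ENNReal.ofReal (1 / w) * (ENNReal.ofReal (e l'' z) *
          ∫⁻ v, MV (ATX N X) (WV E (e l'') v) (Tm l') z
            ∂Measure.pi (fun z => D.ν (l'' z))) := Finset.sum_le_sum_of_subset himg
    _ = _ := by
        rw [Finset.sum_singleton, ← Finset.mul_sum, mul_left_comm]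
        rfl

open Classical in
/-- **LONG for the laws of the datum** -/
theorem long_sum4 (h : D.Ok ρ) (hpat : ∀ j ≤ D.I, ∀ a, D.pat j a ≠ D.good)
    {i : ℕ} (hi : i ≤ D.I) {sb sc Pm b1 L D0 Λf : ℝ} (he : Prf D N i sb sc Pm b1 e)
    (hsb : 0 < sb) (hsb1 : sb ≤ 1) (hF : VecLip F Λf) (hL0 : 0 ≤ L) (hD00 : 0 ≤ D0)
    {Dd : D.Λ → ℝ} (hDd0 : ∀ k, 0 ≤ Dd k) (hDd : ∀ k, DensLe (Dd k) (D.ν k))
    (hD0 : ∑ k, D.p k * Dd k ≤ D0)
    (hL : ∀ l : Tor N → D.Λ, ∀ k z, ∀ᵐ u ∂D.ν k, |u - E| + e l z ≤ L)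
    {n R : ℕ} (hn : 2 ≤ n) :
    ∑ l : Tor N → D.Λ, ENNReal.ofReal (∏ x, D.p (l x)) *
        ∑ x, (if x ∈ X ∧ D.mov (l x) ∧ LONG D.good n R l x then
          FY4 D N X F E e l x else 0) ≤
      ENNReal.ofReal (etaL L D0 Pm n R / (sb * (D.e0 i * Real.exp (-(D.a i))))) *
        (FR4 D N X F E e + ENNReal.ofReal (Λf ^ 2 * X.card)) := by
  have h0 := h.e0_pos i hi
  have h1 : Real.exp (-(D.a i)) ≤ 1 := Real.exp_le_one_iff.2 (by linarith [h.a_nonneg i hi])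
  have hw : 0 < sb * (D.e0 i * Real.exp (-(D.a i))) := by positivity
  have hw1 : sb * (D.e0 i * Real.exp (-(D.a i))) ≤ 1 := by
    have h2 : D.e0 i * Real.exp (-(D.a i)) ≤ 1 * 1 :=
      mul_le_mul (h.e0_le i hi) h1 (Real.exp_pos _).le zero_le_one
    have h3 : sb * (D.e0 i * Real.exp (-(D.a i))) ≤ 1 * (1 * 1) :=
      mul_le_mul hsb1 h2 (by positivity) zero_le_one
    linarith
  have hU : 0 ≤ (L + 1) ^ 2 * (Real.pi * D0) := by
    have := Real.pi_pos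
    positivity
  exact long_sum_m (μ := fun l x => D.ν (l x)) h hpat he (Lws_nu h) hw hw1 hU hF
    (oneShot_nu h he hw hL0 hDd0 hDd hD0 hL) hn

open P365V4.H376 in
/-- **LONG in the form of the assembly of the bulk hub** -/
theorem long_paid (h : D.Ok ρ) (hpat : ∀ j ≤ D.I, ∀ a, D.pat j a ≠ D.good)
    {i : ℕ} (hi : i ≤ D.I) {sb sc Pm b1 L D0 Λf : ℝ} (he : Prf D N i sb sc Pm b1 e)
    (hsb : 0 < sb) (hsb1 : sb ≤ 1) (hF : VecLip F Λf) (hL0 : 0 ≤ L) (hD00 : 0 ≤ D0)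
    {Dd : D.Λ → ℝ} (hDd0 : ∀ k, 0 ≤ Dd k) (hDd : ∀ k, DensLe (Dd k) (D.ν k))
    (hD0 : ∑ k, D.p k * Dd k ≤ D0)
    (hL : ∀ l : Tor N → D.Λ, ∀ k z, ∀ᵐ u ∂D.ν k, |u - E| + e l z ≤ L)
    {n R : ℕ} (hn : 2 ≤ n) :
    Paid D N X F E e i sb (etaL L D0 Pm n R) (Λf ^ 2 * X.card)
      (fun l x => D.mov (l x) ∧ ¬ D.cen i l x ∧ LONG D.good n R l x) := by
  classical
  have h1 := long_sum4 (X := X) h hpat hi he hsb hsb1 hF hL0 hD00 hDd0 hDd hD0 hL hn (R := R)
  unfold Paid SY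
  refine le_trans ?_ h1
  refine Finset.sum_le_sum fun l _ => mul_le_mul' le_rfl (Finset.sum_le_sum fun x _ => ?_)
  by_cases hc : x ∈ X ∧ D.mov (l x) ∧ ¬ D.cen i l x ∧ LONG D.good n R l x
  · rw [if_pos hc, if_pos ⟨hc.1, hc.2.1, hc.2.2.2⟩]
  · rw [if_neg hc]
    exact zero_le

end Vale.Agent.P365.J376
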