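import Vale.Agent.P365.T1.ConcDD755
import Vale.Agent.P365.T2.ConcG795
import Vale.Agent.P365.V4.Datum394

/-!
# P365-T2: the label laws of the concrete datum `D4` (base `β`)

The datum `D4 p ν` of `V4/Datum394` with the masses `p4`, the laws `nu4` (moving labels
`nuS lam (lam tau0 / 2)`, windows `nuB (Vs z) (exp (-r_i))`), the densities `DS4`.
-/

set_option linter.all false

namespace P365V4.Datum

open P365L P365L.TL P365SH Vale.Agent.P365.C937 Vale.Agent.P365.J376 MeasureTheory Set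
open P365T1 P365T1.Lab37 P365T1.Bump P365T1.Link P365T2 P365T2.SeqG
open P365T1.Conc (Par APar mk pat_y tau0 tau0_pos tau0_le l0_pos l0_lt two_l0_le CaS CaS_nonneg
  cost_nuS_le nuB_ae mem_Xr_of_abs)
open scoped ENNReal

theorem P4_eq (β : ℕ) (yf : ℕ → ℤ × ℤ) (rs I : ℕ) : P4 β yf rs I = ConcG.PP β yf rs I := rfl

/-- label masses -/
noncomputable def p4 (β : ℕ) (yf : ℕ → ℤ × ℤ) (rs I : ℕ) : (P4 β yf rs I).Lb → ℝ :=
  ConcG.pS β yf rs I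

/-- label laws -/
noncomputable def nu4 (β : ℕ) (lam : ℝ) (yf : ℕ → ℤ × ℤ) (Vsf : ℕ → ℤ × ℤ → ℝ) (rs I : ℕ) :
    (P4 β yf rs I).Lb → Measure ℝ :=
  ConcG.nuD β lam yf Vsf rs I

/-- density bounds of the label laws -/
noncomputable def DS4 (β : ℕ) (lam : ℝ) (yf : ℕ → ℤ × ℤ) (rs I : ℕ) : (P4 β yf rs I).Lb → ℝ :=
  ConcG.DS β lam yf rs I

/-- admissible data -/
abbrev Adm4S (β : ℕ) (lam : ℝ) (yf : ℕ → ℤ × ℤ) (Vsf : ℕ → ℤ × ℤ → ℝ) (rs I : ℕ) : Prop :=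
  ConcG.AdmS β lam yf Vsf rs I

variable {β : ℕ}

theorem exists_adm4S (β : ℕ) [Fact (2 ≤ β)] {lam lam' : ℝ} (hlam : 0 < lam) (h : lam' < lam) :
    ∃ R : ℕ, 2 ≤ R ∧ ∀ rs, R ≤ rs → ∀ (yf : ℕ → ℤ × ℤ) (Vsf : ℕ → ℤ × ℤ → ℝ),
      (∀ r, rs ≤ r → ∀ z, |Vsf r z| ≤ lam') → ∀ I, Adm4S β lam yf Vsf rs I :=
  ConcG.exists_admS β hlam h

variable {lam : ℝ} {yf : ℕ → ℤ × ℤ} {Vsf : ℕ → ℤ × ℤ → ℝ} {rs I : ℕ}

/-- **the skeleton facts** -/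
theorem lw4 (h : Adm4S β lam yf Vsf rs I) :
    Lw4 (nuL lam) (p4 β yf rs I) (nu4 β lam yf Vsf rs I) :=
  let k := ConcG.lw_DD h
  ⟨k.prob, k.p_nonneg, k.p_sum, k.mix, k.p_good⟩

theorem p4_pos (h : Adm4S β lam yf Vsf rs I) (k : (P4 β yf rs I).Lb) : 0 < p4 β yf rs I k :=
  ConcG.pS_pos h k

/-- the smooth law at the moving labels -/
theorem nu4_mov (h : Adm4S β lam yf Vsf rs I) {k : (P4 β yf rs I).Lb}
    (hk : (D4 (p4 β yf rs I) (nu4 β lam yf Vsf rs I)).mov k) :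
    nu4 β lam yf Vsf rs I k = nuS lam (lam * tau0 / 2) := ConcG.nuD_mov h hk

theorem nu4_mark (h : Adm4S β lam yf Vsf rs I) (i : Fin (I + 1)) :
    nu4 β lam yf Vsf rs I ((P4 β yf rs I).mark i) = nuS lam (lam * tau0 / 2) :=
  ConcG.nuD_mark h i

theorem nu4_good (h : Adm4S β lam yf Vsf rs I) :
    nu4 β lam yf Vsf rs I none = nuS lam (lam * tau0 / 2) := ConcG.nuD_good h

/-- the window laws -/
theorem nu4_win {i : ℕ} (hi : i ≤ I)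
    (z : ((Xr (rr β rs i)).erase (yf (rr β rs i)) : Finset (ℤ × ℤ))) :
    nu4 β lam yf Vsf rs I ((P4 β yf rs I).win ⟨⟨i, Nat.lt_succ_of_le hi⟩, z⟩) =
      nuB (Vsf (rr β rs i) z) (Real.exp (-(rr β rs i : ℝ))) := rfl

/-- masses of the pattern labels -/
theorem p4_pat {i : ℕ} (hi : i ≤ I) (a : Loc) :
    (D4 (p4 β yf rs I) (nu4 β lam yf Vsf rs I)).p
      ((D4 (p4 β yf rs I) (nu4 β lam yf Vsf rs I)).pat i a) =
      Real.exp (-(3 * (rr β rs i : ℝ))) := ConcG.pS_pat hi a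

theorem nu4_law (h : Adm4S β lam yf Vsf rs I) (k : (P4 β yf rs I).Lb) :
    Law lam (nu4 β lam yf Vsf rs I k) := ConcG.nuD_law h k

theorem nu4_supp (h : Adm4S β lam yf Vsf rs I) (k : (P4 β yf rs I).Lb) :
    nu4 β lam yf Vsf rs I k (Set.Icc (-lam) lam)ᶜ = 0 := ConcG.nuD_supp h k

theorem nu4_densLe (h : Adm4S β lam yf Vsf rs I) (k : (P4 β yf rs I).Lb) :
    DensLe (DS4 β lam yf rs I k) (nu4 β lam yf Vsf rs I k) := ConcG.nuD_densLe h k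

theorem DS4_pos (h : Adm4S β lam yf Vsf rs I) (k : (P4 β yf rs I).Lb) :
    0 < DS4 β lam yf rs I k := ConcG.DS_pos h k

theorem sum_p4_DS4 (h : Adm4S β lam yf Vsf rs I) :
    ∑ k, p4 β yf rs I k * DS4 β lam yf rs I k ≤ 2 / lam := ConcG.sum_pS_DS h

theorem p4_mul_DS4_le (h : Adm4S β lam yf Vsf rs I) (k : (P4 β yf rs I).Lb) :
    p4 β yf rs I k * DS4 β lam yf rs I k ≤ 1 / lam := ConcG.pS_mul_DS_le h k

/-- costs of the moving labels -/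
theorem cost4 (h : Adm4S β lam yf Vsf rs I) (E : ℝ) {k : (P4 β yf rs I).Lb}
    (hk : (D4 (p4 β yf rs I) (nu4 β lam yf Vsf rs I)).mov k) :
    CostLe E (CaS lam E) (nu4 β lam yf Vsf rs I k) := by
  rw [nu4_mov h hk]
  exact cost_nuS_le h.hlam E

/-- **the cells of the datum `D4`** -/
theorem cellIn_D4 [Fact (2 ≤ β)] (hrs : 2 ≤ rs)
    (hy : ∀ r, rs ≤ r → |(yf r).1| < r ∧ |(yf r).2| < r)
    {p : (P4 β yf rs I).Lb → ℝ} {ν : (P4 β yf rs I).Lb → Measure ℝ} {w : ℕ → ℝ} {i : ℕ}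
    (hi : i ≤ I) (hw : 0 < w i)
    (hν : ∀ z : ((Xr (rr β rs i)).erase (yf (rr β rs i)) : Finset (ℤ × ℤ)),
      ν ((P4 β yf rs I).win ⟨⟨i, Nat.lt_succ_of_le hi⟩, z⟩) = nuB (Vsf (rr β rs i) z) (w i)) :
    CellIn (D4 p ν) i (rr β rs i) (4 * rr β rs i, 4 * rr β rs i) (yf (rr β rs i))
      (Vsf (rr β rs i)) (w i) := by
  have hok : (P4 β yf rs I).Ok := P4_ok hrs
    (fun r hr => mem_Xr_of_abs (hy r hr).1 (hy r hr).2) I
  have hr : rs ≤ rr β rs i := le_rr (by omega) i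
  refine P365T1.Conc.cellIn (P := P4 β yf rs I) (Q := Q4 p ν) hok (i := i) hi (hy _ hr).1
    (hy _ hr).2 (Vs := Vsf (rr β rs i)) (w := w i) ?_
  intro a ha
  have h2 := hν ⟨a, ha⟩
  exact (congrArg (fun μ : Measure ℝ => ∀ᵐ t ∂μ, |t - Vsf (rr β rs i) a| ≤ w i) h2).mpr
    (nuB_ae hw)

end P365V4.Datum
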