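import Vale.Agent.P365.V4.H685.Hc4b
import Vale.Agent.P365.V4.Inst
import Vale.Agent.P365.V4.LawD4_795
import Vale.Agent.P365.T2.HCparG795

/-!
# P365-T2: the centre hub (HC4) for the concrete datum `D4` (base `β`), abstract profiles

Any rate `1 / r_i ^ n`; any domain (union of blocks); any profile with `Prf`.
-/

set_option linter.all false

namespace P365V4.Datum

open P365L P365L.TL P365SH Vale.Agent.P365.C937 Vale.Agent.P365.J376 MeasureTheory Set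
open P365T1 P365T1.Lab37 P365T1.Bump P365T1.Link P365T2 P365T2.SeqG P365T2.HCnumG
open P365T1.HCnum P365T1.OneVar P365T1.Isl P365V4.H685 Filter P365T1.ISL P365T1.H417
open P365T1.Conc (Par APar mk pat_y tau0 tau0_pos tau0_le l0_pos l0_lt two_l0_le CaS CaS_nonneg
  cost_nuS_le nuB_ae mem_Xr_of_abs)
open scoped ENNReal

/-- the constants of (HC), windows `w ≤ exp (-r)`, centres `ε ≤ K exp (-r)`, any exponent `A` of
`T` and any rate `n` -/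
theorem hc_numK {C κ K : ℝ} (hC : 1 ≤ C) (hK : 0 < K) (hκ0 : 0 < κ) (hκ1 : κ < 1)
    (ms R0 A n : ℕ) :
    ∀ᶠ r : ℕ in atTop, ∀ w b ε T k g : ℝ, 0 ≤ w → w ≤ Real.exp (-(r : ℝ)) →
      0 ≤ b → b ≤ Real.exp (-(r : ℝ)) → 0 ≤ ε → ε ≤ K * Real.exp (-(r : ℝ)) →
      0 ≤ T → T ≤ 8 * (r : ℝ) ^ A → 0 ≤ k → k ≤ 8 * (r : ℝ) + 8 → 0 ≤ g →
      g ≤ κ ^ (r - (R0 + 1)) →
      1 ≤ (r : ℝ) ^ (2 * (A + n + 2)) ∧
      C * ((k + 1) * (1 + T)) ≤ ((r : ℝ) ^ (2 * (A + n + 2))) ^ 2 ∧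
      (32 * (2 * (r : ℝ) + 1) ^ (2 * ms + 2) * (w + b) + 32 * (2 * (r : ℝ) + 1) ^ ms * g) *
        (C * ((k + 1) ^ 4 * ((r : ℝ) ^ (2 * (A + n + 2))) ^ 5)) ≤ 1 ∧
      ε + 1 / (r : ℝ) ^ (2 * (A + n + 2)) ≤ 1 / C ∧
      C * ((k + 1) * Real.sqrt (ε + 1 / (r : ℝ) ^ (2 * (A + n + 2)))) ≤ 1 / (r : ℝ) ^ n := by
  have hC0 : 0 < C := by linarith
  obtain ⟨p, hp⟩ : ∃ p, p = A + n + 2 := ⟨_, rfl⟩
  rw [← hp]
  filter_upwards [ev_ge 1, ev_ge (153 * C), ev_ge ((K + 1) * C), ev_ge (34 * C),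
    ev_exp (2 * p) (A := K) hK,
    ev_exp (2 * ms + 6 + 10 * p) (A := 2 * (64 * 3 ^ (2 * ms + 2) * 83521 * C)) (by positivity),
    ev_shift hκ0 hκ1 (ms + 4 + 10 * p) (R0 + 1) (A := 2 * (32 * 3 ^ ms * 83521 * C))
      (by positivity)]
    with r h1 hb1 hb3 hb4 hexp hexp2 hsh w b ε T k g hw0 hw hb0 hb hε0 hε hT0 hT hk0 hk hg0 hg
  generalize hx : (r : ℝ) = x at *
  have hx0 : 0 < x := by linarith
  have hxp : ∀ n : ℕ, 1 ≤ x ^ n := fun n => one_le_pow₀ h1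
  have hk1 : k + 1 ≤ 17 * x := by linarith
  have hxx : ∀ {n m : ℕ}, n ≤ m → x ^ n ≤ x ^ m := fun h => pow_le_pow_right₀ h1 h
  refine ⟨hxp _, ?_, ?_, ?_, ?_⟩
  · -- (b)
    have h2 : 1 + T ≤ 9 * x ^ A := by linarith [hxp A]
    calc C * ((k + 1) * (1 + T)) ≤ C * ((17 * x) * (9 * x ^ A)) := by gcongr
      _ = (153 * C) * x ^ (A + 1) := by ring
      _ ≤ x * x ^ (A + 1) := by gcongr
      _ = x ^ (A + 2) := by ring
      _ ≤ x ^ (2 * p * 2) := hxx (by omega)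
      _ = (x ^ (2 * p)) ^ 2 := by rw [← pow_mul]
  · -- (c)
    have hq : C * ((k + 1) ^ 4 * (x ^ (2 * p)) ^ 5) ≤ 83521 * C * x ^ (4 + 10 * p) := by
      calc C * ((k + 1) ^ 4 * (x ^ (2 * p)) ^ 5) ≤ C * ((17 * x) ^ 4 * (x ^ (2 * p)) ^ 5) := by
            gcongr
        _ = 83521 * C * x ^ (4 + 10 * p) := by
            rw [← pow_mul, pow_add, show 10 * p = 2 * p * 5 by ring]
            ring
    have hq0 : 0 ≤ C * ((k + 1) ^ 4 * (x ^ (2 * p)) ^ 5) := by positivity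
    have hy : 2 * x + 1 ≤ 3 * x := by linarith
    have e1 : 32 * (2 * x + 1) ^ (2 * ms + 2) * (w + b) ≤
        64 * 3 ^ (2 * ms + 2) * (x ^ (2 * ms + 2) * Real.exp (-x)) := by
      calc 32 * (2 * x + 1) ^ (2 * ms + 2) * (w + b)
          ≤ 32 * (3 * x) ^ (2 * ms + 2) * (Real.exp (-x) + Real.exp (-x)) := by gcongr
        _ = _ := by
            rw [mul_pow]
            ring
    have e2 : 32 * (2 * x + 1) ^ ms * g ≤ 32 * 3 ^ ms * (x ^ ms * κ ^ (r - (R0 + 1))) := by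
      calc 32 * (2 * x + 1) ^ ms * g ≤ 32 * (3 * x) ^ ms * κ ^ (r - (R0 + 1)) := by gcongr
        _ = _ := by
            rw [mul_pow]
            ring
    have f1 : 32 * (2 * x + 1) ^ (2 * ms + 2) * (w + b) *
        (C * ((k + 1) ^ 4 * (x ^ (2 * p)) ^ 5)) ≤ 1 / 2 := by
      calc _ ≤ 64 * 3 ^ (2 * ms + 2) * (x ^ (2 * ms + 2) * Real.exp (-x)) *
            (83521 * C * x ^ (4 + 10 * p)) := by gcongr
        _ = (64 * 3 ^ (2 * ms + 2) * 83521 * C) * (x ^ (2 * ms + 6 + 10 * p) * Real.exp (-x)) := by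
            rw [show 2 * ms + 6 + 10 * p = (2 * ms + 2) + (4 + 10 * p) by ring,
              pow_add x (2 * ms + 2) (4 + 10 * p)]
            ring
        _ ≤ 1 / 2 := by linarith
    have f2 : 32 * (2 * x + 1) ^ ms * g * (C * ((k + 1) ^ 4 * (x ^ (2 * p)) ^ 5)) ≤ 1 / 2 := by
      calc _ ≤ 32 * 3 ^ ms * (x ^ ms * κ ^ (r - (R0 + 1))) * (83521 * C * x ^ (4 + 10 * p)) := by
            gcongr
        _ = (32 * 3 ^ ms * 83521 * C) * (x ^ (ms + 4 + 10 * p) * κ ^ (r - (R0 + 1))) := by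
            rw [show ms + 4 + 10 * p = ms + (4 + 10 * p) by ring, pow_add x ms (4 + 10 * p)]
            ring
        _ ≤ 1 / 2 := by linarith
    rw [add_mul]
    linarith
  · -- (d)
    have h2 : K * Real.exp (-x) ≤ K / x := by
      have h3 : x ≤ Real.exp x := by linarith [Real.add_one_le_exp x]
      rw [Real.exp_neg, le_div_iff₀ hx0]
      calc K * (Real.exp x)⁻¹ * x ≤ K * (Real.exp x)⁻¹ * Real.exp x := by gcongr
        _ = K := by field_simp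
    have h3 : 1 / x ^ (2 * p) ≤ 1 / x := by
      gcongr
      calc x = x ^ 1 := (pow_one x).symm
        _ ≤ x ^ (2 * p) := hxx (by omega)
    have h4 : (K + 1) / x ≤ 1 / C := by
      rw [div_le_div_iff₀ hx0 hC0]
      linarith
    have h5 : K / x + 1 / x = (K + 1) / x := by ring
    linarith
  · -- (e)
    have h2 : ε ≤ 1 / x ^ (2 * p) := by
      refine hε.trans ?_
      rw [le_div_iff₀ (by positivity)]
      linarith
    have h3 : Real.sqrt (ε + 1 / x ^ (2 * p)) ≤ 2 / x ^ p := by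
      rw [Real.sqrt_le_left (by positivity)]
      have e : (2 / x ^ p) ^ 2 = 4 * (1 / x ^ (2 * p)) := by
        rw [div_pow, ← pow_mul, mul_comm p 2]
        ring
      rw [e]
      have : 0 ≤ 1 / x ^ (2 * p) := by positivity
      linarith
    have h6 : x ^ p = x ^ A * (x ^ n * x * x) := by
      rw [hp]
      ring
    have h7 : 0 < x ^ n := by positivity
    have h8 : 0 < x ^ A := by positivity
    calc C * ((k + 1) * Real.sqrt (ε + 1 / x ^ (2 * p))) ≤ C * ((17 * x) * (2 / x ^ p)) := by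
          gcongr
      _ = (34 * C) * x / x ^ p := by ring
      _ ≤ x * x / x ^ p := by gcongr
      _ = 1 / (x ^ A * x ^ n) := by
          rw [h6]
          field_simp
      _ ≤ 1 / x ^ n := by
          refine one_div_le_one_div_of_le h7 ?_
          have := hxp A
          nlinarith


/-- the quenched centre hub of the block implies the centre hub of `V4/Def` for one profile -/
theorem HC4_of_quenched {D : V3} {N : ℕ} [NeZero N] {X : Finset (Tor N)} {E : ℝ} {i : ℕ}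
    {κy ay T b1 ε ηc : ℝ} {ρ : Measure ℝ} (hok : D.Ok ρ)
    (hq : P365V4.H685.HC4 D N X E i κy ay T b1 ε ηc) (hX : BlkU (D.m i) X)
    (hdens : ∀ (l : Tor N → D.Λ) (x : Tor N), D.cen i l x → DensGe κy ay (D.ν (l x)))
    {sb sc : ℝ} {e : (Tor N → D.Λ) → Tor N → ℝ} (he : Prf D N i sb sc ε b1 e) (hε : ε ≤ 1 / 2)
    (hT : Real.exp (-T) ≤ sb * (D.e0 i * Real.exp (-(D.a i)))) :
    Vale.Agent.P365.J376.HC4 D N X E e i ηc := by
  intro l x hx hc f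
  haveI := hok.prob
  refine hq l x hc (fun z hz => (hX z x hz).2 hx) (fun z => D.ν (l z)) (fun z => inferInstance)
    (fun z _ _ => rfl) (hdens l x hc) (e l) (he.pos l) (fun z _ _ hm => ?_) (fun z _ _ hm => ?_)
    (he.le l x) f
  · exact ⟨hT.trans (he.mov_ge l z hm), (he.le l z).trans hε⟩
  · exact he.nm_le l z hm

/-- **the numbers of the centre hub**, rate `1 / r ^ n` -/
theorem hcNum_D4 (β : ℕ) [hβ : Fact (2 ≤ β)] {C κ : ℝ} (hC : 1 ≤ C) (hκ0 : 0 < κ) (hκ1 : κ < 1)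
    (ms R0 n : ℕ) :
    ∃ R : ℕ, 2 ≤ R ∧ ∀ rs : ℕ, R ≤ rs → ∀ i : ℕ,
      ∀ b1 ε T : ℝ, 0 ≤ b1 → b1 ≤ Real.exp (-(rr β rs i : ℝ)) → 0 ≤ ε →
      ε ≤ 4 * Real.exp (-(rr β rs i : ℝ)) → 0 ≤ T → T ≤ 8 * (rr β rs i : ℝ) ^ (5 * β) →
      HcNum κ ms R0 C (rr β rs i) (Real.exp (-(rr β rs i : ℝ))) b1 T ε
        (1 / (rr β rs i : ℝ) ^ n) ∧ ε ≤ 1 / 2 := by
  obtain ⟨R, hR2, hR⟩ := exists_rs β (((hc_numK hC (K := 4) (by norm_num) hκ0 hκ1 ms R0
    (5 * β) n).and (window_num ms)).and (ev_exp 0 (A := 8) (by norm_num)))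
  refine ⟨R, hR2, fun rs hrs i b1 ε T hb0 hb hε0 hε hT0 hT => ?_⟩
  obtain ⟨⟨hnum, hwin⟩, h6⟩ := hR rs hrs i
  have hw0 : (0 : ℝ) ≤ Real.exp (-(rr β rs i : ℝ)) := (Real.exp_pos _).le
  have hr0 : (0 : ℝ) ≤ (rr β rs i : ℝ) := Nat.cast_nonneg _
  have hg0 : (0 : ℝ) ≤ κ ^ (rr β rs i - (R0 + 1)) := by positivity
  obtain ⟨a1, a2, a3, a4, a5⟩ := hnum (Real.exp (-(rr β rs i : ℝ))) b1 ε T
    (8 * (rr β rs i : ℝ) + 8) (κ ^ (rr β rs i - (R0 + 1))) hw0 le_rfl hb0 hb hε0 hε hT0 hT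
    (by positivity) le_rfl hg0 le_rfl
  have e9 : 8 * (rr β rs i : ℝ) + 8 + 1 = 8 * (rr β rs i : ℝ) + 9 := by ring
  rw [e9] at a2 a3 a5
  have hκ : κ ^ (rr β rs i - R0) ≤ κ ^ (rr β rs i - (R0 + 1)) :=
    pow_le_pow_of_le_one hκ0.le hκ1.le (by omega)
  refine ⟨⟨⟨32 * (2 * (rr β rs i : ℝ) + 1) ^ (2 * ms + 2) *
      (Real.exp (-(rr β rs i : ℝ)) + b1) +
      32 * (2 * (rr β rs i : ℝ) + 1) ^ ms * κ ^ (rr β rs i - (R0 + 1)),
    (rr β rs i : ℝ) ^ (2 * (5 * β + n + 2)),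
    hwin _ _ le_rfl hb, ?_, ?_, a1, ?_, ?_, a4, ?_⟩, hT0, hw0, hb0⟩, ?_⟩
  · have h1 : 0 ≤ 32 * (2 * (rr β rs i : ℝ) + 1) ^ (2 * ms + 2) *
      (Real.exp (-(rr β rs i : ℝ)) + b1) := by positivity
    have h2 : 32 * (2 * (rr β rs i : ℝ) + 1) ^ ms * κ ^ (rr β rs i - R0) ≤
        32 * (2 * (rr β rs i : ℝ) + 1) ^ ms * κ ^ (rr β rs i - (R0 + 1)) := by gcongr
    linarith
  · have h1 : 0 ≤ 32 * (2 * (rr β rs i : ℝ) + 1) ^ ms * κ ^ (rr β rs i - (R0 + 1)) := by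
      positivity
    linarith
  · rw [mul_assoc]
    exact a2
  · rw [mul_assoc C]
    exact a3
  · rw [mul_assoc]
    exact a5
  · rw [pow_zero, one_mul] at h6
    linarith

/-- the total strength of the later families and a floor below `e0_I` -/
theorem tail_floor (β : ℕ) [hβ : Fact (2 ≤ β)] {rs : ℕ} (h : 2 ≤ rs) {I i : ℕ} (hi : i ≤ I)
    {b' : ℝ} (hb : b' ≤ e0S β rs I) :
    b' + ∑ j ∈ Finset.Ico (i + 1) (I + 1), e0S β rs j ≤ e0S β rs i := by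
  have key : ∀ d : ℕ, ∀ i : ℕ, I = i + d →
      b' + ∑ j ∈ Finset.Ico i (I + 1), e0S β rs j ≤ 2 * e0S β rs i := by
    intro d
    induction d with
    | zero =>
      intro i hd
      rw [show i = I by omega, Nat.Ico_succ_singleton, Finset.sum_singleton]
      linarith
    | succ d ih =>
      intro i hd
      rw [Finset.sum_eq_sum_Ico_succ_bot (show i < I + 1 by omega)]
      have h1 := ih (i + 1) (by omega)
      have h2 := e0S_succ (β := β) h i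
      linarith
  rcases Nat.eq_or_lt_of_le hi with rfl | hlt
  · rw [Finset.Ico_self, Finset.sum_empty, add_zero]
    exact hb
  · exact (key (I - (i + 1)) (i + 1) (by omega)).trans (e0S_succ h i)

/-- **(HC4) for the concrete datum**, rate `1 / r_i ^ n` -/
theorem hc_D4 (β : ℕ) [hβ : Fact (2 ≤ β)] {lam E l : ℝ} (hlam : 0 < lam) (hE : |E| < 4 + lam)
    (hl : 0 < l) (hl2 : 2 * l ≤ lam) :
    ∃ (lam' : ℝ) (yf : ℕ → ℤ × ℤ) (Vsf : ℕ → ℤ × ℤ → ℝ) (R₀ : ℕ), 0 < lam' ∧ lam' < lam ∧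
      2 ≤ R₀ ∧ (∀ r, R₀ ≤ r → yf r ∈ Xr r) ∧ (∀ r z, |Vsf r z| ≤ lam') ∧
      ∀ n : ℕ, ∃ R : ℕ, R₀ ≤ R ∧
      ∀ rs, R ≤ rs → ∀ (I : ℕ) (ρ : Measure ℝ) (p : (P4 β yf rs I).Lb → ℝ)
        (ν : (P4 β yf rs I).Lb → Measure ℝ), Lw4 ρ p ν →
        (∀ k, (D4 p ν).mov k → ν k = nuS lam l) →
        (∀ (i : ℕ) (hi : i ≤ I)
          (z : ((Xr (rr β rs i)).erase (yf (rr β rs i)) : Finset (ℤ × ℤ))),
          ν ((P4 β yf rs I).win ⟨⟨i, Nat.lt_succ_of_le hi⟩, z⟩) =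
            nuB (Vsf (rr β rs i) z) (Real.exp (-(rr β rs i : ℝ)))) →
        ∀ (N : ℕ) [NeZero N], (∀ i ≤ I, mS β rs i ∣ N) → ∀ X : Finset (Tor N),
          ∀ i ≤ I, BlkU (mS β rs i) X →
          ∀ (sb sc ε b1 : ℝ) (e : (Tor N → (D4 p ν).Λ) → Tor N → ℝ),
            Prf (D4 p ν) N i sb sc ε b1 e → tS β rs I (i + 1) ≤ sb →
            ε ≤ 4 * Real.exp (-(rr β rs i : ℝ)) → 0 ≤ b1 → b1 ≤ Real.exp (-(rr β rs i : ℝ)) →
            Vale.Agent.P365.J376.HC4 (D4 p ν) N X E e i (1 / (rr β rs i : ℝ) ^ n) := by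
  obtain ⟨κ, lam', ms, R0, r0, hκ0, hκ1, hl0, hl1, hcell, hq⟩ := hc4_cell hlam hE hl hl2
  obtain ⟨κy, hκy, hdens⟩ := densGe_nuS hl hl2 (a := (lam' + lam) / 2) (by linarith)
  obtain ⟨C, hC, hmain⟩ := hq κy hκy
  have hch : ∀ r : ℕ, ∃ (Vs : ℤ × ℤ → ℝ) (y : ℤ × ℤ), (∀ z, |Vs z| ≤ lam') ∧
      (r0 ≤ r → ∃ hy : y ∈ Xr r, CellGood E lam' κ ms R0 r Vs ⟨y, hy⟩) := by
    intro r
    by_cases hr : r0 ≤ r
    · obtain ⟨Vs, y, h⟩ := hcell r hr
      exact ⟨Vs, (y : ℤ × ℤ), h.Vs_le, fun _ => ⟨y.2, h⟩⟩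
    · exact ⟨fun _ => 0, 0, fun z => by rw [abs_zero]; exact hl0.le, fun h => absurd h hr⟩
  choose Vsf yf hVs hgood using hch
  refine ⟨lam', yf, Vsf, max (max r0 R0) 2, hl0, hl1, by omega, ?_, hVs, fun n => ?_⟩
  · intro r hr
    obtain ⟨hy, -⟩ := hgood r (by omega)
    exact hy
  obtain ⟨R1, -, hR1⟩ := hcNum_D4 β hC hκ0 hκ1 ms R0 n
  refine ⟨max (max (max r0 R0) 2) R1, le_max_left _ _, ?_⟩
  intro rs hrs I ρ p ν hL hmov hwin N _ hN X i hi hX sb sc ε b1 e he hsb hε hb0 hb1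
  have hrs2 : 2 ≤ rs := by omega
  have hrr : rs ≤ rr β rs i := le_rr (by omega) i
  obtain ⟨hy, hG⟩ := hgood (rr β rs i) (by omega)
  have hyb : ∀ r, rs ≤ r → |(yf r).1| < r ∧ |(yf r).2| < r := by
    intro r hr
    obtain ⟨hy', hG'⟩ := hgood r (by omega)
    have h1 := hG'.y1
    have h2 := hG'.y2
    simp only at h1 h2
    constructor
    · refine lt_of_lt_of_le h1 ?_
      exact_mod_cast (show R0 ≤ r by omega)
    · refine lt_of_lt_of_le h2 ?_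
      exact_mod_cast (show R0 ≤ r by omega)
  have hok : (D4 p ν).Ok ρ := D4_ok hrs2 (fun r hr => mem_Xr_of_abs (hyb r hr).1 (hyb r hr).2) hL
  have hcin : CellIn (D4 p ν) i (rr β rs i) (4 * rr β rs i, 4 * rr β rs i) (yf (rr β rs i))
      (Vsf (rr β rs i)) (Real.exp (-(rr β rs i : ℝ))) :=
    cellIn_D4 (Vsf := Vsf) (w := fun i => Real.exp (-(rr β rs i : ℝ))) hrs2 hyb hi
      (Real.exp_pos _) (fun z => hwin i hi z)
  have hε0 : 0 ≤ ε := (he.pos (fun _ => (D4 p ν).good) 0).le.trans (he.le _ _)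
  obtain ⟨hnum, hε2⟩ := hR1 rs (by omega) i b1 ε (8 * (rr β rs i : ℝ) ^ (5 * β)) hb0 hb1 hε0 hε
    (by positivity) le_rfl
  refine HC4_of_quenched hok (hmain (D := D4 p ν) (X := X) (y := ⟨yf (rr β rs i), hy⟩) hcin
    (hN i hi) hG hmov hnum) hX (fun l x hc => ?_) he hε2 ?_
  · show DensGe κy ((lam' + lam) / 2) (ν (l x))
    rw [hmov _ (hok.cen_mov hi hc)]
    exact hdens
  · refine (own_ge (β := β) hrs2 hi).trans ?_
    exact mul_le_mul_of_nonneg_right hsb (by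
      have := e0S_pos (β := β) rs i
      positivity)

end P365V4.Datum
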