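import Vale.Agent.P365.ISL.Dens77

/-!
# P365-T2: the centre hub in a general finite system, arbitrary laws and absorptions outside the
cell and its ports
-/

set_option linter.all false

namespace P365T1.HCgen

open P365L P365O P365T1 Vale.Agent.P365.C937 P365SH P365T1.H417 P365T1.ISL P365T1.Link
open P365T1.Bump P365T1.OneVar P365T1.Isl Matrix Complex MeasureTheory
open scoped ENNReal

variable {ι : Type} [Fintype ι] [DecidableEq ι] {A : Matrix ι ι ℝ} {r : ℕ} {φ : ℤ × ℤ → ι}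
  {y : Xr r} {S : Finset ι} {Vs : ℤ × ℤ → ℝ} {E lam' κ : ℝ} {ms R0 : ℕ}

/-- **ROW** in a general finite system, pointwise in the potential -/
theorem row_gen (hG : CellGood E lam' κ ms R0 r Vs y) (hemb : BoxEmb A r φ)
    (hcb : CBox A (φ y) (LcX φ y) S) (hSX : ∀ z ∈ S, z ∉ φ '' (Xr r))
    {e : ι → ℝ} (he : ∀ z, 0 < e z) {b1 w : ℝ} (hw : 0 ≤ w) (hb0 : 0 ≤ b1)
    (hb1 : ∀ z ∈ LcX φ y, e z ≤ b1)
    (hu : 2 * (w + b1) * (2 * (r : ℝ) + 1) ^ (ms + 2) ≤ 1) {δ : ℝ}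
    (hδ1 : 32 * (2 * (r : ℝ) + 1) ^ ms * κ ^ (r - R0) ≤ δ)
    (hδ2 : 32 * (2 * (r : ℝ) + 1) ^ (2 * ms + 2) * (w + b1) ≤ δ)
    {v : ι → ℝ} (hv : ∀ a : Xr r, a ≠ y → |v (φ a) - Vs a| ≤ w) :
    Row A E e (φ y) S ((sE r Vs E y - E : ℝ) : ℂ) δ v := by
  have hW := Vale.Agent.P365.J376.WV_neg (E := E) he v
  have hcell := hG.cell ι A (WV E e v) φ (w + b1) hemb hW (fun a ha => by
      have hz : φ (a : ℤ × ℤ) ∈ LcX φ y := mem_LcX.2 ⟨a, ha, rfl⟩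
      have h1 := hb1 _ hz
      have h2 := hv a ha
      refine norm_sub_le_of_window ?_ (hW _) ?_
      · have h3 : (WV E e v (φ (a : ℤ × ℤ))).re = v (φ (a : ℤ × ℤ)) - E := by simp [WV]
        rw [h3]
        have h4 : v (φ (a : ℤ × ℤ)) - E - (Vs a - E) = v (φ (a : ℤ × ℤ)) - Vs a := by ring
        rw [h4]
        exact h2
      · have h5 : (WV E e v (φ (a : ℤ × ℤ))).im = -(e (φ (a : ℤ × ℤ))) := by simp [WV]
        rw [h5, neg_neg]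
        exact h1)
    hu (by linarith)
  obtain ⟨h1, h2⟩ := hcell
  refine ⟨fun z => tt A (WV E e v) (LcX φ y) (φ y) z,
    tt A (WV E e v) (LcX φ y) (φ y) (φ y), ?_, h2.trans hδ2, ?_⟩
  · intro z hz
    exact (h1 z (hSX z hz)).trans hδ1
  · intro F hyF hF z hz
    have hWF := wF_neg (E := E) he F v
    have hzL : z ∉ LcX φ y := by
      intro hzL
      rcases Finset.mem_insert.1 hz with rfl | hzS
      · exact hcb.yL hzL
      · exact Finset.disjoint_left.1 hcb.LS hzL hzS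
    have h3 := hcb.row' hemb.symm hWF hW (fun k hk => ?_) hzL
    · rw [wF_mem hyF] at h3
      exact h3
    · refine (wF_not_mem ?_).symm
      intro hkF
      rcases Finset.mem_insert.1 (hF hkF) with rfl | hkS
      · exact hcb.yL hk
      · exact Finset.disjoint_left.1 hcb.LS hk hkS

/-- everything about the place of a cell in a finite system: graph, laws, absorptions -/
structure CellAt (A : Matrix ι ι ℝ) (r : ℕ) (φ : ℤ × ℤ → ι) (y : Xr r) (S : Finset ι)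
    (Vs : ℤ × ℤ → ℝ) (w b1 ε T : ℝ) (μp : Measure ℝ) (κy ay : ℝ) (μ : ι → Measure ℝ)
    (e : ι → ℝ) : Prop where
  emb : BoxEmb A r φ
  cb : CBox A (φ y) (LcX φ y) S
  SX : ∀ z ∈ S, z ∉ φ '' (Xr r)
  ne : S.Nonempty
  card : S.card ≤ 8 * r + 8
  win : ∀ a : Xr r, a ≠ y → ∀ᵐ t ∂(μ (φ a)), |t - Vs a| ≤ w
  port : ∀ z ∈ S, μ z = μp
  dens : DensGe κy ay (μ (φ y))
  pos : ∀ z, 0 < e z
  ib : ∀ z ∈ LcX φ y, e z ≤ b1
  ge : ∀ z ∈ S, Real.exp (-T) ≤ e z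
  half : ∀ z ∈ S, e z ≤ 1 / 2
  cen : e (φ y) ≤ ε

/-- **the centre hub in a general finite system** (every site off the cell, its ports and its
centre: arbitrary law and arbitrary absorption) -/
theorem hc_gen {μp : Measure ℝ} {X g κy ay C : ℝ} (hisl : IslFin μp E X g κy ay C)
    (hC1 : 1 ≤ C) (hG : CellGood E lam' κ ms R0 r Vs y) {w b1 ε T : ℝ} (hw : 0 ≤ w)
    (hb0 : 0 ≤ b1) (hX : lam' + |E| ≤ X) (hg : lam' + g ≤ ay)
    (hu : 2 * (w + b1) * (2 * (r : ℝ) + 1) ^ (ms + 2) ≤ 1) {δ : ℝ}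
    (hδ1 : 32 * (2 * (r : ℝ) + 1) ^ ms * κ ^ (r - R0) ≤ δ)
    (hδ2 : 32 * (2 * (r : ℝ) + 1) ^ (2 * ms + 2) * (w + b1) ≤ δ)
    (hT : 0 ≤ T) {q : ℝ} (hq1 : 1 ≤ q) (hq2 : C * (8 * (r : ℝ) + 9) * (1 + T) ≤ q ^ 2)
    (hq3 : δ * (C * (8 * (r : ℝ) + 9) ^ 4 * q ^ 5) ≤ 1) (hq4 : ε + 1 / q ≤ 1 / C)
    {ηc : ℝ} (hη : C * (8 * (r : ℝ) + 9) * Real.sqrt (ε + 1 / q) ≤ ηc)
    {μ : ι → Measure ℝ} [∀ i, IsProbabilityMeasure (μ i)] {e : ι → ℝ}
    (hP : CellAt A r φ y S Vs w b1 ε T μp κy ay μ e) (f : ι → ℝ) :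
    ∫⁻ v, ENNReal.ofReal (Yf A (WV E e v) f (φ y)) ∂(Measure.pi μ) ≤
      ENNReal.ofReal ηc * ∫⁻ v, ENNReal.ofReal (Mf A (WV E e v) f (φ y)) ∂(Measure.pi μ) := by
  have hδ0 : 0 ≤ δ := le_trans (by have := hG.hκ; positivity) hδ1
  have hcard : (S.card : ℝ) + 1 ≤ 8 * (r : ℝ) + 9 := by
    have h2 : (S.card : ℝ) ≤ 8 * r + 8 := by exact_mod_cast hP.card
    linarith
  have hC0 : 0 ≤ C := by linarith
  have hsE := hG.sE_le
  have hsq : e (φ y) + 1 / q ≤ ε + 1 / q := by linarith [hP.cen]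
  have hrow : ∀ᵐ v ∂(Measure.pi μ), Row A E e (φ y) S ((sE r Vs E y - E : ℝ) : ℂ) δ v := by
    have h1 : ∀ᵐ v ∂(Measure.pi μ), ∀ a : Xr r, a ≠ y → |v (φ a) - Vs a| ≤ w := by
      rw [ae_all_iff]
      intro a
      by_cases ha : a ≠ y
      · have h3 : MeasurePreserving (Function.eval (φ (a : ℤ × ℤ))) (Measure.pi μ)
            (μ (φ a)) := measurePreserving_eval _ _
        have h4 := h3.quasiMeasurePreserving.ae (hP.win a ha)
        filter_upwards [h4] with v hv _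
        exact hv
      · exact Filter.Eventually.of_forall fun v h => absurd h ha
    filter_upwards [h1] with v hv
    exact row_gen hG hP.emb hP.cb hP.SX hP.pos hw hb0 hP.ib hu hδ1 hδ2 hv
  have main := hisl ι A μ e (φ y) S (sE r Vs E y - E) T δ q hP.emb.symm hP.pos hP.cb.yS
    hP.ne hP.port hP.dens hT hP.ge hP.half
    ((abs_sub _ _).trans (by linarith)) (by
      have : E + (sE r Vs E y - E) = sE r Vs E y := by ring
      rw [this]; linarith) hδ0 hrow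
    (le_trans (by gcongr) hq2) (le_trans (by gcongr) hq3) (hsq.trans hq4) hq1 f
  refine main.trans (mul_le_mul' (ENNReal.ofReal_le_ofReal (le_trans ?_ hη)) le_rfl)
  have h1 : Real.sqrt (e (φ y) + 1 / q) ≤ Real.sqrt (ε + 1 / q) := Real.sqrt_le_sqrt hsq
  have h2 := Real.sqrt_nonneg (e (φ y) + 1 / q)
  gcongr

/-- **the centre hub with ports of law `nuS lam l`**: all constants.  The centre only needs a
density bounded below on `[-(lam'+lam)/2, (lam'+lam)/2]`. -/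
theorem hc_gen_nuS {lam E l : ℝ} (hlam : 0 < lam) (hE : |E| < 4 + lam) (hl : 0 < l)
    (hl2 : 2 * l ≤ lam) :
    ∃ (κ lam' : ℝ) (ms R0 r0 : ℕ), 0 < κ ∧ κ < 1 ∧ 0 < lam' ∧ lam' < lam ∧
      (∀ r : ℕ, r0 ≤ r → ∃ (Vs : ℤ × ℤ → ℝ) (y : Xr r), CellGood E lam' κ ms R0 r Vs y) ∧
      ∀ κy : ℝ, 0 < κy → ∃ C : ℝ, 1 ≤ C ∧
        ∀ {ι : Type} [Fintype ι] [DecidableEq ι] {A : Matrix ι ι ℝ} {r : ℕ} {φ : ℤ × ℤ → ι}
          {y : Xr r} {S : Finset ι} {Vs : ℤ × ℤ → ℝ} {w b1 ε T : ℝ},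
        CellGood E lam' κ ms R0 r Vs y → 0 ≤ w → 0 ≤ b1 →
        2 * (w + b1) * (2 * (r : ℝ) + 1) ^ (ms + 2) ≤ 1 → ∀ {δ : ℝ},
        32 * (2 * (r : ℝ) + 1) ^ ms * κ ^ (r - R0) ≤ δ →
        32 * (2 * (r : ℝ) + 1) ^ (2 * ms + 2) * (w + b1) ≤ δ →
        0 ≤ T → ∀ {q : ℝ}, 1 ≤ q → C * (8 * (r : ℝ) + 9) * (1 + T) ≤ q ^ 2 →
        δ * (C * (8 * (r : ℝ) + 9) ^ 4 * q ^ 5) ≤ 1 → ε + 1 / q ≤ 1 / C → ∀ {ηc : ℝ},
        C * (8 * (r : ℝ) + 9) * Real.sqrt (ε + 1 / q) ≤ ηc →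
        ∀ {μ : ι → Measure ℝ} [∀ i, IsProbabilityMeasure (μ i)] {e : ι → ℝ},
        CellAt A r φ y S Vs w b1 ε T (nuS lam l) κy ((lam' + lam) / 2) μ e → ∀ f : ι → ℝ,
        ∫⁻ v, ENNReal.ofReal (Yf A (WV E e v) f (φ y)) ∂(Measure.pi μ) ≤
          ENNReal.ofReal ηc * ∫⁻ v, ENNReal.ofReal (Mf A (WV E e v) f (φ y)) ∂(Measure.pi μ) := by
  obtain ⟨κ, lam', ms, R0, r0, h1, h2, h3, h4, h⟩ := exists_cellGood hlam hE
  refine ⟨κ, lam', ms, R0, r0, h1, h2, h3, h4, h, fun κy hκy => ?_⟩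
  haveI : IsProbabilityMeasure (nuS lam l) := isProbabilityMeasure_nuS hl (by linarith)
  obtain ⟨C, hC, hisl⟩ := islFin (ay := (lam' + lam) / 2) (X := lam' + |E|)
    (g := (lam - lam') / 2) (E := E) (glaw_nuS hl (show l < lam by linarith))
    (plaw_nuS hl hl2) hκy (by linarith) (by linarith)
  refine ⟨C, hC, ?_⟩
  intro ι _ _ A r φ y S Vs w b1 ε T hG hw hb0 hu δ hδ1 hδ2 hT q hq1 hq2 hq3 hq4 ηc hη μ _ e hP f
  exact hc_gen hisl hC hG hw hb0 le_rfl (by linarith) hu hδ1 hδ2 hT hq1 hq2 hq3 hq4 hη hP f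

end P365T1.HCgen
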