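import Vale.Agent.P365.V4.Def
import Vale.Agent.P365.H509.Hole

/-!
# P365-T2 (LONG): abstract profile, domain, vector families, laws as a parameter

`FYm / FMm / FRm` = `FY4 / FM4 / FR4` with laws `μ : (Tor N → Λ) → Tor N → Measure ℝ`.

`long_sum_m` : the LONG half of the bulk hub, from the one-shot switch `OneShot`.
-/

set_option linter.all false

namespace Vale.Agent.P365.J376

open P365L P365O P365T1 P365T1.Switch P365T1.OneVar P365L.TL Matrix Complex MeasureTheory Finset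
open P365T1.HBasm P365T1.H770
open scoped ComplexConjugate ENNReal

/-! ### laws as a parameter -/

section defs

variable (D : V3) (N : ℕ) [NeZero N] (X : Finset (Tor N)) {κ : Type} [Fintype κ]
  (F : κ → Tor N → ℝ) (E : ℝ) (μ : (Tor N → D.Λ) → Tor N → Measure ℝ)
  (e : (Tor N → D.Λ) → Tor N → ℝ)

/-- off-resonant energy at `x`, one test function -/
noncomputable def YYm (k : κ) (l : Tor N → D.Λ) (x : Tor N) : ℝ≥0∞ :=
  ∫⁻ v, ENNReal.ofReal (Yf (ATX N X) (WV E (e l) v) (F k) x) ∂(Measure.pi (μ l))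

/-- energy content at `x`, one test function -/
noncomputable def MMm (k : κ) (l : Tor N → D.Λ) (x : Tor N) : ℝ≥0∞ :=
  ∫⁻ v, ENNReal.ofReal (Mf (ATX N X) (WV E (e l) v) (F k) x) ∂(Measure.pi (μ l))

/-- off-resonant energy at `x`, all test functions -/
noncomputable def FYm (l : Tor N → D.Λ) (x : Tor N) : ℝ≥0∞ := ∑ k, YYm D N X F E μ e k l x

/-- energy content at `x`, all test functions -/
noncomputable def FMm (l : Tor N → D.Λ) (x : Tor N) : ℝ≥0∞ := ∑ k, MMm D N X F E μ e k l x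

/-- the average energy -/
noncomputable def FRm : ℝ≥0∞ :=
  ∑ l : Tor N → D.Λ, ENNReal.ofReal (∏ x, D.p (l x)) *
    ∑ x, ENNReal.ofReal (e l x) * FMm D N X F E μ e l x

/-- admissible laws: probabilities, local -/
structure Lws : Prop where
  prob : ∀ l x, IsProbabilityMeasure (μ l x)
  loc : ∀ l l' x, l x = l' x → (∀ j ≤ D.I, (D.cen j l x ↔ D.cen j l' x)) → μ l x = μ l' x

/-- weighted energy of the site `z`, averaged over the labels -/
noncomputable def aam (z : Tor N) : ℝ≥0∞ :=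
  ∑ l' : Tor N → D.Λ, D.Pl l' *
    (ENNReal.ofReal (e l' z) * ∑ k, MMm D N X F E μ e k l' z)

/-- far map of the cluster `S`, base point `x` -/
noncomputable def Tfm (k : κ) (S : Finset (Tor N)) (x : Tor N) (l' : Tor N → D.Λ) :
    (Tor N → ℂ) →ₗ[ℂ] EuclideanSpace ℂ (Tor N) :=
  Tk (e l') (insert x S) (F k) (F k x)

/-- **one-shot switch** (input): `S` is switched to good, `x` keeps its label -/
def OneShot (w : ℝ) (K : ℕ → ℝ) : Prop :=
  ∀ (Tm : (Tor N → D.Λ) → (Tor N → ℂ) →ₗ[ℂ] EuclideanSpace ℂ (Tor N))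
    (S : Finset (Tor N)) (x : Tor N), x ∉ S → ∀ Tl : Finset (Tor N → D.Λ),
    (∀ l ∈ Tl, ∀ z ∈ S, l z ≠ D.good) → (∀ l ∈ Tl, D.mov (l x)) →
    (∀ l ∈ Tl, ∀ z ∉ insert x S, e l z = e (swf S D.good l) z ∧
      μ l z = μ (swf S D.good l) z) →
    ∑ l ∈ Tl, D.Pl l * ∫⁻ v, ENNReal.ofReal (Yv (ATX N X) (WV E (e l) v)
        (Tm (swf S D.good l)) x) ∂(Measure.pi (μ l)) ≤
      ENNReal.ofReal (K S.card / w) * ∑ l' ∈ Tl.image (swf S D.good), D.Pl l' *
        ∑ z ∈ insert x S, ENNReal.ofReal (e l' z) *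
          ∫⁻ v, MV (ATX N X) (WV E (e l') v) (Tm l') z ∂(Measure.pi (μ l'))

end defs

section main

variable {D : V3} {N : ℕ} [NeZero N] {ρ : Measure ℝ} {X : Finset (Tor N)} {κ : Type}
  [Fintype κ] {F : κ → Tor N → ℝ} {E : ℝ} {μ : (Tor N → D.Λ) → Tor N → Measure ℝ}
  {e : (Tor N → D.Λ) → Tor N → ℝ}

theorem FYm_nu (l : Tor N → D.Λ) (x : Tor N) :
    FYm D N X F E (fun l x => D.ν (l x)) e l x = FY4 D N X F E e l x := rfl

theorem FMm_nu (l : Tor N → D.Λ) (x : Tor N) :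
    FMm D N X F E (fun l x => D.ν (l x)) e l x = FM4 D N X F E e l x := rfl

theorem FRm_nu : FRm D N X F E (fun l x => D.ν (l x)) e = FR4 D N X F E e := rfl

theorem sum_aam : ∑ z : Tor N, aam D N X F E μ e z = FRm D N X F E μ e := by
  unfold aam FRm
  rw [sum_comm]
  refine sum_congr rfl fun l' _ => ?_
  rw [mul_sum]
  rfl

theorem FYm_off (he : ∀ l x, 0 < e l x) (l : Tor N → D.Λ) {x : Tor N} (hx : x ∉ X) :
    FYm D N X F E μ e l x = 0 := by
  unfold FYm YYm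
  refine Finset.sum_eq_zero fun k _ => ?_
  rw [lintegral_congr fun v => by rw [Yf_off (he l) (F k) hx, ENNReal.ofReal_zero],
    lintegral_zero]

/-- weighted energy density of one site, far map -/
theorem MV_Tfm_le (he0 : ∀ l x, 0 < e l x) (hμ : ∀ l x, IsProbabilityMeasure (μ l x))
    (k : κ) {S : Finset (Tor N)} {x z : Tor N} (l' : Tor N → D.Λ) {m : ℝ}
    (hm : |F k x - F k z| ≤ m) :
    ENNReal.ofReal (e l' z) *
      ∫⁻ v, MV (ATX N X) (WV E (e l') v) (Tfm D N F e k S x l') z ∂(Measure.pi (μ l')) ≤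
      2 * (ENNReal.ofReal (e l' z) * MMm D N X F E μ e k l' z) +
        ENNReal.ofReal (2 * m ^ 2) := by
  haveI := hμ l'
  have he : ∀ y, 0 < e l' y := he0 l'
  have h0 := (he z).le
  have h1 : ∀ v : Tor N → ℝ, ENNReal.ofReal (e l' z) *
      MV (ATX N X) (WV E (e l') v) (Tfm D N F e k S x l') z ≤
      2 * (ENNReal.ofReal (e l' z) *
        ENNReal.ofReal (Mf (ATX N X) (WV E (e l') v) (F k) z)) +
        ENNReal.ofReal (2 * m ^ 2) := by
    intro v
    have hW : ∀ y, (WV E (e l') v y).im < 0 := WV_im_neg he v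
    have h2 := GV_Tk_le (E := E) (B := insert x S) (e0 := e l') (ATX_symm N X) he
      (fun _ _ => rfl) (f := F k) hm v
    have h3 := e_mul_mm_le (ATX_symm N X) hW z
    rw [P365T1.WV_im, neg_neg] at h3
    have h4 : 0 ≤ Mf (ATX N X) (WV E (e l') v) (F k) z := Mf_nonneg hW _ z
    have e2 : ∀ t : ℝ, 2 * ENNReal.ofReal t = ENNReal.ofReal (2 * t) := fun t => by
      rw [ENNReal.ofReal_mul (by norm_num), ENNReal.ofReal_ofNat]
    rw [MV, Tfm, ← ENNReal.ofReal_mul h0, ← ENNReal.ofReal_mul h0, e2,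
      ← ENNReal.ofReal_add (by positivity) (by positivity)]
    refine ENNReal.ofReal_le_ofReal ?_
    have h5 := mul_le_mul_of_nonneg_left h2 h0
    have h6 : 2 * m ^ 2 * (e l' z *
        mm (ATX N X) (WV E (e l') v) z) ≤ 2 * m ^ 2 * 1 :=
      mul_le_mul_of_nonneg_left h3 (by positivity)
    nlinarith
  rw [← lintegral_const_mul' _ _ ENNReal.ofReal_ne_top]
  refine (lintegral_mono h1).trans (le_of_eq ?_)
  rw [lintegral_add_right _ measurable_const, lintegral_const, measure_univ, mul_one,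
    lintegral_const_mul' _ _ (by simp), lintegral_const_mul' _ _ ENNReal.ofReal_ne_top]
  rfl

/-- **one cluster, one site, one test function**: from the far map to the energies -/
theorem long_one_m (he0 : ∀ l x, 0 < e l x) (hμ : ∀ l x, IsProbabilityMeasure (μ l x))
    (k : κ) {S : Finset (Tor N)} {x : Tor N} {m Pm K : ℝ} (hK : 0 ≤ K)
    (hm : ∀ z ∈ insert x S, |F k z - F k x| ≤ m)
    (hPm : ∀ (l : Tor N → D.Λ) (z : Tor N), e l z ≤ Pm)
    {Tl : Finset (Tor N → D.Λ)}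
    (hprof : ∀ l ∈ Tl, ∀ z ∉ insert x S, e l z = e (swf S D.good l) z)
    (hQ : ∑ l ∈ Tl, D.Pl l * ∫⁻ v, ENNReal.ofReal (Yv (ATX N X) (WV E (e l) v)
          (Tfm D N F e k S x (swf S D.good l)) x) ∂(Measure.pi (μ l)) ≤
      ENNReal.ofReal K * ∑ l' ∈ Tl.image (swf S D.good), D.Pl l' *
        ∑ z ∈ insert x S, ENNReal.ofReal (e l' z) *
          ∫⁻ v, MV (ATX N X) (WV E (e l') v) (Tfm D N F e k S x l') z
            ∂(Measure.pi (μ l'))) :
    ∑ l ∈ Tl, D.Pl l * YYm D N X F E μ e k l x ≤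
      ENNReal.ofReal (4 * K) * ∑ z ∈ insert x S, ∑ l' : Tor N → D.Λ,
        D.Pl l' * (ENNReal.ofReal (e l' z) * MMm D N X F E μ e k l' z) +
      (ENNReal.ofReal (4 * K * (S.card + 1) * m ^ 2) * ∑ l' : Tor N → D.Λ, D.Pl l' +
      ENNReal.ofReal (4 * (1 + Pm) * m ^ 2) * ∑ l ∈ Tl, D.Pl l) := by
  have hm0 : 0 ≤ m := (abs_nonneg _).trans (hm x (mem_insert_self _ _))
  have hPm0 : 0 ≤ Pm := (he0 (fun _ => D.good) x).le.trans (hPm (fun _ => D.good) x)
  -- front
  have hfront : ∀ l ∈ Tl, YYm D N X F E μ e k l x ≤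
      2 * ∫⁻ v, ENNReal.ofReal (Yv (ATX N X) (WV E (e l) v)
          (Tfm D N F e k S x (swf S D.good l)) x) ∂(Measure.pi (μ l)) +
        ENNReal.ofReal (2 * (1 + Pm) * m ^ 2) := by
    intro l hl
    haveI := hμ l
    have he : ∀ y, 0 < e l y := he0 l
    have h1 := lint_Yf_le (E := E) (B := insert x S) (e0 := e (swf S D.good l))
      (ATX_symm N X) he (fun z hz => (hprof l hl z hz).symm) (μ l) (f := F k)
      (fo := F k x) (m := m) (x := x) (by simpa using hm0) hm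
    refine h1.trans (add_le_add le_rfl (ENNReal.ofReal_le_ofReal ?_))
    have h2 := hPm l x
    have h3 : 0 ≤ m ^ 2 := sq_nonneg m
    nlinarith
  have h1 : ∑ l ∈ Tl, D.Pl l * YYm D N X F E μ e k l x ≤
      2 * ∑ l ∈ Tl, D.Pl l * ∫⁻ v, ENNReal.ofReal (Yv (ATX N X) (WV E (e l) v)
          (Tfm D N F e k S x (swf S D.good l)) x) ∂(Measure.pi (μ l)) +
      ENNReal.ofReal (4 * (1 + Pm) * m ^ 2) * ∑ l ∈ Tl, D.Pl l := by
    rw [mul_sum, mul_sum, ← sum_add_distrib]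
    refine sum_le_sum fun l hl => ?_
    have h3 : ENNReal.ofReal (2 * (1 + Pm) * m ^ 2) ≤
        ENNReal.ofReal (4 * (1 + Pm) * m ^ 2) := by
      refine ENNReal.ofReal_le_ofReal ?_
      have h4 : 0 ≤ (1 + Pm) * m ^ 2 := by positivity
      nlinarith
    calc D.Pl l * YYm D N X F E μ e k l x
        ≤ D.Pl l * (2 * ∫⁻ v, ENNReal.ofReal
          (Yv (ATX N X) (WV E (e l) v) (Tfm D N F e k S x (swf S D.good l)) x)
          ∂(Measure.pi (μ l)) + ENNReal.ofReal (4 * (1 + Pm) * m ^ 2)) :=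
          mul_le_mul' le_rfl ((hfront l hl).trans (add_le_add le_rfl h3))
      _ = 2 * (D.Pl l * ∫⁻ v, ENNReal.ofReal
          (Yv (ATX N X) (WV E (e l) v) (Tfm D N F e k S x (swf S D.good l)) x)
          ∂(Measure.pi (μ l))) + ENNReal.ofReal (4 * (1 + Pm) * m ^ 2) * D.Pl l := by ring
  -- back
  have h2 : ∑ l' ∈ Tl.image (swf S D.good), D.Pl l' *
        ∑ z ∈ insert x S, ENNReal.ofReal (e l' z) *
          ∫⁻ v, MV (ATX N X) (WV E (e l') v) (Tfm D N F e k S x l') z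
            ∂(Measure.pi (μ l')) ≤
      2 * ∑ z ∈ insert x S, ∑ l' : Tor N → D.Λ,
        D.Pl l' * (ENNReal.ofReal (e l' z) * MMm D N X F E μ e k l' z) +
      ENNReal.ofReal (2 * (S.card + 1) * m ^ 2) * ∑ l' : Tor N → D.Λ, D.Pl l' := by
    calc _ ≤ ∑ l' : Tor N → D.Λ, D.Pl l' *
        ∑ z ∈ insert x S, ENNReal.ofReal (e l' z) *
          ∫⁻ v, MV (ATX N X) (WV E (e l') v) (Tfm D N F e k S x l') z
            ∂(Measure.pi (μ l')) :=
          sum_le_sum_of_subset (subset_univ _)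
      _ ≤ ∑ l' : Tor N → D.Λ, D.Pl l' * ∑ z ∈ insert x S,
          (2 * (ENNReal.ofReal (e l' z) * MMm D N X F E μ e k l' z) +
            ENNReal.ofReal (2 * m ^ 2)) := by
          refine sum_le_sum fun l' _ => mul_le_mul' le_rfl (sum_le_sum fun z hz => ?_)
          refine MV_Tfm_le he0 hμ k l' ?_
          rw [abs_sub_comm]
          exact hm z hz
      _ ≤ ∑ l' : Tor N → D.Λ, (2 * ∑ z ∈ insert x S,
          D.Pl l' * (ENNReal.ofReal (e l' z) * MMm D N X F E μ e k l' z) +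
            ENNReal.ofReal (2 * (S.card + 1) * m ^ 2) * D.Pl l') := by
          refine sum_le_sum fun l' _ => ?_
          rw [sum_add_distrib, mul_add, ← mul_sum, ← mul_sum, sum_const, nsmul_eq_mul]
          have h3 : ((insert x S).card : ℝ≥0∞) * ENNReal.ofReal (2 * m ^ 2) ≤
              ENNReal.ofReal (2 * (S.card + 1) * m ^ 2) := by
            have h4 : ((insert x S).card : ℝ≥0∞) ≤ ENNReal.ofReal ((S.card : ℝ) + 1) := by
              have h5 : (insert x S).card ≤ S.card + 1 := card_insert_le _ _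
              have h6 : ENNReal.ofReal ((S.card : ℝ) + 1) = ((S.card + 1 : ℕ) : ℝ≥0∞) := by
                rw [← ENNReal.ofReal_natCast]
                congr 1
                push_cast
                ring
              rw [h6]
              exact_mod_cast h5
            refine (mul_le_mul' h4 le_rfl).trans (le_of_eq ?_)
            rw [← ENNReal.ofReal_mul (by positivity)]
            congr 1
            ring
          calc _ = 2 * (D.Pl l' * ∑ z ∈ insert x S,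
                (ENNReal.ofReal (e l' z) * MMm D N X F E μ e k l' z)) +
                (((insert x S).card : ℝ≥0∞) * ENNReal.ofReal (2 * m ^ 2)) * D.Pl l' := by ring
            _ ≤ _ := by
              rw [mul_sum (s := insert x S) (a := D.Pl l')]
              exact add_le_add le_rfl (mul_le_mul' h3 le_rfl)
      _ = _ := by
          rw [sum_add_distrib, ← mul_sum, ← mul_sum, sum_comm]
  have h4 : (4 : ℝ≥0∞) = 2 * 2 := by norm_num
  have e1 : ENNReal.ofReal (4 * K) = 2 * ENNReal.ofReal K * 2 := by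
    rw [ENNReal.ofReal_mul (by norm_num)]
    simp only [ENNReal.ofReal_ofNat]
    rw [h4]
    ring
  have e2 : ENNReal.ofReal (4 * K * (S.card + 1) * m ^ 2) =
      2 * ENNReal.ofReal K * ENNReal.ofReal (2 * (S.card + 1) * m ^ 2) := by
    rw [show (2 : ℝ≥0∞) = ENNReal.ofReal 2 by simp, ← ENNReal.ofReal_mul (by norm_num),
      ← ENNReal.ofReal_mul (by positivity)]
    congr 1
    ring
  calc _ ≤ _ := h1
    _ ≤ 2 * (ENNReal.ofReal K * (2 * ∑ z ∈ insert x S, ∑ l' : Tor N → D.Λ,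
        D.Pl l' * (ENNReal.ofReal (e l' z) * MMm D N X F E μ e k l' z) +
      ENNReal.ofReal (2 * (S.card + 1) * m ^ 2) * ∑ l' : Tor N → D.Λ, D.Pl l')) +
      ENNReal.ofReal (4 * (1 + Pm) * m ^ 2) * ∑ l ∈ Tl, D.Pl l :=
        add_le_add (mul_le_mul' le_rfl (hQ.trans (mul_le_mul' le_rfl h2))) le_rfl
    _ = _ := by
        rw [e1, e2]
        ring

/-! ### constants -/

/-- constant of the one-shot switch, `U0 ≥ ∑ p_k U_k` -/
noncomputable def CKU (L U0 : ℝ) : ℝ := 16 * (1 + U0) * (1 + (L + 1) ^ 2)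

/-- weight of one switched region with `n` sites -/
noncomputable def KqU (L U0 τ : ℝ) (n : ℕ) : ℝ :=
  CKU L U0 * ((n : ℝ) + 1) ^ 3 * 2 ^ n * τ ^ (n - 1)

/-- the constant of LONG -/
noncomputable def C3U (L U0 Pm : ℝ) : ℝ := 400 * (CKU L U0 * 8192 ^ 2 + 1 + Pm)

/-- the rate of LONG -/
noncomputable def etaLU (L U0 Pm : ℝ) (n R : ℕ) : ℝ :=
  C3U L U0 Pm * (R + 1) ^ 2 * 2168 * (2 * R + 1) ^ 2 * (1 / 2) ^ n

theorem CKU_nonneg {L U0 : ℝ} (hU : 0 ≤ U0) : 0 ≤ CKU L U0 := by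
  unfold CKU
  positivity

theorem etaLU_eq (L D0 Pm : ℝ) (n R : ℕ) :
    etaLU L ((L + 1) ^ 2 * (Real.pi * D0)) Pm n R = etaL L D0 Pm n R := rfl

theorem KqU_eq (L D0 τ : ℝ) (n : ℕ) :
    KqU L ((L + 1) ^ 2 * (Real.pi * D0)) τ n = Kq L D0 τ n := rfl

theorem KqU_nonneg {L U0 τ : ℝ} (hU : 0 ≤ U0) (hτ0 : 0 ≤ τ) (n : ℕ) : 0 ≤ KqU L U0 τ n := by
  have := CKU_nonneg (L := L) hU
  unfold KqU
  positivity

theorem KqU_le {L U0 τ : ℝ} (hU : 0 ≤ U0) (hτ0 : 0 ≤ τ) (hτ : τ ≤ 1 / 8192) {n n' : ℕ}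
    (h1 : n ≤ n' + 1) (h2 : n' ≤ n) :
    KqU L U0 τ n' ≤ CKU L U0 * 8192 ^ 2 * (((n : ℝ) + 1) ^ 3 * (1 / 4096) ^ n) := by
  have hC := CKU_nonneg (L := L) hU
  have e1 : KqU L U0 τ n' = CKU L U0 * (((n' : ℝ) + 1) ^ 3 * (2 ^ n' * τ ^ (n' - 1))) := by
    unfold KqU
    ring
  rw [e1, mul_assoc]
  refine mul_le_mul_of_nonneg_left ?_ hC
  have h3 : ((n' : ℝ) + 1) ^ 3 ≤ ((n : ℝ) + 1) ^ 3 := by
    have : (n' : ℝ) ≤ n := by exact_mod_cast h2
    gcongr
  have h4 : (2 : ℝ) ^ n' ≤ 2 ^ n := pow_le_pow_right₀ (by norm_num) h2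
  have h5 : τ ^ (n' - 1) ≤ τ ^ (n - 2) :=
    pow_le_pow_of_le_one hτ0 (by linarith) (by omega)
  have h6 : τ ^ (n - 2) ≤ (1 / 8192 : ℝ) ^ (n - 2) := pow_le_pow_left₀ hτ0 hτ _
  have h7 : (1 / 8192 : ℝ) ^ (n - 2) ≤ 8192 ^ 2 * (1 / 8192) ^ n := by
    rcases Nat.lt_or_ge n 2 with h | h
    · interval_cases n <;> norm_num
    · obtain ⟨j, rfl⟩ := Nat.exists_eq_add_of_le h
      rw [show 2 + j - 2 = j by omega, pow_add]
      norm_num
      ring_nf
      exact le_rfl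
  have h8 : (2 : ℝ) ^ n * (1 / 8192) ^ n = (1 / 4096) ^ n := by
    rw [← mul_pow]
    norm_num
  calc ((n' : ℝ) + 1) ^ 3 * (2 ^ n' * τ ^ (n' - 1))
      ≤ ((n : ℝ) + 1) ^ 3 * (2 ^ n * (8192 ^ 2 * (1 / 8192) ^ n)) := by
        have h9 := h5.trans (h6.trans h7)
        gcongr
    _ = 8192 ^ 2 * (((n : ℝ) + 1) ^ 3 * (2 ^ n * (1 / 8192) ^ n)) := by ring
    _ = _ := by rw [h8]

/-! ### one pair -/

open Classical in
/-- labellings of the pair `(x, S)` -/
noncomputable def TSx (D : V3) {N : ℕ} [NeZero N] (S : Finset (Tor N)) (x : Tor N) :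
    Finset (Tor N → D.Λ) :=
  (D.TS S).filter fun l => D.mov (l x)

theorem mem_TSx {S : Finset (Tor N)} {x : Tor N} {l : Tor N → D.Λ} :
    l ∈ TSx D S x ↔ ((∀ z ∈ S, l z ≠ D.good) ∧ D.Closed l S) ∧ D.mov (l x) := by
  classical
  unfold TSx
  rw [mem_filter, V3.mem_TS]

/-- locality off a closed set -/
theorem cen_swf_sub' (hpat : ∀ j ≤ D.I, ∀ a, D.pat j a ≠ D.good) {l : Tor N → D.Λ}
    {S S' : Finset (Tor N)} (hcl : D.Closed l S) (hS' : S' ⊆ S) {j : ℕ} (hj : j ≤ D.I)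
    {z : Tor N} (hz : z ∉ S) : D.cen j l z ↔ D.cen j (swf S' D.good l) z :=
  (and_congr_left fun _ => V3.Mat_swf_sub hpat hcl hS' hj hz).symm

/-- one pair, one test function -/
theorem long_pair_km (h : D.Ok ρ) (hpat : ∀ j ≤ D.I, ∀ a, D.pat j a ≠ D.good)
    {i : ℕ} {sb sc Pm b1 w L U0 : ℝ} (he : Prf D N i sb sc Pm b1 e) (hμ : Lws D N μ)
    (hw : 0 < w) (hU : 0 ≤ U0)
    (hOS : OneShot D N X E μ e w (KqU L U0 (1 - D.p D.good)))
    {S : Finset (Tor N)} {x : Tor N} {K m : ℝ}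
    (hK : K = KqU L U0 (1 - D.p D.good) (S.erase x).card / w) (k : κ)
    (hm : ∀ z ∈ insert x S, |F k z - F k x| ≤ m) :
    ∑ l ∈ TSx D S x, D.Pl l * YYm D N X F E μ e k l x ≤
      ENNReal.ofReal (4 * K) * ∑ z ∈ insert x S, ∑ l' : Tor N → D.Λ,
        D.Pl l' * (ENNReal.ofReal (e l' z) * MMm D N X F E μ e k l' z) +
      (ENNReal.ofReal (4 * K * ((S.erase x).card + 1) * m ^ 2) +
      ENNReal.ofReal (4 * (1 + Pm) * m ^ 2 * (1 / 8192) ^ S.card)) := by
  have hPm0 : 0 ≤ Pm := (he.pos (fun _ => D.good) x).le.trans (he.le (fun _ => D.good) x)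
  have hxS' : x ∉ S.erase x := notMem_erase _ _
  have hins : insert x (S.erase x) = insert x S := by
    ext y
    simp only [mem_insert, mem_erase]
    tauto
  have hK0 : 0 ≤ K := by
    rw [hK]
    exact div_nonneg (KqU_nonneg hU h.tau_nonneg _) hw.le
  have hcen : ∀ l ∈ TSx D S x, ∀ z ∉ insert x (S.erase x), ∀ j ≤ D.I,
      (D.cen j l z ↔ D.cen j (swf (S.erase x) D.good l) z) := by
    intro l hl z hz j hj
    have hzS : z ∉ S := fun h' => hz (by rw [hins]; exact mem_insert_of_mem h')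
    exact cen_swf_sub' hpat (mem_TSx.1 hl).1.2 (erase_subset _ _) hj hzS
  have hlab : ∀ l : Tor N → D.Λ, ∀ z ∉ insert x (S.erase x),
      l z = swf (S.erase x) D.good l z := by
    intro l z hz
    rw [swf_out fun h' => hz (mem_insert_of_mem h')]
  have hprof : ∀ l ∈ TSx D S x, ∀ z ∉ insert x (S.erase x),
      e l z = e (swf (S.erase x) D.good l) z := fun l hl z hz =>
    he.loc _ _ _ (hlab l z hz) (hcen l hl z hz)
  have hlaw : ∀ l ∈ TSx D S x, ∀ z ∉ insert x (S.erase x),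
      μ l z = μ (swf (S.erase x) D.good l) z := fun l hl z hz =>
    hμ.loc _ _ _ (hlab l z hz) (hcen l hl z hz)
  have hng : ∀ l ∈ TSx D S x, ∀ z ∈ S.erase x, l z ≠ D.good := fun l hl z hz =>
    (mem_TSx.1 hl).1.1 z (mem_of_mem_erase hz)
  have hosc : ∀ z ∈ insert x (S.erase x), |F k z - F k x| ≤ m := by
    rw [hins]
    exact hm
  have hQ := hOS (Tfm D N F e k (S.erase x) x) (S.erase x) x hxS' (TSx D S x) hng
    (fun l hl => (mem_TSx.1 hl).2) (fun l hl z hz => ⟨hprof l hl z hz, hlaw l hl z hz⟩)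
  rw [← hK] at hQ
  have h1 := long_one_m (X := X) (E := E) (μ := μ) he.pos hμ.prob k (S := S.erase x) (x := x)
    (m := m) (Pm := Pm) (K := K) hK0 hosc he.le (Tl := TSx D S x) hprof hQ
  rw [h.sum_Pl, mul_one] at h1
  rw [hins] at h1
  refine h1.trans (add_le_add le_rfl (add_le_add le_rfl ?_))
  have h2 := h.sum_Pl_le (S := S) (Tl := TSx D S x) (fun l hl => (mem_TSx.1 hl).1.1)
  refine (mul_le_mul' le_rfl h2).trans (le_of_eq ?_)
  rw [← ENNReal.ofReal_mul (by positivity)]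

/-- weight with one more factor -/
noncomputable def wn7 (n : ℕ) : ℝ := ((n : ℝ) + 1) ^ 7 * (1 / 4096) ^ n

theorem wn7_eq (n : ℕ) : wn7 n = ((n : ℝ) + 1) * wn n := by
  unfold wn7 wn
  ring

theorem wn_le_wn7 (n : ℕ) : wn n ≤ wn7 n := by
  rw [wn7_eq]
  have h1 := wn_nonneg n
  have h2 : (0 : ℝ) ≤ n := Nat.cast_nonneg _
  nlinarith

/-- oscillation of the family on the cluster -/
theorem osc_vec {Λf : ℝ} (hF : VecLip F Λf) {S : Finset (Tor N)} {x v : Tor N} {R : ℕ}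
    (hS : Conn5 S) (hv : v ∈ S) (hvx : nrm (v - x) ≤ R) :
    ∑ z ∈ insert x S, ∑ k, (F k z - F k x) ^ 2 ≤
      ((S.card : ℝ) + 1) * (Λf ^ 2 * (5 * (S.card : ℝ) + R) ^ 2) := by
  have h0 : ∀ z ∈ insert x S, ∑ k, (F k z - F k x) ^ 2 ≤
      Λf ^ 2 * (5 * (S.card : ℝ) + R) ^ 2 := by
    intro z hz
    refine (hF z x).trans (mul_le_mul_of_nonneg_left ?_ (sq_nonneg _))
    refine pow_le_pow_left₀ (Nat.cast_nonneg _) ?_ 2
    rw [mem_insert] at hz
    rcases hz with rfl | hz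
    · rw [sub_self, nrm_zero]
      push_cast
      positivity
    · have h1 : nrm (z - x) ≤ 5 * S.card + R := by
        have h2 : z - x = (z - v) + (v - x) := by abel
        rw [h2]
        refine (nrm_add_le _ _).trans ?_
        have h3 := hS.nrm_le hv hz
        omega
      calc ((nrm (z - x) : ℕ) : ℝ) ≤ ((5 * S.card + R : ℕ) : ℝ) := by exact_mod_cast h1
        _ = _ := by push_cast; ring
  refine (sum_le_sum h0).trans ?_
  rw [sum_const, nsmul_eq_mul]
  refine mul_le_mul_of_nonneg_right ?_ (by positivity)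
  have h5 : (insert x S).card ≤ S.card + 1 := card_insert_le _ _
  exact_mod_cast h5

/-- **one pair `(x, S)`** -/
theorem long_pair_m (h : D.Ok ρ) (hpat : ∀ j ≤ D.I, ∀ a, D.pat j a ≠ D.good)
    {i : ℕ} {sb sc Pm b1 w L U0 Λf : ℝ} (he : Prf D N i sb sc Pm b1 e) (hμ : Lws D N μ)
    (hw : 0 < w) (hw1 : w ≤ 1) (hU : 0 ≤ U0) (hF : VecLip F Λf)
    (hOS : OneShot D N X E μ e w (KqU L U0 (1 - D.p D.good)))
    {S : Finset (Tor N)} {x v : Tor N} {R : ℕ} (hS : Conn5 S) (hv : v ∈ S)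
    (hvx : nrm (v - x) ≤ R) :
    ∑ l ∈ TSx D S x, D.Pl l * FYm D N X F E μ e l x ≤
      ENNReal.ofReal (C3U L U0 Pm * (R + 1) ^ 2 / w) * (ENNReal.ofReal (wn7 S.card) *
        (∑ z ∈ insert x S, aam D N X F E μ e z + ENNReal.ofReal (Λf ^ 2))) := by
  have hPm0 : 0 ≤ Pm := (he.pos (fun _ => D.good) x).le.trans (he.le (fun _ => D.good) x)
  have hCK := CKU_nonneg (L := L) hU
  obtain ⟨K, hK⟩ : ∃ K, K = KqU L U0 (1 - D.p D.good) (S.erase x).card / w := ⟨_, rfl⟩
  obtain ⟨m, hm⟩ : ∃ m : ℝ, m = 5 * S.card + R := ⟨_, rfl⟩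
  have hcard1 : S.card ≤ (S.erase x).card + 1 := by
    have h1 := pred_card_le_card_erase (s := S) (a := x)
    omega
  have hcard2 : (S.erase x).card ≤ S.card := card_le_card (erase_subset _ _)
  have hK0 : 0 ≤ K := by
    rw [hK]
    exact div_nonneg (KqU_nonneg hU h.tau_nonneg _) hw.le
  have hKle : K ≤ CKU L U0 * 8192 ^ 2 * (((S.card : ℝ) + 1) ^ 3 * (1 / 4096) ^ S.card) / w := by
    rw [hK]
    exact div_le_div_of_nonneg_right (KqU_le hU h.tau_nonneg h.p_good hcard1 hcard2) hw.le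
  have hX0 : 0 ≤ CKU L U0 * 8192 ^ 2 := by positivity
  have n1 := num1 (R := R) hw hX0 hPm0 hKle
  have n2 := num2 hw hw1 hX0 hPm0 hK0 hKle hm hcard2
  -- the oscillations
  set q : κ → ℝ := fun k => ∑ z ∈ insert x S, (F k z - F k x) ^ 2 with hq
  have hq0 : ∀ k, 0 ≤ q k := fun k => sum_nonneg fun z _ => sq_nonneg _
  have hqk : ∀ k, ∀ z ∈ insert x S, |F k z - F k x| ≤ Real.sqrt (q k) := by
    intro k z hz
    refine Real.abs_le_sqrt ?_
    exact single_le_sum (f := fun z => (F k z - F k x) ^ 2) (fun z _ => sq_nonneg _) hz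
  have hqs : ∑ k, q k ≤ ((S.card : ℝ) + 1) * (Λf ^ 2 * m ^ 2) := by
    rw [hq, sum_comm, hm]
    exact osc_vec hF hS hv hvx
  have hone := fun k => long_pair_km (X := X) (E := E) h hpat he hμ hw hU hOS (S := S) (x := x)
    hK k (hqk k)
  have hsum : ∑ l ∈ TSx D S x, D.Pl l * FYm D N X F E μ e l x =
      ∑ k, ∑ l ∈ TSx D S x, D.Pl l * YYm D N X F E μ e k l x := by
    rw [sum_comm]
    refine sum_congr rfl fun l _ => ?_
    rw [FYm, mul_sum]
  have haa : ∑ k, ∑ z ∈ insert x S, ∑ l' : Tor N → D.Λ,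
        D.Pl l' * (ENNReal.ofReal (e l' z) * MMm D N X F E μ e k l' z) =
      ∑ z ∈ insert x S, aam D N X F E μ e z := by
    rw [sum_comm]
    refine sum_congr rfl fun z _ => ?_
    unfold aam
    rw [sum_comm]
    refine sum_congr rfl fun l' _ => ?_
    rw [mul_sum, mul_sum]
  have hC0 : 0 ≤ 400 * (CKU L U0 * 8192 ^ 2 + 1 + Pm) * ((R : ℝ) + 1) ^ 2 / w := by positivity
  have hwn := wn_nonneg S.card
  -- the additive terms
  have hadd : ∑ k, (ENNReal.ofReal (4 * K * ((S.erase x).card + 1) * Real.sqrt (q k) ^ 2) +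
      ENNReal.ofReal (4 * (1 + Pm) * Real.sqrt (q k) ^ 2 * (1 / 8192) ^ S.card)) ≤
      ENNReal.ofReal (400 * (CKU L U0 * 8192 ^ 2 + 1 + Pm) * ((R : ℝ) + 1) ^ 2 / w *
        wn7 S.card * Λf ^ 2) := by
    have e1 : ∀ k, ENNReal.ofReal (4 * K * ((S.erase x).card + 1) * Real.sqrt (q k) ^ 2) +
        ENNReal.ofReal (4 * (1 + Pm) * Real.sqrt (q k) ^ 2 * (1 / 8192) ^ S.card) =
        ENNReal.ofReal ((4 * K * ((S.erase x).card + 1) +
          4 * (1 + Pm) * (1 / 8192) ^ S.card) * q k) := by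
      intro k
      rw [Real.sq_sqrt (hq0 k), ← ENNReal.ofReal_add (by have := hq0 k; positivity)
        (by have := hq0 k; positivity)]
      congr 1
      ring
    rw [sum_congr rfl fun k _ => e1 k, ← ENNReal.ofReal_sum_of_nonneg fun k _ => by
      have := hq0 k; positivity]
    refine ENNReal.ofReal_le_ofReal ?_
    rw [← mul_sum]
    calc (4 * K * ((S.erase x).card + 1) + 4 * (1 + Pm) * (1 / 8192) ^ S.card) * ∑ k, q k
        ≤ (4 * K * ((S.erase x).card + 1) + 4 * (1 + Pm) * (1 / 8192) ^ S.card) *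
          (((S.card : ℝ) + 1) * (Λf ^ 2 * m ^ 2)) :=
          mul_le_mul_of_nonneg_left hqs (by positivity)
      _ = (4 * K * ((S.erase x).card + 1) * m ^ 2 +
          4 * (1 + Pm) * m ^ 2 * (1 / 8192) ^ S.card) * (((S.card : ℝ) + 1) * Λf ^ 2) := by
          ring
      _ ≤ (400 * (CKU L U0 * 8192 ^ 2 + 1 + Pm) * ((R : ℝ) + 1) ^ 2 / w * wn S.card) *
          (((S.card : ℝ) + 1) * Λf ^ 2) := by
          refine mul_le_mul_of_nonneg_right ?_ (by positivity)
          have h1 : 0 ≤ 4 * K * (((S.erase x).card : ℝ) + 1) * m ^ 2 := by positivity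
          have h2 : 0 ≤ 4 * (1 + Pm) * m ^ 2 * (1 / 8192 : ℝ) ^ S.card := by positivity
          linarith
      _ = _ := by
          rw [wn7_eq]
          ring
  rw [hsum]
  refine (sum_le_sum fun k _ => hone k).trans ?_
  rw [sum_add_distrib, ← mul_sum, haa]
  have h3 := add_le_add (mul_le_mul' (ENNReal.ofReal_le_ofReal (n1.trans
    (mul_le_mul_of_nonneg_left (wn_le_wn7 S.card) hC0)))
    (le_refl (∑ z ∈ insert x S, aam D N X F E μ e z))) hadd
  refine h3.trans (le_of_eq ?_)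
  have h7 : 0 ≤ wn7 S.card := hwn.trans (wn_le_wn7 _)
  have e1 : ENNReal.ofReal (400 * (CKU L U0 * 8192 ^ 2 + 1 + Pm) * ((R : ℝ) + 1) ^ 2 / w *
      wn7 S.card) = ENNReal.ofReal (400 * (CKU L U0 * 8192 ^ 2 + 1 + Pm) * ((R : ℝ) + 1) ^ 2 / w) *
        ENNReal.ofReal (wn7 S.card) := ENNReal.ofReal_mul hC0
  have e2 : ENNReal.ofReal (400 * (CKU L U0 * 8192 ^ 2 + 1 + Pm) * ((R : ℝ) + 1) ^ 2 / w *
      wn7 S.card * Λf ^ 2) =
      ENNReal.ofReal (400 * (CKU L U0 * 8192 ^ 2 + 1 + Pm) * ((R : ℝ) + 1) ^ 2 / w) *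
        ENNReal.ofReal (wn7 S.card) * ENNReal.ofReal (Λf ^ 2) := by
    rw [ENNReal.ofReal_mul (mul_nonneg hC0 h7), e1]
  rw [e1, e2, C3U]
  ring

/-! ### counting -/

theorem w7_le (S : Finset (Tor N)) :
    ENNReal.ofReal (wn7 S.card) ≤
      ENNReal.ofReal (1 * ((S.card : ℝ) + 1) ^ 10 * (1 / 4096) ^ S.card) := by
  refine ENNReal.ofReal_le_ofReal ?_
  have h1 : ((S.card : ℝ) + 1) ^ 7 ≤ ((S.card : ℝ) + 1) ^ 10 :=
    pow_le_pow_right₀ (by linarith [Nat.cast_nonneg (α := ℝ) S.card]) (by norm_num)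
  rw [one_mul, wn7]
  gcongr

theorem count7_main (a : Tor N → ℝ≥0∞) (n R : ℕ) :
    ∑ x : Tor N, ∑ S ∈ SS n R x, ENNReal.ofReal (wn7 S.card) * ∑ z ∈ insert x S, a z ≤
      ENNReal.ofReal (2168 * (2 * R + 1) ^ 2 * (1 / 2) ^ n) * ∑ z, a z := by
  have h := count_main a n R (C1 := 1) (θ := 1 / 4096) (by norm_num) (by norm_num) le_rfl
  rw [one_mul] at h
  refine le_trans ?_ h
  exact sum_le_sum fun x _ => sum_le_sum fun S _ => mul_le_mul_left (w7_le S) _

theorem count7_add (n R : ℕ) (x : Tor N) :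
    ∑ S ∈ SS n R x, ENNReal.ofReal (wn7 S.card) ≤
      ENNReal.ofReal (2168 * (2 * R + 1) ^ 2 * (1 / 2) ^ n) := by
  refine (sum_le_sum fun S _ => w7_le S).trans ?_
  refine (sum_SS_le (fun m => ENNReal.ofReal (1 * ((m : ℝ) + 1) ^ 10 * (1 / 4096) ^ m)) n R
    (G := ENNReal.ofReal (1 * 1084 * (1 / 2) ^ n)) ?_ x).trans ?_
  · intro v
    refine sum_SV_le n v (by norm_num) (by norm_num) le_rfl
      (u := fun m => 1 * ((m : ℝ) + 1) ^ 10 * (1 / 4096) ^ m)
      (fun m => by positivity) fun m => ?_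
    have h1 : ((m : ℝ) + 1) ^ 10 ≤ ((m : ℝ) + 1) ^ 11 :=
      pow_le_pow_right₀ (by linarith [Nat.cast_nonneg (α := ℝ) m]) (by norm_num)
    gcongr
  · rw [← ENNReal.ofReal_natCast, ← ENNReal.ofReal_mul (by positivity)]
    refine ENNReal.ofReal_le_ofReal ?_
    push_cast
    have : (0 : ℝ) ≤ (2 * R + 1) ^ 2 * (1 / 2) ^ n := by positivity
    nlinarith

open Classical in
/-- sums over the sites with LONG are bounded by sums over clusters -/
theorem long_le_clusters_m (hpat : ∀ j ≤ D.I, ∀ a, D.pat j a ≠ D.good) {n R : ℕ} (hn : 2 ≤ n)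
    (l : Tor N → D.Λ) (x : Tor N) :
    D.Pl l * (if x ∈ X ∧ D.mov (l x) ∧ LONG D.good n R l x then
        FYm D N X F E μ e l x else 0) ≤
      if x ∈ X then ∑ S ∈ SS n R x, (if l ∈ TSx D S x then
        D.Pl l * FYm D N X F E μ e l x else 0) else 0 := by
  by_cases hc : x ∈ X ∧ D.mov (l x) ∧ LONG D.good n R l x
  · rw [if_pos hc, if_pos hc.1]
    obtain ⟨hxX, hm, z0, hz0, hcard⟩ := hc
    have hmem : cl D.good l z0 ∈ SS n R x :=
      mem_SS.2 ⟨cl_conn z0, hcard, z0, self_mem_cl z0, hz0⟩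
    have hT : l ∈ TSx D (cl D.good l z0) x :=
      mem_TSx.2 ⟨⟨cl_nongood_two (hn.trans hcard), cl_closed hpat z0⟩, hm⟩
    refine le_trans (le_of_eq ?_) (single_le_sum (f := fun S : Finset (Tor N) =>
      if l ∈ TSx D S x then D.Pl l * FYm D N X F E μ e l x else 0)
      (fun _ _ => zero_le) hmem)
    rw [if_pos hT]
  · rw [if_neg hc, mul_zero]
    exact zero_le

open Classical in
/-- **the LONG half of the bulk hub**: laws `μ`, abstract profile, domain, vector family -/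
theorem long_sum_m (h : D.Ok ρ) (hpat : ∀ j ≤ D.I, ∀ a, D.pat j a ≠ D.good)
    {i : ℕ} {sb sc Pm b1 w L U0 Λf : ℝ} (he : Prf D N i sb sc Pm b1 e) (hμ : Lws D N μ)
    (hw : 0 < w) (hw1 : w ≤ 1) (hU : 0 ≤ U0) (hF : VecLip F Λf)
    (hOS : OneShot D N X E μ e w (KqU L U0 (1 - D.p D.good))) {n R : ℕ} (hn : 2 ≤ n) :
    ∑ l : Tor N → D.Λ, ENNReal.ofReal (∏ x, D.p (l x)) *
        ∑ x, (if x ∈ X ∧ D.mov (l x) ∧ LONG D.good n R l x then
          FYm D N X F E μ e l x else 0) ≤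
      ENNReal.ofReal (etaLU L U0 Pm n R / w) *
        (FRm D N X F E μ e + ENNReal.ofReal (Λf ^ 2 * X.card)) := by
  have hPm0 : 0 ≤ Pm := (he.pos (fun _ => D.good) 0).le.trans (he.le (fun _ => D.good) 0)
  have hCK := CKU_nonneg (L := L) hU
  set C : ℝ := C3U L U0 Pm * (R + 1) ^ 2 / w with hC
  have hC0 : 0 ≤ C := by
    rw [hC, C3U]
    positivity
  set G : ℝ := 2168 * (2 * R + 1) ^ 2 * (1 / 2) ^ n with hG
  have hG0 : 0 ≤ G := by positivity
  have hCG : C * G = etaLU L U0 Pm n R / w := by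
    rw [hC, hG, etaLU]
    ring
  calc ∑ l : Tor N → D.Λ, ENNReal.ofReal (∏ x, D.p (l x)) *
        ∑ x, (if x ∈ X ∧ D.mov (l x) ∧ LONG D.good n R l x then
          FYm D N X F E μ e l x else 0)
      = ∑ x, ∑ l : Tor N → D.Λ, D.Pl l *
        (if x ∈ X ∧ D.mov (l x) ∧ LONG D.good n R l x then
          FYm D N X F E μ e l x else 0) := by
        rw [sum_comm]
        refine sum_congr rfl fun l _ => ?_
        rw [mul_sum]
        rfl
    _ ≤ ∑ x, ∑ l : Tor N → D.Λ, (if x ∈ X then ∑ S ∈ SS n R x, (if l ∈ TSx D S x then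
        D.Pl l * FYm D N X F E μ e l x else 0) else 0) :=
        sum_le_sum fun x _ => sum_le_sum fun l _ => long_le_clusters_m hpat hn l x
    _ = ∑ x, (if x ∈ X then ∑ S ∈ SS n R x, ∑ l ∈ TSx D S x,
        D.Pl l * FYm D N X F E μ e l x else 0) := by
        refine sum_congr rfl fun x _ => ?_
        by_cases hx : x ∈ X
        · simp only [if_pos hx]
          rw [sum_comm]
          refine sum_congr rfl fun S _ => ?_
          rw [← sum_filter]
          congr 1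
          ext l
          simp
        · simp [if_neg hx]
    _ ≤ ∑ x, (if x ∈ X then ∑ S ∈ SS n R x, ENNReal.ofReal C * (ENNReal.ofReal (wn7 S.card) *
        (∑ z ∈ insert x S, aam D N X F E μ e z + ENNReal.ofReal (Λf ^ 2))) else 0) := by
        refine sum_le_sum fun x _ => ?_
        by_cases hx : x ∈ X
        · rw [if_pos hx, if_pos hx]
          refine sum_le_sum fun S hS => ?_
          obtain ⟨hS1, _, v, hv, hvx⟩ := mem_SS.1 hS
          exact long_pair_m h hpat he hμ hw hw1 hU hF hOS hS1 hv hvx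
        · rw [if_neg hx, if_neg hx]
    _ ≤ ENNReal.ofReal C * (∑ x, ∑ S ∈ SS n R x,
        ENNReal.ofReal (wn7 S.card) * ∑ z ∈ insert x S, aam D N X F E μ e z) +
        ∑ x ∈ X, ENNReal.ofReal C * (∑ S ∈ SS n R x, ENNReal.ofReal (wn7 S.card) *
          ENNReal.ofReal (Λf ^ 2)) := by
        rw [← sum_filter, show univ.filter (fun x => x ∈ X) = X by ext; simp]
        have e1 : ∀ x, ∑ S ∈ SS n R x, ENNReal.ofReal C * (ENNReal.ofReal (wn7 S.card) *
            (∑ z ∈ insert x S, aam D N X F E μ e z + ENNReal.ofReal (Λf ^ 2))) =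
            ENNReal.ofReal C * (∑ S ∈ SS n R x,
              ENNReal.ofReal (wn7 S.card) * ∑ z ∈ insert x S, aam D N X F E μ e z) +
            ENNReal.ofReal C * (∑ S ∈ SS n R x, ENNReal.ofReal (wn7 S.card) *
              ENNReal.ofReal (Λf ^ 2)) := by
          intro x
          rw [← mul_add, ← sum_add_distrib, mul_sum]
          refine sum_congr rfl fun S _ => ?_
          rw [mul_add (ENNReal.ofReal (wn7 S.card))]
        rw [sum_congr rfl fun x _ => e1 x, sum_add_distrib, ← mul_sum]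
        refine add_le_add (mul_le_mul' le_rfl ?_) le_rfl
        exact sum_le_sum_of_subset (subset_univ _)
    _ ≤ ENNReal.ofReal C * (ENNReal.ofReal G * ∑ z, aam D N X F E μ e z) +
        ∑ x ∈ X, ENNReal.ofReal C * (ENNReal.ofReal G * ENNReal.ofReal (Λf ^ 2)) := by
        refine add_le_add (mul_le_mul' le_rfl (count7_main _ n R))
          (sum_le_sum fun x _ => mul_le_mul' le_rfl ?_)
        rw [← sum_mul]
        exact mul_le_mul' (count7_add n R x) le_rfl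
    _ = ENNReal.ofReal (C * G) *
        (FRm D N X F E μ e + ENNReal.ofReal (Λf ^ 2 * X.card)) := by
        rw [sum_aam, sum_const, nsmul_eq_mul, ENNReal.ofReal_mul hC0,
          ENNReal.ofReal_mul (sq_nonneg Λf), ENNReal.ofReal_natCast]
        ring
    _ = _ := by rw [hCG]

end main

end Vale.Agent.P365.J376
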