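import Vale.Agent.P365.V4.Inst

/-!
# P365-T2, V4: the hubs without the one-variable cost

`FYS` = weighted sum of the off-resonant energies (`lintegral`), `YSum` = the same, real.
`hubY_lint`, `hubY`: general direction `w`; `hubY_succ`, `hubY_bulk`, `hubY_cen`: the directions of
the concrete profiles; families of test functions integrated over a measure.
-/

set_option autoImplicit false
set_option linter.all false

namespace Vale.Agent.P365.V4.H937

open Vale.Agent.P365.J376 P365L P365O P365T1 P365L.TL Matrix Complex MeasureTheory Filter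
open scoped ComplexConjugate ENNReal

section defs

variable (D : V3) (N : ℕ) [NeZero N] (X : Finset (Tor N)) {κ : Type} [Fintype κ]
  (F : κ → Tor N → ℝ) (E : ℝ) (e w : (Tor N → D.Λ) → Tor N → ℝ)

/-- weighted sum of the off-resonant energies, `lintegral` form -/
noncomputable def FYS : ℝ≥0∞ :=
  ∑ l : Tor N → D.Λ, ENNReal.ofReal (∏ x, D.p (l x)) *
    ∑ x, ENNReal.ofReal (w l x) * FY4 D N X F E e l x

/-- weighted sum of the off-resonant energies, real form -/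
noncomputable def YSum : ℝ :=
  ∑ l : Tor N → D.Λ, (∏ x, D.p (l x)) *
    ∑ x, w l x * ∑ k, Ex (fun x => D.ν (l x)) E (e l) (fun W => Yf (ATX N X) W (F k) x)

end defs

variable {D : V3} {N : ℕ} [NeZero N] {X : Finset (Tor N)} {κ : Type} [Fintype κ]
  {F : κ → Tor N → ℝ} {E : ℝ} {e w : (Tor N → D.Λ) → Tor N → ℝ} {i : ℕ} {sb sc ε b1 : ℝ}
  {ρ : Measure ℝ}

/-! ### real and `lintegral` forms -/

theorem FY4_eq (h : D.Ok ρ) (he : ∀ l x, 0 < e l x) (l : Tor N → D.Λ) (x : Tor N) :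
    FY4 D N X F E e l x = ∑ k, ENNReal.ofReal
      (Ex (fun x => D.ν (l x)) E (e l) (fun W => Yf (ATX N X) W (F k) x)) := by
  haveI := h.prob
  unfold FY4
  refine Finset.sum_congr rfl fun k _ => ?_
  rw [ofReal_Ex_Yf (ATX_symm N X) _ (he l)]

theorem FM4_eq (h : D.Ok ρ) (he : ∀ l x, 0 < e l x) (l : Tor N → D.Λ) (x : Tor N) :
    FM4 D N X F E e l x = ∑ k, ENNReal.ofReal
      (Ex (fun x => D.ν (l x)) E (e l) (fun W => Mf (ATX N X) W (F k) x)) := by
  haveI := h.prob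
  unfold FM4
  refine Finset.sum_congr rfl fun k _ => ?_
  rw [ofReal_Ex_Mf (ATX_symm N X) _ (he l)]

theorem FYS_eq (h : D.Ok ρ) (he : ∀ l x, 0 < e l x) (hw : ∀ l x, 0 ≤ w l x) :
    FYS D N X F E e w = ENNReal.ofReal (YSum D N X F E e w) := by
  unfold FYS YSum
  rw [ofReal_sum_prod h.p_nonneg hw fun l x k =>
    Ex_nonneg _ _ _ fun v => Yf_nonneg (WV_neg (he l) v) _ _]
  simp only [FY4_eq h he]

theorem FR4_eq (h : D.Ok ρ) (he : ∀ l x, 0 < e l x) :
    FR4 D N X F E e = ENNReal.ofReal (PhiG (ATX N X) D.p D.ν E F e) := by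
  haveI := h.prob
  rw [PhiG_eq_sum_Mf (ATX_symm N X) he]
  unfold FR4
  rw [ofReal_sum_prod h.p_nonneg (fun l x => (he l x).le) fun l x k =>
    Ex_nonneg _ _ _ fun v => Mf_nonneg (WV_neg (he l) v) _ _]
  simp only [FM4_eq h he]

theorem FR4_ne_top (h : D.Ok ρ) (he : ∀ l x, 0 < e l x) : FR4 D N X F E e ≠ ⊤ := by
  rw [FR4_eq h he]
  exact ENNReal.ofReal_ne_top

theorem FYS_ne_top (h : D.Ok ρ) (he : ∀ l x, 0 < e l x) (hw : ∀ l x, 0 ≤ w l x) :
    FYS D N X F E e w ≠ ⊤ := by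
  rw [FYS_eq h he hw]
  exact ENNReal.ofReal_ne_top

theorem YSum_nonneg (h : D.Ok ρ) (he : ∀ l x, 0 < e l x) (hw : ∀ l x, 0 ≤ w l x) :
    0 ≤ YSum D N X F E e w :=
  Finset.sum_nonneg fun l _ => mul_nonneg (Finset.prod_nonneg fun x _ => h.p_nonneg _)
    (Finset.sum_nonneg fun x _ => mul_nonneg (hw l x) (Finset.sum_nonneg fun k _ =>
      Ex_nonneg _ _ _ fun v => Yf_nonneg (WV_neg (he l) v) _ _))

/-- the integrand is integrable -/
theorem integrable_YSum (h : D.Ok ρ) (he : ∀ l x, 0 < e l x) (l : Tor N → D.Λ) :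
    Integrable (fun v => ∑ x, w l x * ∑ k, Yf (ATX N X) (WV E (e l) v) (F k) x)
      (Measure.pi fun x => D.ν (l x)) := by
  haveI := h.prob
  exact integrable_finset_sum _ fun x _ => (integrable_finset_sum _ fun k _ =>
    integrable_Yf (ATX_symm N X) _ E (he l) (F k) x).const_mul _

/-- `YSum` as an average over labels and potentials -/
theorem YSum_eq_AvG (h : D.Ok ρ) (he : ∀ l x, 0 < e l x) :
    YSum D N X F E e w =
      AvG D.p D.ν E e fun l W => ∑ x, w l x * ∑ k, Yf (ATX N X) W (F k) x := by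
  haveI := h.prob
  unfold YSum AvG
  refine Finset.sum_congr rfl fun l _ => ?_
  congr 1
  unfold Ex
  rw [integral_finset_sum _ fun x _ => (integrable_finset_sum _ fun k _ =>
    integrable_Yf (ATX_symm N X) _ E (he l) (F k) x).const_mul _]
  refine Finset.sum_congr rfl fun x _ => ?_
  rw [integral_const_mul, integral_finset_sum _ fun k _ =>
    integrable_Yf (ATX_symm N X) _ E (he l) (F k) x]

/-! ### monotonicity -/

theorem FYS_mono {w' : (Tor N → D.Λ) → Tor N → ℝ} (h : ∀ l x, w l x ≤ w' l x) :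
    FYS D N X F E e w ≤ FYS D N X F E e w' := by
  unfold FYS
  gcongr with l _ x _
  exact h l x

theorem YSum_mono (h : D.Ok ρ) (he : ∀ l x, 0 < e l x) {w' : (Tor N → D.Λ) → Tor N → ℝ}
    (hw : ∀ l x, w l x ≤ w' l x) : YSum D N X F E e w ≤ YSum D N X F E e w' := by
  unfold YSum
  refine Finset.sum_le_sum fun l _ => mul_le_mul_of_nonneg_left (Finset.sum_le_sum fun x _ =>
    mul_le_mul_of_nonneg_right (hw l x) (Finset.sum_nonneg fun k _ => Ex_nonneg _ _ _ fun v =>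
      Yf_nonneg (WV_neg (he l) v) _ _)) (Finset.prod_nonneg fun x _ => h.p_nonneg _)

theorem YSum_const_mul (a : ℝ) :
    YSum D N X F E e (fun l x => a * w l x) = a * YSum D N X F E e w := by
  unfold YSum
  rw [Finset.mul_sum]
  refine Finset.sum_congr rfl fun l _ => ?_
  have h1 : ∀ S : Tor N → ℝ, ∑ x, a * w l x * S x = a * ∑ x, w l x * S x := by
    intro S
    rw [Finset.mul_sum]
    exact Finset.sum_congr rfl fun x _ => mul_assoc _ _ _
  rw [h1]
  ring

/-! ### the general hub -/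

/-- **general hub, `lintegral` form**: `w ≤ e / σ` at the centres, `w ≤ θ` at the other moving
sites, `w = 0` off the moving sites; `θ = 0`: no bulk hub is needed -/
theorem hubY_lint (h : D.Ok ρ) (hi : i ≤ D.I) {ηc ηb c σ θ : ℝ}
    (he : Prf D N i sb sc ε b1 e) (hsb : 0 < sb) (hηc : 0 ≤ ηc) (hηb : 0 ≤ ηb) (hσ : 0 < σ)
    (hθ : 0 ≤ θ) (HC : HC4 D N X E e i ηc) (HB : θ ≠ 0 → HBe D N X F E e i sb ηb c)
    (hw0 : ∀ l x, 0 ≤ w l x) (hwm : ∀ l x, ¬ D.mov (l x) → w l x = 0)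
    (hwc : ∀ l x, D.cen i l x → σ * w l x ≤ e l x)
    (hwb : ∀ l x, D.mov (l x) → ¬ D.cen i l x → w l x ≤ θ) :
    FYS D N X F E e w ≤
      ENNReal.ofReal (ηc / σ + θ * (ηb / (sb * (D.e0 i * Real.exp (-(D.a i)))))) *
        (FR4 D N X F E e + ENNReal.ofReal c) := by
  classical
  haveI := h.prob
  have h00 := h.e0_pos i hi
  have hden : 0 < sb * (D.e0 i * Real.exp (-(D.a i))) := by positivity
  set η' : ℝ := ηb / (sb * (D.e0 i * Real.exp (-(D.a i)))) with hη'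
  have hη'0 : 0 ≤ η' := div_nonneg hηb hden.le
  set P : (Tor N → D.Λ) → ℝ≥0∞ := fun l => ENNReal.ofReal (∏ x, D.p (l x)) with hP
  have hsplit : ∀ l x, ENNReal.ofReal (w l x) * FY4 D N X F E e l x ≤
      ENNReal.ofReal (ηc / σ) * (ENNReal.ofReal (e l x) * FM4 D N X F E e l x) +
      ENNReal.ofReal θ *
        (if x ∈ X ∧ D.mov (l x) ∧ ¬ D.cen i l x then FY4 D N X F E e l x else 0) := by
    intro l x
    have hW0 := hw0 l x
    by_cases hlx : D.cen i l x
    · refine le_trans ?_ le_self_add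
      calc ENNReal.ofReal (w l x) * FY4 D N X F E e l x
          ≤ ENNReal.ofReal (w l x) * (ENNReal.ofReal ηc * FM4 D N X F E e l x) :=
            mul_le_mul_right (FY4_le_of_HC4 HC he.pos hlx) _
        _ = ENNReal.ofReal (w l x * ηc) * FM4 D N X F E e l x := by
            rw [← mul_assoc, ← ENNReal.ofReal_mul hW0]
        _ ≤ ENNReal.ofReal (ηc / σ * e l x) * FM4 D N X F E e l x := by
            refine mul_le_mul_left (ENNReal.ofReal_le_ofReal ?_) _
            have h1 := hwc l x hlx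
            rw [div_mul_eq_mul_div, le_div_iff₀ hσ]
            nlinarith
        _ = _ := by
            rw [ENNReal.ofReal_mul (by positivity), mul_assoc]
    · by_cases hx : x ∈ X
      · by_cases hmv : D.mov (l x)
        · rw [if_pos ⟨hx, hmv, hlx⟩]
          refine le_trans ?_ le_add_self
          exact mul_le_mul_left (ENNReal.ofReal_le_ofReal (hwb l x hmv hlx)) _
        · rw [hwm l x hmv]
          simp
      · rw [FY4_off he.pos l hx, mul_zero]
        exact zero_le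
  have hHB : ENNReal.ofReal θ *
        ∑ l : Tor N → D.Λ, P l * ∑ x,
          (if x ∈ X ∧ D.mov (l x) ∧ ¬ D.cen i l x then FY4 D N X F E e l x else 0) ≤
      ENNReal.ofReal θ *
        (ENNReal.ofReal η' * (FR4 D N X F E e + ENNReal.ofReal c)) := by
    by_cases h0 : θ = 0
    · rw [h0, ENNReal.ofReal_zero, zero_mul, zero_mul]
    · exact mul_le_mul_right (HB h0) _
  calc FYS D N X F E e w
      ≤ ∑ l : Tor N → D.Λ, P l * ∑ x,
        (ENNReal.ofReal (ηc / σ) * (ENNReal.ofReal (e l x) * FM4 D N X F E e l x) +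
        ENNReal.ofReal θ *
          (if x ∈ X ∧ D.mov (l x) ∧ ¬ D.cen i l x then FY4 D N X F E e l x else 0)) := by
        unfold FYS
        gcongr with l _ x _
        exact hsplit l x
    _ = ENNReal.ofReal (ηc / σ) * FR4 D N X F E e + ENNReal.ofReal θ *
        ∑ l : Tor N → D.Λ, P l * ∑ x,
          (if x ∈ X ∧ D.mov (l x) ∧ ¬ D.cen i l x then FY4 D N X F E e l x else 0) := by
        rw [FR4, Finset.mul_sum, Finset.mul_sum, ← Finset.sum_add_distrib]
        refine Finset.sum_congr rfl fun l _ => ?_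
        rw [Finset.sum_add_distrib, ← Finset.mul_sum, ← Finset.mul_sum]
        ring
    _ ≤ ENNReal.ofReal (ηc / σ) * FR4 D N X F E e + ENNReal.ofReal θ *
        (ENNReal.ofReal η' * (FR4 D N X F E e + ENNReal.ofReal c)) := add_le_add le_rfl hHB
    _ ≤ ENNReal.ofReal (ηc / σ) * (FR4 D N X F E e + ENNReal.ofReal c) +
        ENNReal.ofReal (θ * η') * (FR4 D N X F E e + ENNReal.ofReal c) := by
        refine add_le_add (mul_le_mul_right le_self_add _) (le_of_eq ?_)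
        rw [← mul_assoc, ← ENNReal.ofReal_mul hθ]
    _ = ENNReal.ofReal (ηc / σ + θ * η') * (FR4 D N X F E e + ENNReal.ofReal c) := by
        rw [← add_mul, ← ENNReal.ofReal_add (by positivity) (by positivity)]

/-- real form of a `lintegral` bound -/
theorem YSum_le_of_lint (h : D.Ok ρ) (he : ∀ l x, 0 < e l x) (hw : ∀ l x, 0 ≤ w l x) {r c : ℝ}
    (hr : 0 ≤ r) (hc : 0 ≤ c)
    (H : FYS D N X F E e w ≤ ENNReal.ofReal r * (FR4 D N X F E e + ENNReal.ofReal c)) :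
    YSum D N X F E e w ≤ r * (PhiG (ATX N X) D.p D.ν E F e + c) := by
  have hPhi0 : 0 ≤ PhiG (ATX N X) D.p D.ν E F e := PhiG_nonneg h.p_nonneg fun l x => (he l x).le
  rw [FYS_eq h he hw, FR4_eq h he, ← ENNReal.ofReal_add hPhi0 hc, ← ENNReal.ofReal_mul hr] at H
  exact (ENNReal.ofReal_le_ofReal_iff (mul_nonneg hr (add_nonneg hPhi0 hc))).1 H

/-- **general hub, real form** -/
theorem hubY (h : D.Ok ρ) (hi : i ≤ D.I) {ηc ηb c σ θ : ℝ}
    (he : Prf D N i sb sc ε b1 e) (hsb : 0 < sb) (hηc : 0 ≤ ηc) (hηb : 0 ≤ ηb) (hc : 0 ≤ c)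
    (hσ : 0 < σ) (hθ : 0 ≤ θ) (HC : HC4 D N X E e i ηc)
    (HB : θ ≠ 0 → HBe D N X F E e i sb ηb c)
    (hw0 : ∀ l x, 0 ≤ w l x) (hwm : ∀ l x, ¬ D.mov (l x) → w l x = 0)
    (hwc : ∀ l x, D.cen i l x → σ * w l x ≤ e l x)
    (hwb : ∀ l x, D.mov (l x) → ¬ D.cen i l x → w l x ≤ θ) :
    YSum D N X F E e w ≤
      (ηc / σ + θ * (ηb / (sb * (D.e0 i * Real.exp (-(D.a i)))))) *
        (PhiG (ATX N X) D.p D.ν E F e + c) := by
  have h00 := h.e0_pos i hi
  have hden : 0 < sb * (D.e0 i * Real.exp (-(D.a i))) := by positivity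
  exact YSum_le_of_lint h he.pos hw0
    (add_nonneg (div_nonneg hηc hσ.le) (mul_nonneg hθ (div_nonneg hηb hden.le))) hc
    (hubY_lint h hi he hsb hηc hηb hσ hθ HC HB hw0 hwm hwc hwb)

/-! ### families of test functions integrated over a measure -/

section family

variable {Ω : Type*} [MeasurableSpace Ω] {m : Measure Ω} {G : Ω → κ → Tor N → ℝ}

/-- a bound for every member of a family of test functions, integrated -/
theorem hubY_lint_family {r : ℝ} {c : Ω → ℝ≥0∞}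
    (H : ∀ ω, FYS D N X (G ω) E e w ≤ ENNReal.ofReal r * (FR4 D N X (G ω) E e + c ω)) :
    ∫⁻ ω, FYS D N X (G ω) E e w ∂m ≤
      ENNReal.ofReal r * ∫⁻ ω, (FR4 D N X (G ω) E e + c ω) ∂m := by
  rw [← lintegral_const_mul' _ _ ENNReal.ofReal_ne_top]
  exact lintegral_mono H

/-- real form -/
theorem hubY_family (h : D.Ok ρ) (he : ∀ l x, 0 < e l x) (hw : ∀ l x, 0 ≤ w l x) {r : ℝ}
    {c : Ω → ℝ} (H : ∀ ω, YSum D N X (G ω) E e w ≤
      r * (PhiG (ATX N X) D.p D.ν E (G ω) e + c ω))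
    (hi1 : Integrable (fun ω => YSum D N X (G ω) E e w) m)
    (hi2 : Integrable (fun ω => PhiG (ATX N X) D.p D.ν E (G ω) e) m) (hi3 : Integrable c m) :
    ∫ ω, YSum D N X (G ω) E e w ∂m ≤
      r * (∫ ω, PhiG (ATX N X) D.p D.ν E (G ω) e ∂m + ∫ ω, c ω ∂m) := by
  rw [← integral_add hi2 hi3, ← integral_const_mul]
  exact integral_mono hi1 ((hi2.add hi3).const_mul r) H

end family

end Vale.Agent.P365.V4.H937

namespace Vale.Agent.P365.V4.H937

open Vale.Agent.P365.J376 P365L P365O P365T1 P365L.TL Matrix Complex MeasureTheory Filter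
open scoped ComplexConjugate ENNReal

variable {N : ℕ} [NeZero N] {D : J376.V4 N} {ρ : Measure ℝ} {κ : Type} [Fintype κ]
  {F : κ → Tor N → ℝ} {E : ℝ} {i : ℕ}

/-! ### the three directions of the concrete profiles -/

/-- **one strength**, direction `Ws (i + 1)`, `lintegral` form -/
theorem hubY_succ_lint (h : D.Ok ρ) (hi : i ≤ D.I) {s ηc ηb c : ℝ} (hs : 0 < s) (hs1 : s ≤ 1)
    (hηc : 0 ≤ ηc) (hηb : 0 ≤ ηb) (HC : HC4 D.toV3 N D.X E (D.prof i s s) i ηc)
    (HB : HBe D.toV3 N D.X F E (D.prof i s s) i s ηb c) :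
    FYS D.toV3 N D.X F E (D.prof i s s) (D.Ws (i + 1)) ≤
      ENNReal.ofReal ((ηc + 2 * ηb) / s) *
        (FR4 D.toV3 N D.X F E (D.prof i s s) + ENNReal.ofReal c) := by
  have h0 := h.e0_pos i hi
  have h1 := hubY_lint h.toOk hi (X := D.X) (F := F) (σ := s)
    (θ := 2 * (D.e0 i * Real.exp (-(D.a i)))) (h.prf hi hs le_rfl hs1) hs hηc hηb hs
    (by positivity) HC (fun _ => HB) (w := D.Ws (i + 1))
    (fun l x => h.toOk.Ws_nonneg (by omega) l x)
    (fun l x hx => h.toOk.Ws_of_not_mov (by omega) hx)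
    (fun l x _ => h.sb_mul_Ws_le hi le_rfl l x)
    (fun l x hm hn => (h.toOk.Ws_bulk hi hm hn).2)
  refine h1.trans (le_of_eq ?_)
  congr 2
  have h3 := Real.exp_pos (-(D.a i))
  field_simp

/-- **one strength**, direction `Ws (i + 1)` -/
theorem hubY_succ (h : D.Ok ρ) (hi : i ≤ D.I) {s ηc ηb c : ℝ} (hs : 0 < s) (hs1 : s ≤ 1)
    (hηc : 0 ≤ ηc) (hηb : 0 ≤ ηb) (hc : 0 ≤ c)
    (HC : HC4 D.toV3 N D.X E (D.prof i s s) i ηc)
    (HB : HBe D.toV3 N D.X F E (D.prof i s s) i s ηb c) :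
    YSum D.toV3 N D.X F E (D.prof i s s) (D.Ws (i + 1)) ≤
      (ηc + 2 * ηb) / s * (PhiG (ATX N D.X) D.p D.ν E F (D.prof i s s) + c) :=
  YSum_le_of_lint h.toOk (fun l x => h.prof_pos hi hs.le hs.le l x)
    (fun l x => h.toOk.Ws_nonneg (by omega) l x) (by positivity) hc
    (hubY_succ_lint h hi hs hs1 hηc hηb HC HB)

/-- the same with the profile of the stage written out -/
theorem hubY_succ' (h : D.Ok ρ) (hi : i ≤ D.I) {s ηc ηb c : ℝ} (hs : 0 < s) (hs1 : s ≤ 1)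
    (hηc : 0 ≤ ηc) (hηb : 0 ≤ ηb) (hc : 0 ≤ c)
    (HC : HC4 D.toV3 N D.X E (D.prof i s s) i ηc)
    (HB : HBe D.toV3 N D.X F E (D.prof i s s) i s ηb c) :
    YSum D.toV3 N D.X F E (fun l x => D.us (i + 1) l x + s * D.Ws (i + 1) l x) (D.Ws (i + 1)) ≤
      (ηc + 2 * ηb) / s * (PhiG (ATX N D.X) D.p D.ν E F
        (fun l x => D.us (i + 1) l x + s * D.Ws (i + 1) l x) + c) := by
  have h2 : D.prof i s s = fun l x => D.us (i + 1) l x + s * D.Ws (i + 1) l x := by
    funext l x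
    exact h.prof_diag hi s l x
  rw [← h2]
  exact hubY_succ h hi hs hs1 hηc hηb hc HC HB

/-- **bulk only**, `lintegral` form -/
theorem hubY_bulk_lint (h : D.Ok ρ) (hi : i ≤ D.I) {sc sb ηc ηb c : ℝ} (hsb : 0 < sb)
    (hcb : sb ≤ sc) (hsc1 : sc ≤ 1) (hηc : 0 ≤ ηc) (hηb : 0 ≤ ηb)
    (HC : HC4 D.toV3 N D.X E (D.prof i sc sb) i ηc)
    (HB : HBe D.toV3 N D.X F E (D.prof i sc sb) i sb ηb c) :
    FYS D.toV3 N D.X F E (D.prof i sc sb) (D.Wb i) ≤
      ENNReal.ofReal ((ηc + 2 * ηb) / sb) *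
        (FR4 D.toV3 N D.X F E (D.prof i sc sb) + ENNReal.ofReal c) := by
  have h0 := h.e0_pos i hi
  have h1 := hubY_lint h.toOk hi (X := D.X) (F := F) (σ := sb)
    (θ := 2 * (D.e0 i * Real.exp (-(D.a i)))) (h.prf hi hsb hcb hsc1) hsb hηc hηb hsb
    (by positivity) HC (fun _ => HB) (w := D.Wb i) (fun l x => h.Wb_nonneg hi l x)
    (fun l x hx => h.Wb_of_not_mov hi hx)
    (fun l x _ => h.sb_mul_Wb_le hi (hsb.le.trans hcb) sb l x)
    (fun l x hm hn => h.Wb_le hi l x)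
  refine h1.trans (le_of_eq ?_)
  congr 2
  have h3 := Real.exp_pos (-(D.a i))
  field_simp

/-- **bulk only** -/
theorem hubY_bulk (h : D.Ok ρ) (hi : i ≤ D.I) {sc sb ηc ηb c : ℝ} (hsb : 0 < sb)
    (hcb : sb ≤ sc) (hsc1 : sc ≤ 1) (hηc : 0 ≤ ηc) (hηb : 0 ≤ ηb) (hc : 0 ≤ c)
    (HC : HC4 D.toV3 N D.X E (D.prof i sc sb) i ηc)
    (HB : HBe D.toV3 N D.X F E (D.prof i sc sb) i sb ηb c) :
    YSum D.toV3 N D.X F E (D.prof i sc sb) (D.Wb i) ≤
      (ηc + 2 * ηb) / sb * (PhiG (ATX N D.X) D.p D.ν E F (D.prof i sc sb) + c) :=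
  YSum_le_of_lint h.toOk (fun l x => h.prof_pos hi (hsb.le.trans hcb) hsb.le l x)
    (fun l x => h.Wb_nonneg hi l x) (by positivity) hc
    (hubY_bulk_lint h hi hsb hcb hsc1 hηc hηb HC HB)

/-- **centres only**, `lintegral` form; no bulk hub is needed -/
theorem hubY_cen_lint (h : D.Ok ρ) (hi : i ≤ D.I) {sc sb ηc c : ℝ} (hsb : 0 < sb)
    (hcb : sb ≤ sc) (hsc1 : sc ≤ 1) (hηc : 0 ≤ ηc)
    (HC : HC4 D.toV3 N D.X E (D.prof i sc sb) i ηc) :
    FYS D.toV3 N D.X F E (D.prof i sc sb) (D.Wc i) ≤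
      ENNReal.ofReal (ηc / sc) *
        (FR4 D.toV3 N D.X F E (D.prof i sc sb) + ENNReal.ofReal c) := by
  have h1 := hubY_lint h.toOk hi (X := D.X) (F := F) (σ := sc) (θ := 0) (ηb := 0) (c := c)
    (h.prf hi hsb hcb hsc1) hsb hηc le_rfl (hsb.trans_le hcb) le_rfl HC
    (fun hn => absurd rfl hn) (w := D.Wc i) (fun l x => h.Wc_nonneg hi l x)
    (fun l x hx => h.Wc_of_not_mov hi hx)
    (fun l x _ => h.sc_mul_Wc_le hi sc hsb.le l x)
    (fun l x _ hn => by rw [V4.Wc_of_not_cen hn])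
  refine h1.trans (le_of_eq ?_)
  congr 2
  ring

/-- **centres only**; no additive term -/
theorem hubY_cen (h : D.Ok ρ) (hi : i ≤ D.I) {sc sb ηc : ℝ} (hsb : 0 < sb)
    (hcb : sb ≤ sc) (hsc1 : sc ≤ 1) (hηc : 0 ≤ ηc)
    (HC : HC4 D.toV3 N D.X E (D.prof i sc sb) i ηc) :
    YSum D.toV3 N D.X F E (D.prof i sc sb) (D.Wc i) ≤
      ηc / sc * PhiG (ATX N D.X) D.p D.ν E F (D.prof i sc sb) := by
  have h1 := YSum_le_of_lint h.toOk (w := D.Wc i) (F := F) (X := D.X) (E := E)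
    (fun l x => h.prof_pos hi (hsb.le.trans hcb) hsb.le l x)
    (fun l x => h.Wc_nonneg hi l x) (r := ηc / sc)
    (div_nonneg hηc (hsb.le.trans hcb)) (c := 0) le_rfl
    (hubY_cen_lint h hi hsb hcb hsc1 hηc HC)
  rwa [add_zero] at h1

end Vale.Agent.P365.V4.H937
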