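import Vale.Agent.P365.V4.Def
import Vale.Agent.P365.Z0.Loss3

/-!
# P365-T2: the general hub of `V4/Def` with the loss kept, and the loss along a stage.
-/

set_option linter.all false

namespace P365Z.Loss327

open P365L P365O P365T1 P365L.TL Matrix Complex MeasureTheory Filter Topology Set
open Vale.Agent.P365.J376
open scoped ComplexConjugate ENNReal

section facts

variable {D : V3} {N : ℕ} [NeZero N] {X : Finset (Tor N)} {κ : Type} [Fintype κ]
  {F : κ → Tor N → ℝ} {E : ℝ} {e : (Tor N → D.Λ) → Tor N → ℝ} {i : ℕ} {sb sc ε b1 : ℝ}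

/-- **general hub with the loss kept**: `hub_gen` with `LossG + CostG` on the left -/
theorem hub_gen_loss {ρ : Measure ℝ} (h : D.Ok ρ) (hi : i ≤ D.I) {ηc ηb c Ca σ θ : ℝ}
    (he : Prf D N i sb sc ε b1 e) (hsb : 0 < sb) (hηc : 0 ≤ ηc)
    (hηb : 0 ≤ ηb) (hc : 0 ≤ c) (hCa : 0 ≤ Ca) (hσ : 0 < σ) (hθ : 0 ≤ θ)
    (hcost : ∀ k, D.mov k → CostLL E Ca (D.ν k))
    (HC : HC4 D N X E e i ηc) (HB : θ ≠ 0 → HBe D N X F E e i sb ηb c)
    {w : (Tor N → D.Λ) → Tor N → ℝ} (hw0 : ∀ l x, 0 ≤ w l x)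
    (hwm : ∀ l x, ¬ D.mov (l x) → w l x = 0)
    (hwc : ∀ l x, D.cen i l x → σ * w l x ≤ e l x)
    (hwb : ∀ l x, D.mov (l x) → ¬ D.cen i l x → w l x ≤ θ) :
    LossG (ATX N X) D.p D.ν E F e w + CostG (ATX N X) D.p D.ν E F e w ≤
      (Ca * ηc / σ + Ca * (θ * (ηb / (sb * (D.e0 i * Real.exp (-(D.a i))))))) *
        (PhiG (ATX N X) D.p D.ν E F e + c) := by
  classical
  haveI := h.prob
  have h00 := h.e0_pos i hi
  have hden : 0 < sb * (D.e0 i * Real.exp (-(D.a i))) := by positivity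
  set η' : ℝ := ηb / (sb * (D.e0 i * Real.exp (-(D.a i)))) with hη'
  have hη'0 : 0 ≤ η' := div_nonneg hηb hden.le
  refine LossG_le_of_lintegral (C := fun _ => Ca) (ATX_symm N X) h.p_nonneg he.pos hw0
    (fun _ => hCa) (fun l x hx => hcost _ ?_) (by positivity) hc ?_
  · by_contra hcon
    exact hx (hwm l x hcon)
  set P : (Tor N → D.Λ) → ℝ≥0∞ := fun l => ENNReal.ofReal (∏ x, D.p (l x)) with hP
  have hsplit : ∀ l x, ENNReal.ofReal (w l x * Ca) * FY4 D N X F E e l x ≤
      ENNReal.ofReal (Ca * ηc / σ) * (ENNReal.ofReal (e l x) * FM4 D N X F E e l x) +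
      ENNReal.ofReal (Ca * θ) *
        (if x ∈ X ∧ D.mov (l x) ∧ ¬ D.cen i l x then FY4 D N X F E e l x else 0) := by
    intro l x
    have hW0 := hw0 l x
    by_cases hlx : D.cen i l x
    · refine le_trans ?_ le_self_add
      calc ENNReal.ofReal (w l x * Ca) * FY4 D N X F E e l x
          ≤ ENNReal.ofReal (w l x * Ca) * (ENNReal.ofReal ηc * FM4 D N X F E e l x) :=
            mul_le_mul_right (FY4_le_of_HC4 HC he.pos hlx) _
        _ = ENNReal.ofReal (w l x * Ca * ηc) * FM4 D N X F E e l x := by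
            rw [← mul_assoc, ← ENNReal.ofReal_mul (mul_nonneg hW0 hCa)]
        _ ≤ ENNReal.ofReal (Ca * ηc / σ * e l x) * FM4 D N X F E e l x := by
            refine mul_le_mul_left (ENNReal.ofReal_le_ofReal ?_) _
            have h1 := hwc l x hlx
            have h2 : 0 ≤ Ca * ηc := mul_nonneg hCa hηc
            rw [div_mul_eq_mul_div, le_div_iff₀ hσ]
            nlinarith
        _ = _ := by
            rw [ENNReal.ofReal_mul (by positivity), mul_assoc]
    · by_cases hx : x ∈ X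
      · by_cases hmv : D.mov (l x)
        · rw [if_pos ⟨hx, hmv, hlx⟩]
          refine le_trans ?_ le_add_self
          have h1 := hwb l x hmv hlx
          refine mul_le_mul_left (ENNReal.ofReal_le_ofReal ?_) _
          nlinarith
        · rw [hwm l x hmv]
          simp
      · rw [FY4_off he.pos l hx, mul_zero]
        exact zero_le
  have hHB : ENNReal.ofReal (Ca * θ) *
        ∑ l : Tor N → D.Λ, P l * ∑ x,
          (if x ∈ X ∧ D.mov (l x) ∧ ¬ D.cen i l x then FY4 D N X F E e l x else 0) ≤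
      ENNReal.ofReal (Ca * θ) *
        (ENNReal.ofReal η' * (FR4 D N X F E e + ENNReal.ofReal c)) := by
    by_cases h0 : θ = 0
    · rw [h0, mul_zero, ENNReal.ofReal_zero, zero_mul, zero_mul]
    · exact mul_le_mul_right (HB h0) _
  change ∑ l : Tor N → D.Λ, P l * ∑ x, ENNReal.ofReal (w l x * Ca) * FY4 D N X F E e l x ≤
    ENNReal.ofReal (Ca * ηc / σ + Ca * (θ * η')) * (FR4 D N X F E e + ENNReal.ofReal c)
  calc ∑ l : Tor N → D.Λ, P l * ∑ x, ENNReal.ofReal (w l x * Ca) * FY4 D N X F E e l x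
      ≤ ∑ l : Tor N → D.Λ, P l * ∑ x,
        (ENNReal.ofReal (Ca * ηc / σ) * (ENNReal.ofReal (e l x) * FM4 D N X F E e l x) +
        ENNReal.ofReal (Ca * θ) *
          (if x ∈ X ∧ D.mov (l x) ∧ ¬ D.cen i l x then FY4 D N X F E e l x else 0)) := by
        gcongr with l _ x _
        exact hsplit l x
    _ = ENNReal.ofReal (Ca * ηc / σ) * FR4 D N X F E e + ENNReal.ofReal (Ca * θ) *
        ∑ l : Tor N → D.Λ, P l * ∑ x,
          (if x ∈ X ∧ D.mov (l x) ∧ ¬ D.cen i l x then FY4 D N X F E e l x else 0) := by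
        rw [FR4, Finset.mul_sum, Finset.mul_sum, ← Finset.sum_add_distrib]
        refine Finset.sum_congr rfl fun l _ => ?_
        rw [Finset.sum_add_distrib, ← Finset.mul_sum, ← Finset.mul_sum]
        ring
    _ ≤ ENNReal.ofReal (Ca * ηc / σ) * FR4 D N X F E e + ENNReal.ofReal (Ca * θ) *
        (ENNReal.ofReal η' * (FR4 D N X F E e + ENNReal.ofReal c)) := add_le_add le_rfl hHB
    _ ≤ ENNReal.ofReal (Ca * ηc / σ) * (FR4 D N X F E e + ENNReal.ofReal c) +
        ENNReal.ofReal (Ca * (θ * η')) * (FR4 D N X F E e + ENNReal.ofReal c) := by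
        refine add_le_add (mul_le_mul_right le_self_add _) (le_of_eq ?_)
        rw [← mul_assoc, ← ENNReal.ofReal_mul (by positivity)]
        congr 2
        ring
    _ = ENNReal.ofReal (Ca * ηc / σ + Ca * (θ * η')) *
        (FR4 D N X F E e + ENNReal.ofReal c) := by
        rw [← add_mul, ← ENNReal.ofReal_add (by positivity) (by positivity)]

end facts

/-! ### the loss along an affine path of profiles (general `A`, labels, test functions) -/

section path

variable {ι : Type} [Fintype ι] [DecidableEq ι] {A : Matrix ι ι ℝ}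
  {Λ : Type*} [Fintype Λ] {p : Λ → ℝ} {ν : Λ → Measure ℝ} {E : ℝ}
  {κ : Type*} [Fintype κ] {f : κ → ι → ℝ}

/-- the loss rate along an affine path is measurable -/
theorem measurable_LossG_path [∀ k, IsProbabilityMeasure (ν k)] (u w : (ι → Λ) → ι → ℝ) :
    Measurable fun s : ℝ => LossG A p ν E f (fun l x => u l x + s * w l x) w := by
  unfold LossG AvG
  refine Finset.measurable_sum _ fun l _ => Measurable.const_mul ?_ _
  unfold Ex
  have hm : Measurable fun q : ℝ × (ι → ℝ) =>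
      ∑ x, w l x * ∑ k, Ls A (WV E (fun x => u l x + q.1 * w l x) q.2) (f k) x := by
    refine Finset.measurable_sum _ fun x _ => Measurable.const_mul
      (Finset.measurable_sum _ fun k _ => ?_) _
    have h1 : ∀ q : ℝ × (ι → ℝ), WV E (fun x => u l x + q.1 * w l x) q.2 =
        Vale.Agent.P365.J376.Wp (fun x => q.2 x - E) (fun x => u l x + q.1 * w l x) :=
      fun q => WV_eq_Wp _ _ _
    simp only [h1]
    refine measurable_Ls_Wp (fun y => ?_) (fun y => ?_) _ _
    · have hy : Measurable fun q : ℝ × (ι → ℝ) => q.2 y :=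
        (measurable_pi_apply y).comp measurable_snd
      exact hy.sub_const E
    · exact (measurable_fst.mul_const _).const_add _
  exact (hm.stronglyMeasurable.integral_prod_right' (ν := Measure.pi fun x => ν (l x))).measurable

/-- **one stage with the loss kept**: from `s = 1` down to `t`, rate `η / s` -/
theorem stage_loss (hA : A.IsSymm) [∀ k, IsProbabilityMeasure (ν k)] (hp : ∀ k, 0 ≤ p k)
    {b Wm : ℝ} (hb : 0 < b) (hWm : 0 < Wm) {u w : (ι → Λ) → ι → ℝ} (hub : ∀ l x, b ≤ u l x)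
    (hw0 : ∀ l x, 0 ≤ w l x) (hw1 : ∀ l x, w l x ≤ Wm) {t η c : ℝ} (ht : 0 < t) (ht1 : t ≤ 1)
    (hη : 0 ≤ η) (hc : 0 ≤ c)
    (h : ∀ s ∈ Ioo t 1, LossG A p ν E f (fun l x => u l x + s * w l x) w +
      CostG A p ν E f (fun l x => u l x + s * w l x) w ≤
      η / s * (PhiG A p ν E f (fun l x => u l x + s * w l x) + c)) :
    (∀ s ∈ Icc t 1, PhiG A p ν E f (fun l x => u l x + s * w l x) + c ≤
      (PhiG A p ν E f (fun l x => u l x + w l x) + c) * Real.exp (η * Real.log (1 / t))) ∧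
    ∫⁻ s in Ioo t 1, ENNReal.ofReal (LossG A p ν E f (fun l x => u l x + s * w l x) w) ≤
      ENNReal.ofReal ((PhiG A p ν E f (fun l x => u l x + w l x) + c) *
        Real.exp (η * Real.log (1 / t)) * (1 + η * Real.log (1 / t))) := by
  have hpos : ∀ s : ℝ, 0 ≤ s → ∀ l x, 0 < u l x + s * w l x := fun s hs l x => by
    have := mul_nonneg hs (hw0 l x)
    have := hub l x
    linarith
  have hPhi : ∀ s : ℝ, 0 ≤ s → 0 ≤ PhiG A p ν E f (fun l x => u l x + s * w l x) := fun s hs =>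
    PhiG_nonneg hp fun l x => (hpos s hs l x).le
  have hL0 : ∀ s ∈ Ioo t 1, 0 ≤ LossG A p ν E f (fun l x => u l x + s * w l x) w := fun s hs =>
    LossG_nonneg hA hp (hpos s (ht.trans hs.1).le) hw0
  have h1 : PhiG A p ν E f (fun l x => u l x + (1 : ℝ) * w l x) =
      PhiG A p ν E f (fun l x => u l x + w l x) := by simp only [one_mul]
  have hstart : 0 ≤ PhiG A p ν E f (fun l x => u l x + w l x) + c := by
    rw [← h1]
    exact add_nonneg (hPhi 1 zero_le_one) hc
  have hbd : ∀ s ∈ Icc t 1, PhiG A p ν E f (fun l x => u l x + s * w l x) + c ≤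
      (PhiG A p ν E f (fun l x => u l x + w l x) + c) * Real.exp (η * Real.log (1 / t)) := by
    intro s hs
    have hs0 : 0 < s := ht.trans_le hs.1
    have h2 := stage_inv (E := E) (f := f) (ν := ν) (p := p) (c := c) hA hb hWm hub hw0 hw1 hs0
      hs.2 (fun s' hs' => by
        have h3 := h s' ⟨hs.1.trans_lt hs'.1, hs'.2⟩
        have h4 := hL0 s' ⟨hs.1.trans_lt hs'.1, hs'.2⟩
        linarith)
    refine h2.trans (mul_le_mul_of_nonneg_left (Real.exp_le_exp.2
      (mul_le_mul_of_nonneg_left ?_ hη)) hstart)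
    exact Real.log_le_log (by positivity) (one_div_le_one_div_of_le ht hs.1)
  refine ⟨hbd, ?_⟩
  exact lintegral_loss_le (K := fun s => CostG A p ν E f (fun l x => u l x + s * w l x) w)
    ht ht1 hη (fun s hs => hasDerivAt_PhiG hA hb hWm hub hw0 hw1 hs) (hPhi t ht.le) hc hL0 h hbd

/-- the same in logarithmic time `s = e^{-σ}` -/
theorem stage_loss_log (hA : A.IsSymm) [∀ k, IsProbabilityMeasure (ν k)] (hp : ∀ k, 0 ≤ p k)
    {b Wm : ℝ} (hb : 0 < b) (hWm : 0 < Wm) {u w : (ι → Λ) → ι → ℝ} (hub : ∀ l x, b ≤ u l x)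
    (hw0 : ∀ l x, 0 ≤ w l x) (hw1 : ∀ l x, w l x ≤ Wm) {t η c : ℝ} (ht : 0 < t) (ht1 : t ≤ 1)
    (hη : 0 ≤ η) (hc : 0 ≤ c)
    (h : ∀ s ∈ Ioo t 1, LossG A p ν E f (fun l x => u l x + s * w l x) w +
      CostG A p ν E f (fun l x => u l x + s * w l x) w ≤
      η / s * (PhiG A p ν E f (fun l x => u l x + s * w l x) + c)) :
    ∫⁻ σ in Ioo 0 (Real.log (1 / t)), ENNReal.ofReal (Real.exp (-σ) *
      LossG A p ν E f (fun l x => u l x + Real.exp (-σ) * w l x) w) ≤
      ENNReal.ofReal ((PhiG A p ν E f (fun l x => u l x + w l x) + c) *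
        Real.exp (η * Real.log (1 / t)) * (1 + η * Real.log (1 / t))) := by
  have h1 := (stage_loss hA hp hb hWm hub hw0 hw1 ht ht1 hη hc h).2
  rw [← lintegral_log_time ht ht1] at h1
  refine le_trans (le_of_eq (lintegral_congr fun σ => ?_)) h1
  rw [ENNReal.ofReal_mul (Real.exp_pos _).le]

end path

end P365Z.Loss327
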