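import Vale.Agent.P365.T1.PeelTor963
import Vale.Agent.P365.V4.Def

/-!
# P365 T2, chain V4: PEEL on the torus graph restricted to a set `X` (`J376.ATX N X`)

Copy of `T1/PeelTor963` with the relation `rX N X` (edges of the torus inside `X`).  The window is the
full window `Win m x` of the torus; regions started inside `X` stay inside `X`; there is no margin at
the boundary of `X`.
-/

set_option autoImplicit false
set_option linter.all false

namespace P365V4

namespace Peel

open Finset P365L P365T1 P365T1.Peel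
open Vale.Agent.P365.J376 (ATX ATX_symm ATX_zo ATX_nonneg ATX_le BlkU)

section torus

variable {N : ℕ} [NeZero N] {X : Finset (Tor N)}

/-- adjacency relation of the torus inside `X` -/
abbrev rX (N : ℕ) [NeZero N] (X : Finset (Tor N)) : Tor N → Tor N → Prop := rA (ATX N X)

theorem rX_iff {a b : Tor N} : rX N X a b ↔ (a ∈ X ∧ b ∈ X) ∧ rT N a b := by
  unfold rX rT rA ATX
  split_ifs with h
  · simp [h]
  · simp [h]

theorem rX_rT {a b : Tor N} (h : rX N X a b) : rT N a b := (rX_iff.1 h).2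

theorem rX_memL {a b : Tor N} (h : rX N X a b) : a ∈ X := (rX_iff.1 h).1.1

theorem rX_memR {a b : Tor N} (h : rX N X a b) : b ∈ X := (rX_iff.1 h).1.2

theorem rX_symm (a b : Tor N) (h : rX N X a b) : rX N X b a := rA_symm (ATX_symm N X) a b h

theorem near_rT {n : ℕ} {a b : Tor N} (h : near (rX N X) n a b) : near (rT N) n a b := by
  induction n generalizing b with
  | zero => exact h
  | succ n ih =>
    obtain ⟨c, hc, h1⟩ := h
    exact ⟨c, ih hc, h1.imp id rX_rT⟩

theorem nearX_nrm {n : ℕ} {a b : Tor N} (h : near (rX N X) n a b) : nrm (b - a) ≤ n :=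
  near_nrm (near_rT h)

/-- a site reached from `X` lies in `X` -/
theorem near_mem {n : ℕ} {a b : Tor N} (ha : a ∈ X) (h : near (rX N X) n a b) : b ∈ X := by
  induction n generalizing b with
  | zero =>
    have h' : a = b := h
    exact h' ▸ ha
  | succ n ih =>
    obtain ⟨c, hc, h1⟩ := h
    rcases h1 with rfl | h1
    · exact ih hc
    · exact rX_memR h1

/-- sites off `X` are isolated -/
theorem near_off {n : ℕ} {a b : Tor N} (ha : a ∉ X) (h : near (rX N X) n a b) : a = b := by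
  induction n generalizing b with
  | zero => exact h
  | succ n ih =>
    obtain ⟨c, hc, h1⟩ := h
    have h2 := ih hc
    subst h2
    rcases h1 with rfl | h1
    · rfl
    · exact absurd (rX_memL h1) ha

theorem nearX_Win {m j : ℕ} {x a b : Tor N} (ha : a ∈ Cor m x) (hj : j ≤ m)
    (h : near (rX N X) j a b) : b ∈ Win m x := near_Win ha hj (near_rT h)

/-! ### regions stay inside `X` -/

section sub

variable {Q0 S : Finset (Tor N)} {y : Tor N}

theorem Kp_mem (hy : y ∈ X) {a : Tor N} (h : Kp (rX N X) Q0 S y a) : a ∈ X := by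
  obtain ⟨_, h⟩ := h
  induction h with
  | refl => exact hy
  | tail _ h1 _ => exact rX_memR h1.1

theorem Kc_subX (hy : y ∈ X) : Kc (rX N X) Q0 S y ⊆ X := fun a ha => Kp_mem hy (mem_Kc.1 ha)

theorem Ic_subX (hy : y ∈ X) : Ic (rX N X) Q0 S y ⊆ X := by
  intro a ha
  obtain ⟨b, hb, h⟩ := mem_Ic.1 ha
  exact near_mem (Kp_mem hy hb) h

theorem Qc_subX (hy : y ∈ X) : Qc (rX N X) Q0 S y ⊆ X := by
  intro a ha
  obtain ⟨b, hb, h⟩ := mem_Qc.1 ha
  exact near_mem (Kp_mem hy hb) h

end sub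

/-! ### blocks inside `X` are connected -/

/-- coarser blocks -/
theorem bi_dvd {m m' : ℕ} (h : m ∣ m') {a b : Tor N} (hab : bi m a = bi m b) :
    bi m' a = bi m' b := by
  obtain ⟨k, rfl⟩ := h
  have h1 := congrArg Prod.fst hab
  have h2 := congrArg Prod.snd hab
  simp only [bi] at h1 h2 ⊢
  rw [← Nat.div_div_eq_div_mul, ← Nat.div_div_eq_div_mul, ← Nat.div_div_eq_div_mul,
    ← Nat.div_div_eq_div_mul, h1, h2]

theorem BlkU_mem {m : ℕ} (h : BlkU m X) {a b : Tor N} (hab : bi m a = bi m b) (ha : a ∈ X) :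
    b ∈ X := (h a b hab).1 ha

theorem Cor_subX {m : ℕ} (h : BlkU m X) {x : Tor N} (hx : x ∈ X) : Cor m x ⊆ X :=
  fun z hz => BlkU_mem h (mem_Cor.1 hz).symm hx

/-- steps inside the block `c`, in `X` -/
def bstX (X : Finset (Tor N)) (m : ℕ) (c : Loc) (a b : Tor N) : Prop :=
  rX N X a b ∧ bi m a = c ∧ bi m b = c

/-- **blocks inside `X` are connected in `X`** -/
theorem blk_connX {m : ℕ} (hX : BlkU m X) {c : Loc} {a b : Tor N} (haX : a ∈ X) (ha : bi m a = c)
    (hb : bi m b = c) : Relation.ReflTransGen (bstX X m c) a b := by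
  have h := blk_conn (m := m) ha hb
  clear hb
  induction h with
  | refl => exact Relation.ReflTransGen.refl
  | @tail b c' _ h1 ih =>
    have hbX : b ∈ X := BlkU_mem hX (ha.trans h1.2.1.symm) haX
    have hcX : c' ∈ X := BlkU_mem hX (ha.trans h1.2.2.symm) haX
    exact ih.tail ⟨rX_iff.2 ⟨⟨hbX, hcX⟩, h1.1⟩, h1.2⟩

/-! ### NORMAL sites and long chains -/

/-- **NORMAL**: no removed site within distance 3 of the core block of `x` -/
def NrmX (X : Finset (Tor N)) (m : ℕ) (S : Finset (Tor N)) (x : Tor N) : Prop :=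
  ∀ a ∈ Cor m x, ∀ c, near (rX N X) 3 a c → ¬ Rm (rX N X) (Win m x) S c

theorem NrmX_congr {m : ℕ} {S : Finset (Tor N)} {x z : Tor N} (h : bi m z = bi m x) :
    NrmX X m S z ↔ NrmX X m S x := by
  unfold NrmX
  rw [Cor_congr h, Win_congr h]

theorem NrmX.ball {m : ℕ} (hm : 3 ≤ m) {S : Finset (Tor N)} {x : Tor N} (h : NrmX X m S x) :
    ∀ a ∈ Cor m x, ∀ c, near (rX N X) 3 a c → c ∈ Win m x ∧ ¬ Rm (rX N X) (Win m x) S c :=
  fun a ha c hc => ⟨nearX_Win ha hm hc, h a ha c hc⟩

/-- NORMAL: the core block lies in `Kc`, for every base point `y` of the core block -/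
theorem NrmX.core {m : ℕ} (hm : 3 ≤ m) (hX : BlkU m X) {S : Finset (Tor N)} {x y : Tor N}
    (hx : x ∈ X) (h : NrmX X m S x) (hy : bi m y = bi m x) :
    Cor m x ⊆ Kc (rX N X) (Win m x) S y := by
  refine core_sub (fun a ha c hc => h.ball hm a ha c (near_mono (by norm_num) hc))
    (mem_Cor.2 hy) fun a ha => ?_
  have h1 := blk_connX (m := m) hX (BlkU_mem hX hy.symm hx) hy (mem_Cor.1 ha)
  induction h1 with
  | refl => exact Relation.ReflTransGen.refl
  | tail _ h2 ih => exact ih (mem_Cor.2 h2.2.1) |>.tail ⟨h2.1, mem_Cor.2 h2.2.2⟩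

/-- **not NORMAL: a long injective range-3 chain of non-good sites in the window** -/
theorem chain_of_not_NrmX {m n : ℕ} (hmn : 3 * n + 6 ≤ m) {S : Finset (Tor N)} {x : Tor N}
    (h : ¬ NrmX X m S x) :
    ∃ p : ℕ → Tor N, (∀ i ≤ n, p i ∈ S ∧ p i ∈ Win m x) ∧
      (∀ i < n, near (rX N X) 3 (p i) (p (i + 1))) ∧
      (∀ i ≤ n, ∀ i' ≤ n, p i = p i' → i = i') := by
  unfold NrmX at h
  push Not at h
  obtain ⟨a, ha, c, hc, hR⟩ := h
  exact long_chain rX_symm hR hc fun b hb => nearX_Win ha (by omega) hb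

/-- sup distances along the chain -/
theorem chain_nrmX {m n : ℕ} (hmn : 3 * n + 6 ≤ m) {S : Finset (Tor N)} {x : Tor N}
    (h : ¬ NrmX X m S x) :
    ∃ p : ℕ → Tor N, (∀ i ≤ n, p i ∈ S ∧ nrm (p i - x) ≤ 2 * m) ∧
      (∀ i < n, nrm (p (i + 1) - p i) ≤ 3) ∧
      (∀ i ≤ n, ∀ i' ≤ n, p i = p i' → i = i') := by
  obtain ⟨p, h1, h2, h3⟩ := chain_of_not_NrmX hmn h
  exact ⟨p, fun i hi => ⟨(h1 i hi).1, nrm_Win (by omega) (h1 i hi).2⟩,
    fun i hi => nearX_nrm (h2 i hi), h3⟩

/-! ### matched blocks -/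

/-- a block all of whose sites are non-good and which meets `Qc` lies in `Kc` -/
theorem blk_sub_KcX {Q0 S : Finset (Tor N)} {y : Tor N} (hy : y ∈ X) {m' : ℕ} (hX : BlkU m' X)
    {a : Tor N} (hS : ∀ w, bi m' w = bi m' a → w ∈ S) (ha : a ∈ Qc (rX N X) Q0 S y) (w : Tor N)
    (hw : bi m' w = bi m' a) : w ∈ Kc (rX N X) Q0 S y := by
  have h := blk_connX (m := m') (c := bi m' a) hX (Qc_subX hy ha) rfl hw
  clear hw
  induction h with
  | refl => exact S_Qc rX_symm ha (hS a rfl) a (near_self 1 a)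
  | tail _ h1 ih =>
    exact S_Qc rX_symm (Ic_sub_Qc _ (Kc_sub_Ic _ ih)) (hS _ h1.2.1) _
      (near_one.2 (Or.inr h1.1))

variable {Λ : Type*} [DecidableEq Λ]

/-- **matched blocks off `Qc` do not change** when the labels on `Qc` are switched to good outside
a set `P` inside `Kc` (arbitrary labels on `P`; `P = ∅` or the core block) -/
theorem mat_off_iffX {Q0 : Finset (Tor N)} {g : Λ} {l l' : Tor N → Λ} {y : Tor N} (hy : y ∈ X)
    {P : Finset (Tor N)} (hP : P ⊆ Kc (rX N X) Q0 (nsg g l) y)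
    (hoff : ∀ z, z ∉ Qc (rX N X) Q0 (nsg g l) y → l' z = l z)
    (hgood : ∀ z ∈ Qc (rX N X) Q0 (nsg g l) y, z ∉ P → l' z = g)
    {m' : ℕ} (hX : BlkU m' X) {pt : Loc → Λ} (hpt : ∀ a, pt a ≠ g) {z : Tor N}
    (hz : z ∉ Qc (rX N X) Q0 (nsg g l) y) :
    (∀ w, bi m' w = bi m' z → l' w = pt (lc m' w)) ↔
      (∀ w, bi m' w = bi m' z → l w = pt (lc m' w)) := by
  have hKQ : ∀ w, w ∈ Kc (rX N X) Q0 (nsg g l) y → w ∈ Qc (rX N X) Q0 (nsg g l) y :=
    fun w hw => Ic_sub_Qc _ (Kc_sub_Ic _ hw)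
  constructor
  · intro h
    -- the block does not meet `Qc`
    have hno : ∀ w, bi m' w = bi m' z → w ∉ Qc (rX N X) Q0 (nsg g l) y := by
      intro w hw hwQ
      have hwP : w ∈ P := by
        by_contra hc
        exact hpt _ ((h w hw).symm.trans (hgood w hwQ hc))
      have h1 := blk_connX (m := m') (c := bi m' z) hX (Qc_subX hy hwQ) hw rfl
      have h2 : ∀ b, Relation.ReflTransGen (bstX X m' (bi m' z)) w b → b ∈ P := by
        intro b hb
        induction hb with
        | refl => exact hwP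
        | @tail b c _ hbc ih =>
          have hcQ : c ∈ Qc (rX N X) Q0 (nsg g l) y := Ic_sub_Qc _ (nb_Kc (hP ih) hbc.1)
          by_contra hc
          exact hpt _ ((h c hbc.2.2).symm.trans (hgood c hcQ hc))
      exact hz (hKQ z (hP (h2 z h1)))
    intro w hw
    rw [← hoff w (hno w hw)]
    exact h w hw
  · intro h
    have hno : ∀ w, bi m' w = bi m' z → w ∉ Qc (rX N X) Q0 (nsg g l) y := by
      intro w hw hwQ
      have h1 := blk_sub_KcX (m' := m') (a := w) hy hX (fun b hb => ?_) hwQ z hw.symm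
      · exact hz (hKQ z h1)
      · rw [mem_nsg, h b (hb.trans hw)]
        exact hpt _
    intro w hw
    rw [hoff w (hno w hw)]
    exact h w hw

/-- **the regions do not change** under the same switch when the site is NORMAL and `P` is contained
in the core block -/
theorem stable_labX {m : ℕ} (hm : 3 ≤ m) {g : Λ} {l l' : Tor N → Λ} {x y : Tor N}
    (hN : NrmX X m (nsg g l) x) {P : Finset (Tor N)} (hP : P ⊆ Cor m x)
    (hoff : ∀ z, z ∉ Qc (rX N X) (Win m x) (nsg g l) y → l' z = l z)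
    (hgood : ∀ z ∈ Qc (rX N X) (Win m x) (nsg g l) y, z ∉ P → l' z = g) :
    NrmX X m (nsg g l') x ∧
      Kc (rX N X) (Win m x) (nsg g l') y = Kc (rX N X) (Win m x) (nsg g l) y ∧
      Ic (rX N X) (Win m x) (nsg g l') y = Ic (rX N X) (Win m x) (nsg g l) y ∧
      Qc (rX N X) (Win m x) (nsg g l') y = Qc (rX N X) (Win m x) (nsg g l) y := by
  have h := stable' (r := rX N X) (Q0 := Win m x) (S := nsg g l) rX_symm (S' := nsg g l')
    (Q00 := Cor m x) (y := y) (hN.ball hm) (fun a ha => ?_) (fun a ha haS => ?_)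
  · refine ⟨fun a ha c hc => ?_, h.2⟩
    rw [h.1 c]
    exact hN a ha c hc
  · rw [mem_nsg, mem_nsg, hoff a ha]
  · right
    by_contra hc
    exact (mem_nsg.1 haS) (hgood a ha fun hP' => hc (hP hP'))

end torus

end Peel

end P365V4
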