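import Vale.Agent.P365.T1.PeelV963
import Vale.Agent.P365.V4.PeelTor963

/-!
# P365 T2, chain V4: PEEL for the labels of the chain, on the domain `X`

Regions of a labelling `l` at a NORMAL site `x` of family `i`; they do not change when the labels
inside the region are changed to good, outside the block of `x`; neither do the matched blocks, the
centres and (any local) profile off the region.  The profile is abstract: it depends on the own label
and on the centres only.
-/

set_option autoImplicit false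
set_option linter.all false

namespace P365V4

namespace Peel

open Finset P365L P365T1 P365T1.Peel Vale.Agent.P365.J376

variable {N : ℕ} [NeZero N]

/-- the profile depends on the own label and on the centres only -/
def LocPr (D : V3) {N : ℕ} [NeZero N] (e : (Tor N → D.Λ) → Tor N → ℝ) : Prop :=
  ∀ l l' x, l x = l' x → (∀ j ≤ D.I, (D.cen j l x ↔ D.cen j l' x)) → e l x = e l' x

theorem locPr_of_Prf {D : V3} {i : ℕ} {sb sc ε b1 : ℝ} {e : (Tor N → D.Λ) → Tor N → ℝ}
    (h : Prf D N i sb sc ε b1 e) : LocPr D e := h.loc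

/-- `X` is a union of blocks of every family -/
def DomX (D : V3) {N : ℕ} (X : Finset (Tor N)) : Prop := ∀ j ≤ D.I, BlkU (D.m j) X

variable {D : V3} {X : Finset (Tor N)}

/-- union of blocks of the largest family, sides dividing each other -/
theorem DomX.of_dvd (hm : ∀ j ≤ D.I, D.m j ∣ D.m D.I) (hX : BlkU (D.m D.I) X) : DomX D X :=
  fun j hj => hX.dvd (hm j hj)

theorem DomX_univ : DomX D (univ : Finset (Tor N)) := fun _ _ => BlkU.univ _

/-! ### the regions of a labelling -/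

section region

variable (D) (X) (i : ℕ) (l : Tor N → D.Λ) (x : Tor N)

/-- the core component -/
noncomputable def KX : Finset (Tor N) := Kc (rX N X) (Win (D.m i) x) (D.badS l) x

/-- its 1-neighbourhood -/
noncomputable def IX : Finset (Tor N) := Ic (rX N X) (Win (D.m i) x) (D.badS l) x

/-- its 2-neighbourhood -/
noncomputable def QX : Finset (Tor N) := Qc (rX N X) (Win (D.m i) x) (D.badS l) x

/-- NORMAL -/
def NX : Prop := NrmX X (D.m i) (D.badS l) x

end region

variable {i : ℕ} {l l1 : Tor N → D.Λ} {x : Tor N}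

theorem KX_sub_IX : KX D X i l x ⊆ IX D X i l x := Kc_sub_Ic _

theorem IX_sub_QX : IX D X i l x ⊆ QX D X i l x := Ic_sub_Qc _

theorem KX_sub_QX : KX D X i l x ⊆ QX D X i l x := KX_sub_IX.trans IX_sub_QX

theorem QX_sub_Win : QX D X i l x ⊆ Win (D.m i) x := Qc_sub _

theorem QX_sub_X (hx : x ∈ X) : QX D X i l x ⊆ X := Qc_subX hx

theorem IX_sub_X (hx : x ∈ X) : IX D X i l x ⊆ X := Ic_subX hx

theorem KX_sub_X (hx : x ∈ X) : KX D X i l x ⊆ X := Kc_subX hx

theorem card_QX_le (hm : 0 < D.m i) : (QX D X i l x).card ≤ 9 * D.m i ^ 2 :=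
  (card_le_card QX_sub_Win).trans (card_Win_le hm x)

theorem card_IX_le (hm : 0 < D.m i) : (IX D X i l x).card ≤ 9 * D.m i ^ 2 :=
  (card_le_card IX_sub_QX).trans (card_QX_le hm)

theorem nrm_QX (hm : 0 < D.m i) {z : Tor N} (hz : z ∈ QX D X i l x) :
    nrm (z - x) ≤ 2 * D.m i := nrm_Win hm (QX_sub_Win hz)

/-- the block of `x` lies in the core component -/
theorem NX.core (hm : 3 ≤ D.m i) (hX : BlkU (D.m i) X) (hx : x ∈ X) (h : NX D X i l x) :
    Cor (D.m i) x ⊆ KX D X i l x := NrmX.core hm hX hx h rfl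

theorem NX.blk_mem (hm : 3 ≤ D.m i) (hX : BlkU (D.m i) X) (hx : x ∈ X) (h : NX D X i l x)
    {z : Tor N} (hz : bi (D.m i) z = bi (D.m i) x) : z ∈ KX D X i l x :=
  h.core hm hX hx (mem_Cor.2 hz)

theorem NX.self_mem (hm : 3 ≤ D.m i) (hX : BlkU (D.m i) X) (hx : x ∈ X) (h : NX D X i l x) :
    x ∈ KX D X i l x := h.blk_mem hm hX hx rfl

/-- non-good sites of the region lie in the core component -/
theorem bad_mem_KX {z : Tor N} (hz : z ∈ QX D X i l x) (hb : l z ≠ D.good) : z ∈ KX D X i l x :=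
  S_Qc rX_symm hz (mem_badS.2 hb) z (near_self 1 z)

/-- neighbours of the core component lie in its 1-neighbourhood, neighbours of the latter in the
region -/
theorem nb_KX {a b : Tor N} (ha : a ∈ KX D X i l x) (hab : ATX N X a b ≠ 0) :
    b ∈ IX D X i l x := nb_Kc ha hab

theorem nb_IX {a b : Tor N} (ha : a ∈ IX D X i l x) (hab : ATX N X a b ≠ 0) :
    b ∈ QX D X i l x := nb_Ic ha hab

/-- matched blocks are not cut: a matched block of any family which meets the region lies in the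
core component -/
theorem mat_mem_KX (hgood : ∀ j ≤ D.I, ∀ a, D.pat j a ≠ D.good) (hX : DomX D X) (hx : x ∈ X)
    {j : ℕ} (hj : j ≤ D.I) {w : Tor N} (hw : w ∈ QX D X i l x) (hM : D.Mat j l w) {z : Tor N}
    (hz : bi (D.m j) z = bi (D.m j) w) : z ∈ KX D X i l x := by
  refine blk_sub_KcX (m' := D.m j) (a := w) hx (hX j hj) (fun b hb => ?_) hw z hz
  rw [mem_badS, hM b hb]
  exact hgood j hj _

/-- **nothing changes off the region** when the labels inside the region are changed, good outside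
the core component -/
theorem mat_offX (hgood : ∀ j ≤ D.I, ∀ a, D.pat j a ≠ D.good) (hX : DomX D X) (hx : x ∈ X)
    (hoff : ∀ z, z ∉ QX D X i l x → l1 z = l z)
    (hin : ∀ z ∈ QX D X i l x, z ∉ KX D X i l x → l1 z = D.good) {j : ℕ} (hj : j ≤ D.I)
    {z : Tor N} (hz : z ∉ QX D X i l x) : D.Mat j l1 z ↔ D.Mat j l z := by
  unfold V3.Mat
  exact mat_off_iffX (g := D.good) (l := l) (l' := l1) (P := KX D X i l x) (Q0 := Win (D.m i) x)
    (y := x) hx (fun _ h => h) hoff hin (hX j hj) (hgood j hj) hz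

theorem cen_offX (hgood : ∀ j ≤ D.I, ∀ a, D.pat j a ≠ D.good) (hX : DomX D X) (hx : x ∈ X)
    (hoff : ∀ z, z ∉ QX D X i l x → l1 z = l z)
    (hin : ∀ z ∈ QX D X i l x, z ∉ KX D X i l x → l1 z = D.good) {j : ℕ} (hj : j ≤ D.I)
    {z : Tor N} (hz : z ∉ QX D X i l x) : D.cen j l1 z ↔ D.cen j l z :=
  and_congr_left fun _ => mat_offX hgood hX hx hoff hin hj hz

/-- **the profile off the region does not change** -/
theorem prof_offX {e : (Tor N → D.Λ) → Tor N → ℝ} (hloc : LocPr D e)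
    (hgood : ∀ j ≤ D.I, ∀ a, D.pat j a ≠ D.good) (hX : DomX D X) (hx : x ∈ X)
    (hoff : ∀ z, z ∉ QX D X i l x → l1 z = l z)
    (hin : ∀ z ∈ QX D X i l x, z ∉ KX D X i l x → l1 z = D.good) {z : Tor N}
    (hz : z ∉ QX D X i l x) : e l1 z = e l z :=
  hloc l1 l z (hoff z hz) fun j hj => cen_offX hgood hX hx hoff hin hj hz

/-- inside the region `l1` is good except at non-good sites of `l` and in the block of `x` -/
def ChgX (D : V3) (X : Finset (Tor N)) (i : ℕ) (l l1 : Tor N → D.Λ) (x : Tor N) : Prop :=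
  (∀ z, z ∉ QX D X i l x → l1 z = l z) ∧
    ∀ z ∈ QX D X i l x, l1 z ≠ D.good → l z ≠ D.good ∨ bi (D.m i) z = bi (D.m i) x

theorem ChgX.off (h : ChgX D X i l l1 x) {z : Tor N} (hz : z ∉ QX D X i l x) : l1 z = l z :=
  h.1 z hz

theorem ChgX.good (h : ChgX D X i l l1 x) (hm : 3 ≤ D.m i) (hX : BlkU (D.m i) X) (hx : x ∈ X)
    (hN : NX D X i l x) :
    ∀ z ∈ QX D X i l x, z ∉ KX D X i l x → l1 z = D.good := by
  intro z hz hzK
  by_contra hc
  rcases h.2 z hz hc with h1 | h1
  · exact hzK (bad_mem_KX hz h1)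
  · exact hzK (hN.blk_mem hm hX hx h1)

/-- **stability of the regions** -/
theorem ChgX.stable (h : ChgX D X i l l1 x) (hm : 3 ≤ D.m i) (hN : NX D X i l x) :
    NX D X i l1 x ∧ KX D X i l1 x = KX D X i l x ∧ IX D X i l1 x = IX D X i l x ∧
      QX D X i l1 x = QX D X i l x := by
  have h1 := stable' (r := rX N X) (Q0 := Win (D.m i) x) (S := D.badS l) rX_symm
    (S' := D.badS l1) (Q00 := Cor (D.m i) x) (y := x) (NrmX.ball hm hN) (fun a ha => ?_)
    (fun a ha haS => ?_)
  · refine ⟨fun a ha c hc => ?_, h1.2⟩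
    rw [h1.1 c]
    exact hN a ha c hc
  · rw [mem_badS, mem_badS, h.1 a ha]
  · rcases h.2 a ha (mem_badS.1 haS) with h2 | h2
    · exact Or.inl (mem_badS.2 h2)
    · exact Or.inr (mem_Cor.2 h2)

theorem ChgX.nx (h : ChgX D X i l l1 x) (hm : 3 ≤ D.m i) (hN : NX D X i l x) : NX D X i l1 x :=
  (h.stable hm hN).1

theorem ChgX.cen (h : ChgX D X i l l1 x) (hm : 3 ≤ D.m i) (hN : NX D X i l x)
    (hgood : ∀ j ≤ D.I, ∀ a, D.pat j a ≠ D.good) (hX : DomX D X) (hi : i ≤ D.I) (hx : x ∈ X)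
    {j : ℕ} (hj : j ≤ D.I) {z : Tor N} (hz : z ∉ QX D X i l x) : D.cen j l1 z ↔ D.cen j l z :=
  cen_offX hgood hX hx h.1 (h.good hm (hX i hi) hx hN) hj hz

theorem ChgX.prof {e : (Tor N → D.Λ) → Tor N → ℝ} (hloc : LocPr D e) (h : ChgX D X i l l1 x)
    (hm : 3 ≤ D.m i) (hN : NX D X i l x) (hgood : ∀ j ≤ D.I, ∀ a, D.pat j a ≠ D.good)
    (hX : DomX D X) (hi : i ≤ D.I) (hx : x ∈ X) {z : Tor N} (hz : z ∉ QX D X i l x) :
    e l1 z = e l z :=
  prof_offX hloc hgood hX hx h.1 (h.good hm (hX i hi) hx hN) hz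

theorem ATX_row_le (x : Tor N) : ∑ y, ATX N X x y ≤ 4 :=
  (sum_le_sum fun y _ => ATX_le x y).trans (row_sum_le x)

theorem gph_ATX (hN : 2 ≤ N) : Gph (ATX N X) where
  symm := ATX_symm N X
  zo := ATX_zo
  diag := fun x => by
    unfold ATX
    split_ifs
    · exact AT_diag hN x
    · rfl
  deg := fun x => ATX_row_le x

theorem ATX_diag (hN : 2 ≤ N) (z : Tor N) : ATX N X z z = 0 := (gph_ATX hN).diag z

/-- **cofactor bound on the region** for every exterior, from any site of the 1-neighbourhood to any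
site of the core component -/
theorem cofLe_IX (hN : 2 ≤ N) {E L : ℝ} (hL : 0 < L) {e : Tor N → ℝ}
    (he0 : ∀ z ∈ QX D X i l x, 0 ≤ e z) (he1 : ∀ z ∈ QX D X i l x, e z ≤ 1)
    (z y' : QX D X i l x) (hz : (z : Tor N) ∈ IX D X i l x) (hy' : (y' : Tor N) ∈ KX D X i l x) :
    CofLe (ATX N X) (QX D X i l x) E e L (c2c E L (IX D X i l x).card) z y' := by
  have hQ : Qc (rX N X) (Win (D.m i) x) (D.badS l) (y' : Tor N) = QX D X i l x :=
    Qc_base rX_symm hy'
  have hI : Ic (rX N X) (Win (D.m i) x) (D.badS l) (y' : Tor N) = IX D X i l x :=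
    Ic_base rX_symm hy'
  have key : ∀ (Q I : Finset (Tor N)), Qc (rX N X) (Win (D.m i) x) (D.badS l) (y' : Tor N) = Q →
      Ic (rX N X) (Win (D.m i) x) (D.badS l) (y' : Tor N) = I → (∀ z ∈ Q, 0 ≤ e z) →
      (∀ z ∈ Q, e z ≤ 1) → ∀ (a b : Q), (a : Tor N) ∈ I → (b : Tor N) = y' →
      CofLe (ATX N X) Q E e L (c2c E L I.card) a b := by
    rintro Q I rfl rfl h0 h1 a b ha hb
    exact cofLe_Ic (ATX_symm N X) ATX_zo (ATX_diag hN) ATX_row_le hL h0 h1 a b ha hb
  exact key _ _ hQ hI he0 he1 z y' hz rfl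

end Peel

end P365V4
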