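import Vale.Agent.P365.V4.Def
import Vale.Agent.P365.T2.H984.L0

/-!
# P365-T2, (k4): the static share

`Av ∑_x u_x ∑_k M_x(F_k) ≤ r Φ + Λf² (R² Av ∑_{x not moving} u_x m_x + M4 / R²)` for every `R > 0`,
`u ≤ e` everywhere and `u ≤ r e` at the moving sites.
-/

set_option linter.all false

namespace P365V4.Share798

open P365L P365O P365T1 P365L.TL Matrix Complex MeasureTheory
open Vale.Agent.P365.J376 P365T2.H984
open scoped ComplexConjugate ENNReal

variable {N : ℕ} [NeZero N] {A : Matrix (Tor N) (Tor N) ℝ} {κ : Type} [Fintype κ]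
  {F : κ → Tor N → ℝ} {Λf R r : ℝ}

theorem nrm_sub_comm' (x y : Tor N) : nrm (x - y) = nrm (y - x) := by
  rw [← nrm_neg, neg_sub]

/-- `n² ≤ R² + n⁴ / R²` -/
theorem sq_split (hR : 0 < R) (n : ℝ) : n ^ 2 ≤ R ^ 2 + n ^ 4 / R ^ 2 := by
  have h1 : 0 < R ^ 2 := by positivity
  have h2 : R ^ 2 + n ^ 4 / R ^ 2 - n ^ 2 = ((R ^ 2 - n ^ 2 / 2) ^ 2 + 3 / 4 * (n ^ 2) ^ 2) / R ^ 2 := by
    field_simp
    ring
  have h3 : 0 ≤ ((R ^ 2 - n ^ 2 / 2) ^ 2 + 3 / 4 * (n ^ 2) ^ 2) / R ^ 2 := by positivity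
  linarith

/-- fourth moment at one site (without the absorption of the site) -/
noncomputable def M4x (A : Matrix (Tor N) (Tor N) ℝ) (W : Tor N → ℂ) (x : Tor N) : ℝ :=
  ∑ a, (-(W a).im) * KK A W x a * (nrm (x - a) : ℝ) ^ 4

theorem M4x_nonneg {W : Tor N → ℂ} (hW : ∀ x, (W x).im < 0) (x : Tor N) : 0 ≤ M4x A W x :=
  Finset.sum_nonneg fun a _ => mul_nonneg (mul_nonneg (by linarith [hW a]) (KK_nonneg _ _))
    (by positivity)

theorem sum_e_M4x (W : Tor N → ℂ) : ∑ x, (-(W x).im) * M4x A W x = En4 A W := by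
  unfold M4x En4
  refine Finset.sum_congr rfl fun x _ => ?_
  rw [Finset.mul_sum]
  exact Finset.sum_congr rfl fun a _ => by ring

/-- pathwise: near part and far part -/
theorem sum_Mf_le (hA : A.IsSymm) {W : Tor N → ℂ} (hW : ∀ x, (W x).im < 0)
    (hF : VecLip F Λf) (hR : 0 < R) (x : Tor N) :
    ∑ k, Mf A W (F k) x ≤ Λf ^ 2 * (R ^ 2 * mm A W x + M4x A W x / R ^ 2) := by
  have h1 : ∑ k, Mf A W (F k) x =
      ∑ a, (-(W a).im) * KK A W x a * ∑ k, (F k a - F k x) ^ 2 := by
    unfold Mf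
    rw [Finset.sum_comm]
    exact Finset.sum_congr rfl fun a _ => by rw [Finset.mul_sum]
  have h2 : Λf ^ 2 * (R ^ 2 * mm A W x + M4x A W x / R ^ 2) =
      ∑ a, (-(W a).im) * KK A W x a *
        (Λf ^ 2 * (R ^ 2 + (nrm (x - a) : ℝ) ^ 4 / R ^ 2)) := by
    rw [mm_eq hA hW, M4x, Finset.mul_sum, Finset.sum_div, ← Finset.sum_add_distrib,
      Finset.mul_sum]
    exact Finset.sum_congr rfl fun a _ => by ring
  rw [h1, h2]
  refine Finset.sum_le_sum fun a _ => ?_
  refine mul_le_mul_of_nonneg_left ?_ (mul_nonneg (by linarith [hW a]) (KK_nonneg _ _))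
  refine (hF a x).trans (mul_le_mul_of_nonneg_left ?_ (sq_nonneg _))
  rw [nrm_sub_comm']
  exact sq_split hR _

/-- pathwise static share -/
theorem share_path (hA : A.IsSymm) {W : Tor N → ℂ} (hW : ∀ x, (W x).im < 0)
    (hF : VecLip F Λf) (hR : 0 < R) {u : Tor N → ℝ} (hu0 : ∀ x, 0 ≤ u x)
    (hue : ∀ x, u x ≤ -(W x).im) (mv : Tor N → Prop) [DecidablePred mv] (hr : 0 ≤ r)
    (hmv : ∀ x, mv x → u x ≤ r * -(W x).im) :
    ∑ x, u x * ∑ k, Mf A W (F k) x ≤ r * ∑ k, En A W (F k) +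
      Λf ^ 2 * (R ^ 2 * ∑ x, (if mv x then 0 else u x) * mm A W x + En4 A W / R ^ 2) := by
  have hM0 : ∀ x, 0 ≤ ∑ k, Mf A W (F k) x := fun x =>
    Finset.sum_nonneg fun k _ => Mf_nonneg hW _ _
  have h1 : ∀ x, u x * ∑ k, Mf A W (F k) x ≤ r * ((-(W x).im) * ∑ k, Mf A W (F k) x) +
      Λf ^ 2 * (R ^ 2 * ((if mv x then 0 else u x) * mm A W x) +
        (-(W x).im) * M4x A W x / R ^ 2) := by
    intro x
    have he : 0 ≤ -(W x).im := by linarith [hW x]
    have h4 := M4x_nonneg (A := A) hW x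
    have hm := (mm_pos hA hW x).le
    by_cases h : mv x
    · rw [if_pos h, zero_mul, mul_zero, zero_add]
      have h2 := mul_le_mul_of_nonneg_right (hmv x h) (hM0 x)
      have h3 : 0 ≤ Λf ^ 2 * ((-(W x).im) * M4x A W x / R ^ 2) := by positivity
      calc u x * ∑ k, Mf A W (F k) x ≤ r * -(W x).im * ∑ k, Mf A W (F k) x := h2
        _ = r * ((-(W x).im) * ∑ k, Mf A W (F k) x) := by ring
        _ ≤ _ := le_add_of_nonneg_right h3
    · rw [if_neg h]
      have h2 := mul_le_mul_of_nonneg_left (sum_Mf_le hA hW hF hR x) (hu0 x)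
      have h3 : 0 ≤ r * ((-(W x).im) * ∑ k, Mf A W (F k) x) :=
        mul_nonneg hr (mul_nonneg he (hM0 x))
      have h5 : u x * (M4x A W x / R ^ 2) ≤ (-(W x).im) * (M4x A W x / R ^ 2) :=
        mul_le_mul_of_nonneg_right (hue x) (by positivity)
      have h6 : u x * (Λf ^ 2 * (R ^ 2 * mm A W x + M4x A W x / R ^ 2)) =
          Λf ^ 2 * (R ^ 2 * (u x * mm A W x) + u x * (M4x A W x / R ^ 2)) := by ring
      rw [h6] at h2
      have h7 : Λf ^ 2 * (R ^ 2 * (u x * mm A W x) + u x * (M4x A W x / R ^ 2)) ≤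
          Λf ^ 2 * (R ^ 2 * (u x * mm A W x) + (-(W x).im) * (M4x A W x / R ^ 2)) :=
        mul_le_mul_of_nonneg_left (by linarith) (sq_nonneg _)
      have h8 : (-(W x).im) * M4x A W x / R ^ 2 = (-(W x).im) * (M4x A W x / R ^ 2) := by ring
      rw [h8]
      linarith
  refine (Finset.sum_le_sum fun x _ => h1 x).trans (le_of_eq ?_)
  rw [Finset.sum_add_distrib, ← Finset.mul_sum, ← Finset.mul_sum, Finset.sum_add_distrib,
    ← Finset.mul_sum, ← Finset.sum_div, sum_e_M4x]
  congr 2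
  have h9 : ∀ k, En A W (F k) = ∑ x, (-(W x).im) * Mf A W (F k) x := fun k =>
    En_eq_sum_Mf W (F k)
  rw [Finset.sum_congr rfl fun k _ => h9 k, Finset.sum_comm]
  exact Finset.sum_congr rfl fun x _ => by rw [Finset.mul_sum]

/-! ### averages -/

theorem integrable_mm (hA : A.IsSymm) (m : Measure (Tor N → ℝ)) [IsFiniteMeasure m] (E : ℝ)
    {e : Tor N → ℝ} (he : ∀ x, 0 < e x) (x : Tor N) :
    Integrable (fun v => mm A (WV E e v) x) m := by
  have hW : ∀ v x, (WV E e v x).im < 0 := fun v x => by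
    rw [P365T1.WV_im]
    linarith [he x]
  refine Integrable.mono' (integrable_const (e x)⁻¹) ?_ (Filter.Eventually.of_forall fun v => ?_)
  · have h1 : Measurable fun v : Tor N → ℝ => Gr A (WV E e v) x x :=
      measurable_Gr (fun v : Tor N → ℝ => WV E e v) (fun z => by
        unfold WV
        have h2 : Measurable fun v : Tor N → ℝ => v z := measurable_pi_apply z
        exact (Complex.measurable_ofReal.comp (h2.sub_const _)).sub measurable_const) x x
    exact (Complex.measurable_im.comp h1).aestronglyMeasurable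
  · have h1 := mm_pos hA (hW v) x
    rw [Real.norm_eq_abs, abs_of_pos h1]
    have h2 := e_mul_KK_mul_e_le hA (hW v) x x
    have h3 : mm A (WV E e v) x ^ 2 ≤ KK A (WV E e v) x x := by
      unfold mm KK
      rw [← sq_abs]
      exact pow_le_pow_left₀ (abs_nonneg _) (Complex.abs_im_le_norm _) 2
    have h4 : -(WV E e v x).im = e x := by rw [P365T1.WV_im, neg_neg]
    rw [h4] at h2
    have h5 : (e x * mm A (WV E e v) x) ^ 2 ≤ 1 := by
      have := mul_le_mul_of_nonneg_left h3 (mul_nonneg (he x).le (he x).le)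
      nlinarith
    have h6 : e x * mm A (WV E e v) x ≤ 1 := by
      have h7 : 0 ≤ e x * mm A (WV E e v) x := mul_nonneg (he x).le h1.le
      nlinarith
    rw [← one_div, le_div_iff₀ (he x)]
    linarith

theorem integrable_En4 (hA : A.IsSymm) (m : Measure (Tor N → ℝ)) [IsFiniteMeasure m] (E : ℝ)
    {e : Tor N → ℝ} (he : ∀ x, 0 < e x) :
    Integrable (fun v => En4 A (WV E e v)) m := by
  have hW : ∀ v x, (WV E e v x).im < 0 := fun v x => by
    rw [P365T1.WV_im]
    linarith [he x]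
  unfold En4
  refine integrable_finset_sum _ fun x _ => integrable_finset_sum _ fun y _ => ?_
  refine Integrable.mono' (integrable_const ((nrm (x - y) : ℝ) ^ 4)) ?_
    (Filter.Eventually.of_forall fun v => ?_)
  · have h1 : Measurable fun v : Tor N → ℝ => Gr A (WV E e v) x y :=
      measurable_Gr (fun v : Tor N → ℝ => WV E e v) (fun z => by
        unfold WV
        have h2 : Measurable fun v : Tor N → ℝ => v z := measurable_pi_apply z
        exact (Complex.measurable_ofReal.comp (h2.sub_const _)).sub measurable_const) x y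
    have h3 : ∀ z, Measurable fun v : Tor N → ℝ => -(WV E e v z).im := fun z => by
      simp only [P365T1.WV_im, neg_neg]
      exact measurable_const
    unfold KK
    exact ((((h3 x).mul (h3 y)).mul (h1.norm.pow_const 2)).mul_const _).aestronglyMeasurable
  · have h2 := e_mul_KK_mul_e_le hA (hW v) x y
    have h3 : 0 ≤ (-(WV E e v x).im) * (-(WV E e v y).im) * KK A (WV E e v) x y :=
      mul_nonneg (mul_nonneg (by linarith [hW v x]) (by linarith [hW v y])) (KK_nonneg _ _)
    have h4 : (0 : ℝ) ≤ (nrm (x - y) : ℝ) ^ 4 := by positivity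
    rw [Real.norm_eq_abs, abs_of_nonneg (mul_nonneg h3 h4)]
    calc _ ≤ 1 * (nrm (x - y) : ℝ) ^ 4 := mul_le_mul_of_nonneg_right h2 h4
      _ = _ := one_mul _

section avg

variable {Λ : Type} [Fintype Λ] {p : Λ → ℝ} {ν : Λ → Measure ℝ} {E : ℝ}

open Classical in
/-- **(k4), averaged**: near part (Wegner) and far part (fourth moment) as numbers -/
theorem share_avg (hA : A.IsSymm) [∀ k, IsProbabilityMeasure (ν k)] (hp : ∀ k, 0 ≤ p k)
    {e u : (Tor N → Λ) → Tor N → ℝ} (he : ∀ l x, 0 < e l x) (hF : VecLip F Λf) (hR : 0 < R)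
    (hu0 : ∀ l x, 0 ≤ u l x) (hue : ∀ l x, u l x ≤ e l x) (mv : Λ → Prop) (hr : 0 ≤ r)
    (hmv : ∀ l x, mv (l x) → u l x ≤ r * e l x) {w0 M4 : ℝ}
    (hWeg : AvG p ν E e (fun l W => ∑ x, (if mv (l x) then 0 else u l x) * mm A W x) ≤ w0)
    (hM4 : AvG p ν E e (fun _ W => En4 A W) ≤ M4) :
    AvG p ν E e (fun l W => ∑ x, u l x * ∑ k, Mf A W (F k) x) ≤
      r * PhiG A p ν E F e + Λf ^ 2 * (R ^ 2 * w0 + M4 / R ^ 2) := by
  have hW : ∀ l v x, (WV E (e l) v x).im < 0 := fun l v x => by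
    rw [P365T1.WV_im]
    linarith [he l x]
  have hi1 : ∀ l, Integrable (fun v => ∑ k, En A (WV E (e l) v) (F k))
      (Measure.pi fun x => ν (l x)) := fun l => integrable_sum_En hA _ E (he l) F
  have hi2 : ∀ l : Tor N → Λ, Integrable (fun v => ∑ x, (if mv (l x) then 0 else u l x) *
      mm A (WV E (e l) v) x) (Measure.pi fun x => ν (l x)) := fun l =>
    integrable_finset_sum _ fun x _ => (integrable_mm hA _ E (he l) x).const_mul _
  have hi3 : ∀ l : Tor N → Λ, Integrable (fun v => En4 A (WV E (e l) v))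
      (Measure.pi fun x => ν (l x)) := fun l => integrable_En4 hA _ E (he l)
  have h1 : ∀ l : Tor N → Λ, Ex (fun x => ν (l x)) E (e l)
      (fun W => ∑ x, u l x * ∑ k, Mf A W (F k) x) ≤
      r * Ex (fun x => ν (l x)) E (e l) (fun W => ∑ k, En A W (F k)) +
      Λf ^ 2 * (R ^ 2 * Ex (fun x => ν (l x)) E (e l)
        (fun W => ∑ x, (if mv (l x) then 0 else u l x) * mm A W x) +
        Ex (fun x => ν (l x)) E (e l) (fun W => En4 A W) / R ^ 2) := by
    intro l
    unfold Ex
    have h2 : r * (∫ v, (∑ k, En A (WV E (e l) v) (F k)) ∂(Measure.pi fun x => ν (l x))) +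
        Λf ^ 2 * (R ^ 2 * (∫ v, (∑ x, (if mv (l x) then 0 else u l x) *
          mm A (WV E (e l) v) x) ∂(Measure.pi fun x => ν (l x))) +
        (∫ v, En4 A (WV E (e l) v) ∂(Measure.pi fun x => ν (l x))) / R ^ 2) =
        ∫ v, (r * (∑ k, En A (WV E (e l) v) (F k)) +
          Λf ^ 2 * (R ^ 2 * (∑ x, (if mv (l x) then 0 else u l x) * mm A (WV E (e l) v) x) +
            En4 A (WV E (e l) v) / R ^ 2)) ∂(Measure.pi fun x => ν (l x)) := by
      have hi4 : Integrable (fun v => R ^ 2 * (∑ x, (if mv (l x) then 0 else u l x) *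
          mm A (WV E (e l) v) x) + En4 A (WV E (e l) v) / R ^ 2)
          (Measure.pi fun x => ν (l x)) := ((hi2 l).const_mul _).add ((hi3 l).div_const _)
      rw [integral_add ((hi1 l).const_mul _) (hi4.const_mul _), integral_const_mul,
        integral_const_mul, integral_add ((hi2 l).const_mul _) ((hi3 l).div_const _),
        integral_const_mul, integral_div]
    rw [h2]
    refine integral_mono (integrable_sum_Mf hA _ E (he l) F (u l) (hu0 l)) ?_ fun v => ?_
    · exact ((hi1 l).const_mul _).add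
        ((((hi2 l).const_mul _).add ((hi3 l).div_const _)).const_mul _)
    · refine share_path hA (hW l v) hF hR (hu0 l) (fun x => ?_) (fun x => mv (l x)) hr
        (fun x hx => ?_)
      · rw [P365T1.WV_im, neg_neg]
        exact hue l x
      · rw [P365T1.WV_im, neg_neg]
        exact hmv l x hx
  have h3 : AvG p ν E e (fun l W => ∑ x, u l x * ∑ k, Mf A W (F k) x) ≤
      r * AvG p ν E e (fun _ W => ∑ k, En A W (F k)) +
      Λf ^ 2 * (R ^ 2 * AvG p ν E e
        (fun l W => ∑ x, (if mv (l x) then 0 else u l x) * mm A W x) +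
        AvG p ν E e (fun _ W => En4 A W) / R ^ 2) := by
    unfold AvG
    rw [Finset.mul_sum, Finset.mul_sum, Finset.sum_div, ← Finset.sum_add_distrib,
      Finset.mul_sum, ← Finset.sum_add_distrib]
    refine Finset.sum_le_sum fun l _ => ?_
    refine (mul_le_mul_of_nonneg_left (h1 l)
      (Finset.prod_nonneg fun x _ => hp _)).trans (le_of_eq ?_)
    ring
  refine h3.trans (add_le_add le_rfl (mul_le_mul_of_nonneg_left ?_ (sq_nonneg _)))
  refine add_le_add (mul_le_mul_of_nonneg_left hWeg (sq_nonneg _)) ?_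
  exact div_le_div_of_nonneg_right hM4 (sq_nonneg _)

end avg

end P365V4.Share798
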