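import Vale.Agent.P365.V4.Inst
import Vale.Agent.P365.V4.Datum394
import Vale.Agent.P365.T1.PeelV963
import Vale.Agent.P365.T2.HCparG795

/-!
# P365-T2: the concrete profiles of the chain (own-label floor, two strengths) are admissible

`prof4 D fl i sc sb l x = fl x (l x) + ∑ j ∈ Ico (i+1) (I+1), e0 j * wf j l x + sc * Wc i l x
+ sb * Wb i l x`, with `Wc = e0 i` at the centres of family `i` and
`Wb = t i * Ws i + e0 i * exp (-a i)` at the other moving sites.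
-/

set_option linter.all false

namespace P365V4.H798

open P365L P365SH P365T1 Vale.Agent.P365.J376 Vale.Agent.P365.C937 MeasureTheory Set

/-! ### definitions -/

section defs

variable (D : V3) {N : ℕ} [NeZero N]

open Classical in
/-- centre part of the moving weights of stage `i + 1` -/
noncomputable def Wc (i : ℕ) (l : Tor N → D.Λ) (x : Tor N) : ℝ :=
  if D.cen i l x then D.e0 i else 0

open Classical in
/-- bulk part of the moving weights of stage `i + 1` -/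
noncomputable def Wb (i : ℕ) (l : Tor N → D.Λ) (x : Tor N) : ℝ :=
  D.t i * D.Ws i l x + (if D.mov (l x) ∧ ¬ D.cen i l x then D.e0 i * Real.exp (-(D.a i)) else 0)

/-- static part: own-label floor and the later families -/
noncomputable def us4 (fl : Tor N → D.Λ → ℝ) (i : ℕ) (l : Tor N → D.Λ) (x : Tor N) : ℝ :=
  fl x (l x) + ∑ j ∈ Finset.Ico i (D.I + 1), D.e0 j * D.wf j l x

/-- **the profile of stage `i + 1` with two strengths and an own-label floor** -/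
noncomputable def prof4 (fl : Tor N → D.Λ → ℝ) (i : ℕ) (sc sb : ℝ) (l : Tor N → D.Λ)
    (x : Tor N) : ℝ :=
  us4 D fl (i + 1) l x + sc * Wc D i l x + sb * Wb D i l x

end defs

section gen

variable {D : V3} {ρ : Measure ℝ} {N : ℕ} [NeZero N] {i : ℕ} {l : Tor N → D.Λ} {x : Tor N}
  {fl : Tor N → D.Λ → ℝ} {sc sb : ℝ}

/-- the two parts together are the moving profile of V3 -/
theorem Wc_add_Wb (i : ℕ) (l : Tor N → D.Λ) (x : Tor N) :
    Wc D i l x + Wb D i l x = D.Ws (i + 1) l x := by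
  classical
  unfold Wc Wb
  simp only [V3.Ws, V3.wf]
  by_cases hc : D.cen i l x
  · simp [hc]
    ring
  · by_cases hm : D.mov (l x)
    · simp [hc, hm]
    · simp [hc, hm]

/-- one strength: the profile of V3 -/
theorem prof4_V3 (i : ℕ) (s : ℝ) (l : Tor N → D.Λ) (x : Tor N) :
    prof4 D (fun _ _ => D.b) i s s l x = D.prof (i + 1) s l x := by
  unfold prof4 us4 V3.prof V3.us
  rw [← Wc_add_Wb]
  ring

/-- one strength -/
theorem prof4_same (fl : Tor N → D.Λ → ℝ) (i : ℕ) (s : ℝ) (l : Tor N → D.Λ) (x : Tor N) :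
    prof4 D fl i s s l x = us4 D fl (i + 1) l x + s * D.Ws (i + 1) l x := by
  unfold prof4
  rw [← Wc_add_Wb]
  ring

/-- **link of the stages** -/
theorem prof4_link (fl : Tor N → D.Λ → ℝ) (hi : i < D.I) (l : Tor N → D.Λ) (x : Tor N) :
    prof4 D fl i (D.t (i + 1)) (D.t (i + 1)) l x = prof4 D fl (i + 1) 1 1 l x := by
  rw [prof4_same, prof4_same]
  unfold us4
  rw [Finset.sum_eq_sum_Ico_succ_bot (show i + 1 < D.I + 1 by omega)]
  simp only [V3.Ws]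
  ring

/-- last stage -/
theorem prof4_last (fl : Tor N → D.Λ → ℝ) (s : ℝ) (l : Tor N → D.Λ) (x : Tor N) :
    prof4 D fl D.I s s l x = fl x (l x) + s * D.Ws (D.I + 1) l x := by
  rw [prof4_same]
  simp [us4]

theorem Wc_nonneg (h : D.Ok ρ) (hi : i ≤ D.I) (l : Tor N → D.Λ) (x : Tor N) :
    0 ≤ Wc D i l x := by
  unfold Wc
  split_ifs
  · exact (h.e0_pos i hi).le
  · exact le_rfl

theorem Wb_nonneg (h : D.Ok ρ) (hi : i ≤ D.I) (l : Tor N → D.Λ) (x : Tor N) :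
    0 ≤ Wb D i l x := by
  unfold Wb
  have h1 := h.Ws_nonneg (show i ≤ D.I + 1 by omega) l x
  have h2 := h.t_pos i (by omega)
  have h3 := h.e0_pos i hi
  have h4 := mul_nonneg h2.le h1
  split_ifs
  · have := Real.exp_pos (-(D.a i))
    positivity
  · linarith

theorem Wc_cen (hc : D.cen i l x) : Wc D i l x = D.e0 i := by
  unfold Wc
  rw [if_pos hc]

theorem Wc_of_not (hc : ¬ D.cen i l x) : Wc D i l x = 0 := by
  unfold Wc
  rw [if_neg hc]

theorem Wc_of_not_mov (h : D.Ok ρ) (hi : i ≤ D.I) (hx : ¬ D.mov (l x)) : Wc D i l x = 0 :=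
  Wc_of_not fun hc => hx (h.cen_mov hi hc)

theorem Wb_of_not_mov (h : D.Ok ρ) (hi : i ≤ D.I) (hx : ¬ D.mov (l x)) : Wb D i l x = 0 := by
  unfold Wb
  rw [h.Ws_of_not_mov (by omega) hx, if_neg fun hc => hx hc.1]
  ring

/-- the moving weight of the earlier stages -/
theorem t_mul_Ws_le (h : D.Ok ρ) (hi : i ≤ D.I) (l : Tor N → D.Λ) (x : Tor N) :
    D.t i * D.Ws i l x ≤ D.e0 i * Real.exp (-(D.a i)) := by
  have h3 := h.Ws_le (show i ≤ D.I + 1 by omega) l x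
  have h4 := h.t_pos i (by omega)
  exact (mul_le_mul_of_nonneg_left h3 h4.le).trans (h.t_small i hi)

/-- bulk part at the centres -/
theorem Wb_cen_le (h : D.Ok ρ) (hi : i ≤ D.I) (hc : D.cen i l x) :
    Wb D i l x ≤ D.e0 i * Real.exp (-(D.a i)) := by
  unfold Wb
  rw [if_neg fun hh => hh.2 hc, add_zero]
  exact t_mul_Ws_le h hi l x

/-- bulk part at the other moving sites -/
theorem Wb_bulk (h : D.Ok ρ) (hi : i ≤ D.I) (hm : D.mov (l x)) (hc : ¬ D.cen i l x) :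
    D.e0 i * Real.exp (-(D.a i)) ≤ Wb D i l x ∧
      Wb D i l x ≤ 2 * (D.e0 i * Real.exp (-(D.a i))) := by
  unfold Wb
  rw [if_pos ⟨hm, hc⟩]
  have h1 := t_mul_Ws_le h hi l x
  have h2 := mul_nonneg (h.t_pos i (by omega)).le (h.Ws_nonneg (show i ≤ D.I + 1 by omega) l x)
  constructor <;> linarith

theorem exp_neg_a_le (h : D.Ok ρ) (hi : i ≤ D.I) : Real.exp (-(D.a i)) ≤ 1 :=
  Real.exp_le_one_iff.2 (by linarith [h.a_nonneg i hi])

theorem e0_exp_le (h : D.Ok ρ) (hi : i ≤ D.I) :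
    D.e0 i * Real.exp (-(D.a i)) ≤ D.e0 i :=
  mul_le_of_le_one_right (h.e0_pos i hi).le (exp_neg_a_le h hi)

/-- the moving weights are at most `2 * e0 i` -/
theorem Wcb_le (h : D.Ok ρ) (hi : i ≤ D.I) (l : Tor N → D.Λ) (x : Tor N) :
    Wc D i l x + Wb D i l x ≤ 2 * D.e0 i := by
  have he := h.e0_pos i hi
  have he' := e0_exp_le h hi
  by_cases hm : D.mov (l x)
  · by_cases hc : D.cen i l x
    · have h1 := Wb_cen_le h hi hc
      rw [Wc_cen hc]
      linarith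
    · have h1 := (Wb_bulk h hi hm hc).2
      rw [Wc_of_not hc]
      linarith
  · rw [Wc_of_not_mov h hi hm, Wb_of_not_mov h hi hm]
    linarith

theorem us4_ge (h : D.Ok ρ) (fl : Tor N → D.Λ → ℝ) (i : ℕ) (l : Tor N → D.Λ) (x : Tor N) :
    fl x (l x) ≤ us4 D fl i l x := by
  unfold us4
  refine le_add_of_nonneg_right (Finset.sum_nonneg fun j hj => ?_)
  rw [Finset.mem_Ico] at hj
  exact mul_nonneg (h.e0_pos j (by omega)).le (D.wf_nonneg j l x)

theorem us4_le (h : D.Ok ρ) (fl : Tor N → D.Λ → ℝ) (i : ℕ) (l : Tor N → D.Λ) (x : Tor N) :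
    us4 D fl i l x ≤ fl x (l x) + ∑ j ∈ Finset.Ico i (D.I + 1), D.e0 j := by
  unfold us4
  refine add_le_add le_rfl (Finset.sum_le_sum fun j hj => ?_)
  rw [Finset.mem_Ico] at hj
  have h2 := h.wf_le (show j ≤ D.I by omega) l x
  have h3 := (h.e0_pos j (by omega)).le
  nlinarith

theorem us4_of_not_mov (h : D.Ok ρ) (fl : Tor N → D.Λ → ℝ) (i : ℕ) (hx : ¬ D.mov (l x)) :
    us4 D fl i l x = fl x (l x) := by
  unfold us4
  rw [Finset.sum_eq_zero, add_zero]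
  intro j hj
  rw [Finset.mem_Ico] at hj
  rw [h.wf_of_not_mov (by omega) hx, mul_zero]

theorem prof4_of_not_mov (h : D.Ok ρ) (hi : i ≤ D.I) (fl : Tor N → D.Λ → ℝ) (sc sb : ℝ)
    (hx : ¬ D.mov (l x)) : prof4 D fl i sc sb l x = fl x (l x) := by
  unfold prof4
  rw [us4_of_not_mov h fl (i + 1) hx, Wc_of_not_mov h hi hx, Wb_of_not_mov h hi hx]
  ring

/-- the profile dominates each of its parts -/
theorem prof4_ge_floor (h : D.Ok ρ) (hi : i ≤ D.I) (hsc : 0 ≤ sc) (hsb : 0 ≤ sb)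
    (l : Tor N → D.Λ) (x : Tor N) : fl x (l x) ≤ prof4 D fl i sc sb l x := by
  have h1 := us4_ge h fl (i + 1) l x
  have h2 := mul_nonneg hsc (Wc_nonneg h hi l x)
  have h3 := mul_nonneg hsb (Wb_nonneg h hi l x)
  unfold prof4
  linarith

theorem Wc_mul_le (h : D.Ok ρ) (hi : i ≤ D.I) (hfl : ∀ x k, 0 ≤ fl x k) (hsb : 0 ≤ sb)
    (l : Tor N → D.Λ) (x : Tor N) : sc * Wc D i l x ≤ prof4 D fl i sc sb l x := by
  have h1 := us4_ge h fl (i + 1) l x
  have h3 := mul_nonneg hsb (Wb_nonneg h hi l x)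
  have h4 := hfl x (l x)
  unfold prof4
  linarith

theorem Wb_mul_le (h : D.Ok ρ) (hi : i ≤ D.I) (hfl : ∀ x k, 0 ≤ fl x k) (hsc : 0 ≤ sc)
    (l : Tor N → D.Λ) (x : Tor N) : sb * Wb D i l x ≤ prof4 D fl i sc sb l x := by
  have h1 := us4_ge h fl (i + 1) l x
  have h3 := mul_nonneg hsc (Wc_nonneg h hi l x)
  have h4 := hfl x (l x)
  unfold prof4
  linarith

/-- upper bound -/
theorem prof4_le (h : D.Ok ρ) (hi : i ≤ D.I) (hsc : 0 ≤ sc) (hsc1 : sc ≤ 1) (hsb : 0 ≤ sb)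
    (hsb1 : sb ≤ 1) {b' ε : ℝ} (hfl : ∀ x k, fl x k ≤ b')
    (hε : b' + (∑ j ∈ Finset.Ico (i + 1) (D.I + 1), D.e0 j) + 2 * D.e0 i ≤ ε)
    (l : Tor N → D.Λ) (x : Tor N) : prof4 D fl i sc sb l x ≤ ε := by
  have h1 := us4_le h fl (i + 1) l x
  have h2 := Wc_nonneg h hi l x
  have h3 := Wb_nonneg h hi l x
  have h4 := Wcb_le h hi l x
  have h5 := hfl x (l x)
  have h6 : sc * Wc D i l x ≤ 1 * Wc D i l x := mul_le_mul_of_nonneg_right hsc1 h2
  have h7 : sb * Wb D i l x ≤ 1 * Wb D i l x := mul_le_mul_of_nonneg_right hsb1 h3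
  unfold prof4
  linarith

/-- lower bound at the centres -/
theorem prof4_cen_ge (h : D.Ok ρ) (hi : i ≤ D.I) (hfl : ∀ x k, 0 ≤ fl x k) (hsb : 0 ≤ sb)
    (hc : D.cen i l x) : sc * D.e0 i ≤ prof4 D fl i sc sb l x := by
  have h1 := Wc_mul_le (sc := sc) h hi hfl hsb l x
  rwa [Wc_cen hc] at h1

/-- lower bound at the moving sites -/
theorem prof4_mov_ge (h : D.Ok ρ) (hi : i ≤ D.I) (hfl : ∀ x k, 0 ≤ fl x k) (hsb : 0 ≤ sb)
    (hbc : sb ≤ sc) (hm : D.mov (l x)) :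
    sb * (D.e0 i * Real.exp (-(D.a i))) ≤ prof4 D fl i sc sb l x := by
  have he := h.e0_pos i hi
  by_cases hc : D.cen i l x
  · refine le_trans ?_ (prof4_cen_ge h hi hfl hsb hc)
    exact mul_le_mul hbc (e0_exp_le h hi) (by positivity) (hsb.trans hbc)
  · refine le_trans ?_ (Wb_mul_le h hi hfl (hsb.trans hbc) l x)
    exact mul_le_mul_of_nonneg_left (Wb_bulk h hi hm hc).1 hsb

/-- the profile depends on the own label and on the centres only -/
theorem prof4_loc (hi : i ≤ D.I) (fl : Tor N → D.Λ → ℝ) (sc sb : ℝ) {l l' : Tor N → D.Λ}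
    (hl : l x = l' x) (hc : ∀ j ≤ D.I, (D.cen j l x ↔ D.cen j l' x)) :
    prof4 D fl i sc sb l x = prof4 D fl i sc sb l' x := by
  classical
  have h1 : us4 D fl (i + 1) l x = us4 D fl (i + 1) l' x := by
    unfold us4
    rw [hl]
    congr 1
    refine Finset.sum_congr rfl fun j hj => ?_
    rw [Finset.mem_Ico] at hj
    rw [P365T1.Peel.wf_congr hl (hc j (by omega))]
  have h2 : Wc D i l x = Wc D i l' x := by
    unfold Wc
    by_cases h : D.cen i l x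
    · rw [if_pos h, if_pos ((hc i hi).1 h)]
    · rw [if_neg h, if_neg fun h' => h ((hc i hi).2 h')]
  have h3 : D.Ws (i + 1) l x = D.Ws (i + 1) l' x :=
    P365T1.Peel.Ws_congr hl (fun j hj => hc j hj) (by omega)
  have h4 : Wb D i l x = Wb D i l' x := by
    have e1 := Wc_add_Wb (D := D) i l x
    have e2 := Wc_add_Wb (D := D) i l' x
    linarith
  unfold prof4
  rw [h1, h2, h4]

/-- **the profile is admissible** -/
theorem prof4_prf (h : D.Ok ρ) (hi : i ≤ D.I) (hfl : ∀ x k, 0 < fl x k) {b' b1 ε : ℝ}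
    (hfl' : ∀ x k, fl x k ≤ b') (hfn : ∀ x k, ¬ D.mov k → fl x k ≤ b1)
    (hε : b' + (∑ j ∈ Finset.Ico (i + 1) (D.I + 1), D.e0 j) + 2 * D.e0 i ≤ ε)
    (hsb : 0 ≤ sb) (hbc : sb ≤ sc) (hsc1 : sc ≤ 1) :
    Prf D N i sb sc ε b1 (prof4 D fl i sc sb) where
  pos := fun l x => (hfl x (l x)).trans_le (prof4_ge_floor h hi (hsb.trans hbc) hsb l x)
  le := fun l x => prof4_le h hi (hsb.trans hbc) hsc1 hsb (hbc.trans hsc1) hfl' hε l x
  loc := fun l l' x hl hc => prof4_loc hi fl sc sb hl hc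
  mov_ge := fun l x hm => prof4_mov_ge h hi (fun x k => (hfl x k).le) hsb hbc hm
  cen_ge := fun l x hc => prof4_cen_ge h hi (fun x k => (hfl x k).le) hsb hc
  nm_le := fun l x hm => by
    rw [prof4_of_not_mov h hi fl sc sb hm]
    exact hfn x _ hm

/-! ### the directions of `hub_gen` -/

/-- direction `Ws (i+1)` (one strength) -/
theorem Ws_dir_cen (h : D.Ok ρ) (hi : i ≤ D.I) (hfl : ∀ x k, 0 ≤ fl x k) (hsb : 0 ≤ sb)
    (hbc : sb ≤ sc) (l : Tor N → D.Λ) (x : Tor N) :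
    sb * D.Ws (i + 1) l x ≤ prof4 D fl i sc sb l x := by
  rw [← Wc_add_Wb]
  have h1 := us4_ge h fl (i + 1) l x
  have h4 := hfl x (l x)
  have h5 : sb * Wc D i l x ≤ sc * Wc D i l x :=
    mul_le_mul_of_nonneg_right hbc (Wc_nonneg h hi l x)
  unfold prof4
  linarith

theorem Ws_dir_bulk (h : D.Ok ρ) (hi : i ≤ D.I) (hm : D.mov (l x)) (hc : ¬ D.cen i l x) :
    D.Ws (i + 1) l x ≤ 2 * (D.e0 i * Real.exp (-(D.a i))) := (h.Ws_bulk hi hm hc).2

/-- direction `Wb` at the centres -/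
theorem Wb_dir_cen (h : D.Ok ρ) (hi : i ≤ D.I) (hfl : ∀ x k, 0 ≤ fl x k) (hsb : 0 ≤ sb)
    (hsc : 0 ≤ sc) (hc : D.cen i l x) : sc * Wb D i l x ≤ prof4 D fl i sc sb l x := by
  refine le_trans (mul_le_mul_of_nonneg_left ?_ hsc) (prof4_cen_ge h hi hfl hsb hc)
  exact (Wb_cen_le h hi hc).trans (e0_exp_le h hi)

/-- support bound from a bound of the profile -/
theorem supp_of_le {ν : Measure ℝ} {lam E P Q : ℝ} (hν : ν (Icc (-lam) lam)ᶜ = 0) (hP : P ≤ Q) :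
    ∀ᵐ u ∂ν, |u - E| + P ≤ lam + |E| + Q := by
  rw [ae_iff]
  refine measure_mono_null ?_ hν
  intro u hu hu'
  refine hu ?_
  have h1 : |u| ≤ lam := abs_le.2 hu'
  have h2 : |u - E| ≤ |u| + |E| := abs_sub _ _
  linarith

/-- support bound for every admissible profile -/
theorem supp_prf {ε b1 : ℝ} {e : (Tor N → D.Λ) → Tor N → ℝ} (he : Prf D N i sb sc ε b1 e)
    {lam Q : ℝ} (hε : ε ≤ Q) (hν : ∀ k, D.ν k (Icc (-lam) lam)ᶜ = 0) (E : ℝ)
    (l : Tor N → D.Λ) (k : D.Λ) (z : Tor N) :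
    ∀ᵐ u ∂(D.ν k), |u - E| + e l z ≤ lam + |E| + Q :=
  supp_of_le (hν k) ((he.le l z).trans hε)

end gen

/-! ### 509's `V4` -/

section V4

variable {N : ℕ} [NeZero N] {D : V4 N} {ρ : Measure ℝ} {i : ℕ} {sc sb : ℝ}

/-- the profile of `V4` is `prof4` -/
theorem V4_prof (D : V4 N) (i : ℕ) (sc sb : ℝ) :
    D.prof i sc sb = prof4 D.toV3 (fun x k => D.β k x) i sc sb := by
  funext l x
  unfold V4.prof V4.us prof4 us4 V4.Wc V4.Wb Wc Wb
  rfl

/-- sharp form of `V4.Ok.prf`: own bound `b1` of the floor at the sites which do not move -/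
theorem V4_prf (h : D.Ok ρ) (hi : i ≤ D.I) {b1 ε : ℝ} (hfn : ∀ x k, ¬ D.mov k → D.β k x ≤ b1)
    (hε : D.b' + (∑ j ∈ Finset.Ico (i + 1) (D.I + 1), D.e0 j) + 2 * D.e0 i ≤ ε)
    (hsb : 0 ≤ sb) (hbc : sb ≤ sc) (hsc1 : sc ≤ 1) :
    Prf D.toV3 N i sb sc ε b1 (D.prof i sc sb) := by
  rw [V4_prof]
  exact prof4_prf h.toOk hi (fun x k => h.b_pos.trans_le (h.floor_ge k x))
    (fun x k => h.floor_le k x) hfn hε hsb hbc hsc1

end V4

/-! ### the concrete chain, base `β` -/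

section DD

open P365V4.Datum P365T2.SeqG P365T1.Conc

variable {β : ℕ} [Fact (2 ≤ β)] {yf : ℕ → ℤ × ℤ} {rs I : ℕ} {ρ : Measure ℝ}
  {p : (P4 β yf rs I).Lb → ℝ} {ν : (P4 β yf rs I).Lb → Measure ℝ} {N : ℕ} [NeZero N] {i : ℕ}
  {fl : Tor N → (D4 p ν).Λ → ℝ} {sc sb b1 : ℝ}

theorem three_exp_le (hrs : 2 ≤ rs) (i : ℕ) : 3 * e0S β rs i ≤ 1 / 2 := by
  have h1 := two_le_cast_rr (β := β) hrs i
  have h2 : e0S β rs i ≤ Real.exp (-2) := Real.exp_le_exp.2 (by linarith)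
  have h3 : Real.exp (-2) * 6 ≤ 1 := by
    have h4 : (2.7 : ℝ) ≤ Real.exp 1 := by
      have := Real.exp_one_gt_d9
      linarith
    have h5 : (6 : ℝ) ≤ Real.exp 2 := by
      have h6 : Real.exp 2 = Real.exp 1 * Real.exp 1 := by rw [← Real.exp_add]; norm_num
      rw [h6]
      nlinarith
    rw [Real.exp_neg, ← div_eq_inv_mul, div_le_one (Real.exp_pos _)]
    exact h5
  linarith

/-- **the concrete profile is admissible**: `ε = 3 exp (-(r i)) ≤ 1/2`, floor at most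
`exp (-(r (I+1)))` -/
theorem prof4_D4 (hrs : 2 ≤ rs) (h : (D4 p ν).Ok ρ) (hi : i ≤ I) (hfl : ∀ x k, 0 < fl x k)
    (hfl' : ∀ x k, fl x k ≤ e0S β rs (I + 1)) (hfn : ∀ x k, ¬ (D4 p ν).mov k → fl x k ≤ b1)
    (hsb : 0 ≤ sb) (hbc : sb ≤ sc) (hsc1 : sc ≤ 1) :
    Prf (D4 p ν) N i sb sc (3 * e0S β rs i) b1 (prof4 (D4 p ν) fl i sc sb) := by
  refine prof4_prf h (show i ≤ (D4 p ν).I from hi) hfl hfl' hfn ?_ hsb hbc hsc1
  have h1 := P365T2.HCnumG.tail_e0S_floor (β := β) hrs hi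
  show e0S β rs (I + 1) + (∑ j ∈ Finset.Ico (i + 1) (I + 1), e0S β rs j) + 2 * e0S β rs i ≤
    3 * e0S β rs i
  linarith

/-- the same for `V4` over the concrete chain -/
theorem V4_D4 (hrs : 2 ≤ rs) (h : (D4 p ν).Ok ρ) (hi : i ≤ I) {X : Finset (Tor N)}
    {fl' : (D4 p ν).Λ → Tor N → ℝ} {b' : ℝ} (hfl : ∀ k x, 0 < fl' k x)
    (hfl' : ∀ k x, fl' k x ≤ e0S β rs (I + 1)) (hfn : ∀ k x, ¬ (D4 p ν).mov k → fl' k x ≤ b1)
    (hsb : 0 ≤ sb) (hbc : sb ≤ sc) (hsc1 : sc ≤ 1) :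
    Prf (D4 p ν) N i sb sc (3 * e0S β rs i) b1
      (V4.prof (N := N) { toV3 := D4 p ν, X := X, β := fl', b' := b' } i sc sb) := by
  rw [V4_prof]
  exact prof4_D4 hrs h hi (fun x k => hfl k x) (fun x k => hfl' k x) (fun x k => hfn k x) hsb hbc
    hsc1

/-- lower bound at the moving sites on the whole stage -/
theorem prof4_D4_ge (hrs : 2 ≤ rs) (h : (D4 p ν).Ok ρ) (hi : i ≤ I) (hfl : ∀ x k, 0 ≤ fl x k)
    (hsb : tS β rs I (i + 1) ≤ sb) (hbc : sb ≤ sc) {l : Tor N → (D4 p ν).Λ} {z : Tor N}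
    (hz : (D4 p ν).mov (l z)) :
    Real.exp (-(8 * (rr β rs i : ℝ) ^ (5 * β))) ≤ prof4 (D4 p ν) fl i sc sb l z := by
  have h0 : 0 ≤ sb := (tS_pos rs I (i + 1)).le.trans hsb
  refine ((own_ge hrs hi).trans ?_).trans
    (prof4_mov_ge h (show i ≤ (D4 p ν).I from hi) hfl h0 hbc hz)
  have h1 : 0 ≤ e0S β rs i * Real.exp (-(aS β rs i)) :=
    mul_nonneg (e0S_pos rs i).le (Real.exp_pos _).le
  exact mul_le_mul_of_nonneg_right hsb h1

end DD

end P365V4.H798
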