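import Vale.Agent.P365.V4.Supp798

/-!
# P365-T2 (N3): admissible profiles for every datum with strengths `e0S β rs`, floor at most
`exp (-(r I))` (free background `b`)
-/

set_option linter.all false

namespace P365V4.H798

open P365L P365SH P365T1 Vale.Agent.P365.J376 Vale.Agent.P365.C937 MeasureTheory Set
open P365V4.Datum P365T2.SeqG P365T1.Conc

variable {β : ℕ} [Fact (2 ≤ β)] {rs I i : ℕ}

/-- sum of the strengths and one more last strength -/
theorem sum_e0S_lastI (hrs : 2 ≤ rs) (hi : i ≤ I) :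
    ∑ j ∈ Finset.Ico i (I + 1), e0S β rs j + e0S β rs I ≤ 2 * e0S β rs i := by
  obtain ⟨d, hd⟩ : ∃ d, I = i + d := ⟨I - i, by omega⟩
  induction d generalizing i with
  | zero =>
    have : i = I := by omega
    subst this
    rw [Finset.sum_eq_sum_Ico_succ_bot (show i < i + 1 by omega)]
    simp only [Finset.Ico_self, Finset.sum_empty, add_zero]
    linarith
  | succ d ih =>
    rw [Finset.sum_eq_sum_Ico_succ_bot (show i < I + 1 by omega)]
    have h1 := ih (i := i + 1) (by omega) (by omega)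
    have h2 := e0S_succ (β := β) hrs i
    linarith

/-- tail of the strengths and a floor at most `e0S I` -/
theorem tail_e0S_I (hrs : 2 ≤ rs) (hi : i ≤ I) :
    ∑ j ∈ Finset.Ico (i + 1) (I + 1), e0S β rs j + e0S β rs I ≤ e0S β rs i := by
  rcases Nat.lt_or_ge i I with h | h
  · exact (sum_e0S_lastI (β := β) hrs (show i + 1 ≤ I by omega)).trans (e0S_succ hrs i)
  · have : i = I := by omega
    subst this
    simp

/-- the numerical hypothesis of `V4_prf`, `prof4_prf` with `ε = 3 * e0S i` -/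
theorem eps_e0S (hrs : 2 ≤ rs) (hi : i ≤ I) {b' : ℝ} (hb : b' ≤ e0S β rs I) :
    b' + (∑ j ∈ Finset.Ico (i + 1) (I + 1), e0S β rs j) + 2 * e0S β rs i ≤ 3 * e0S β rs i := by
  have := tail_e0S_I (β := β) hrs hi
  linarith

section gen

variable {D : V3} {ρ : Measure ℝ} {N : ℕ} [NeZero N] {fl : Tor N → D.Λ → ℝ} {sc sb b1 : ℝ}

/-- **admissible, any datum with the strengths `e0S`**; floor at most `e0S I` -/
theorem prf_seq (h : D.Ok ρ) (he : ∀ j ≤ D.I, D.e0 j = e0S β rs j) (hrs : 2 ≤ rs)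
    (hi : i ≤ D.I) (hfl : ∀ x k, 0 < fl x k) (hfl' : ∀ x k, fl x k ≤ e0S β rs D.I)
    (hfn : ∀ x k, ¬ D.mov k → fl x k ≤ b1) (hsb : 0 ≤ sb) (hbc : sb ≤ sc) (hsc1 : sc ≤ 1) :
    Prf D N i sb sc (3 * e0S β rs i) b1 (prof4 D fl i sc sb) := by
  refine prof4_prf h hi hfl hfl' hfn ?_ hsb hbc hsc1
  rw [he i hi, Finset.sum_congr rfl fun j hj => he j (by
    have := Finset.mem_Ico.1 hj
    omega)]
  exact eps_e0S hrs hi le_rfl

/-- the profile is at most `1 / 2` -/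
theorem prf_half {e : (Tor N → D.Λ) → Tor N → ℝ} (hrs : 2 ≤ rs)
    (he : Prf D N i sb sc (3 * e0S β rs i) b1 e) (l : Tor N → D.Λ) (z : Tor N) :
    e l z ≤ 1 / 2 := (he.le l z).trans (three_exp_le hrs i)

/-- lower bound at the moving sites on the whole stage, any datum -/
theorem prf_mov_ge {e : (Tor N → D.Λ) → Tor N → ℝ} {ε T : ℝ} (h : D.Ok ρ) (hi : i ≤ D.I)
    (he : Prf D N i sb sc ε b1 e) (hsb : D.t (i + 1) ≤ sb)
    (hT : Real.exp (-T) ≤ D.t (i + 1) * (D.e0 i * Real.exp (-(D.a i)))) {l : Tor N → D.Λ}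
    {z : Tor N} (hz : D.mov (l z)) : Real.exp (-T) ≤ e l z := by
  refine hT.trans (le_trans ?_ (he.mov_ge l z hz))
  have h1 : 0 ≤ D.e0 i * Real.exp (-(D.a i)) :=
    mul_nonneg (h.e0_pos i hi).le (Real.exp_pos _).le
  exact mul_le_mul_of_nonneg_right hsb h1

/-- support bound with `Q = 1` for the profiles with `ε = 3 * e0S i` -/
theorem supp_seq {e : (Tor N → D.Λ) → Tor N → ℝ} (hrs : 2 ≤ rs)
    (he : Prf D N i sb sc (3 * e0S β rs i) b1 e) {lam : ℝ}
    (hν : ∀ k, D.ν k (Icc (-lam) lam)ᶜ = 0) (E : ℝ) (l : Tor N → D.Λ) (k : D.Λ) (z : Tor N) :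
    ∀ᵐ u ∂(D.ν k), |u - E| + e l z ≤ lam + |E| + 1 := by
  have h1 : 3 * e0S β rs i ≤ 1 := (three_exp_le (β := β) hrs i).trans (by norm_num)
  exact supp_prf he h1 hν E l k z

end gen

section V4

variable {N : ℕ} [NeZero N] {D : V4 N} {ρ : Measure ℝ} {sc sb b1 : ℝ}

/-- **`V4` over any datum with the strengths `e0S`, floor at most `e0S I`** -/
theorem V4_seq (h : D.Ok ρ) (he : ∀ j ≤ D.I, D.e0 j = e0S β rs j) (hrs : 2 ≤ rs)
    (hi : i ≤ D.I) (hb' : D.b' ≤ e0S β rs D.I) (hfn : ∀ x k, ¬ D.mov k → D.β k x ≤ b1)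
    (hsb : 0 ≤ sb) (hbc : sb ≤ sc) (hsc1 : sc ≤ 1) :
    Prf D.toV3 N i sb sc (3 * e0S β rs i) b1 (D.prof i sc sb) := by
  refine V4_prf h hi hfn ?_ hsb hbc hsc1
  rw [he i hi, Finset.sum_congr rfl fun j hj => he j (by
    have := Finset.mem_Ico.1 hj
    omega)]
  exact eps_e0S hrs hi hb'

end V4

/-! ### own-label floor of the leads: `b` everywhere, `b + k x` at the moving sites -/

section lead

variable {D : V3} {N : ℕ} [NeZero N]

open Classical in
/-- floor `b + k x 1{mov}` -/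
noncomputable def leadFl (D : V3) {N : ℕ} (b : ℝ) (k : Tor N → ℝ) (x : Tor N) (a : D.Λ) : ℝ :=
  b + if D.mov a then k x else 0

theorem leadFl_pos {b : ℝ} (hb : 0 < b) {k : Tor N → ℝ} (hk : ∀ x, 0 ≤ k x) (x : Tor N)
    (a : D.Λ) : 0 < leadFl D b k x a := by
  unfold leadFl
  split_ifs
  · linarith [hk x]
  · linarith

theorem leadFl_le {b c : ℝ} {k : Tor N → ℝ} (hk : ∀ x, k x ≤ c) (hc : 0 ≤ c) (x : Tor N)
    (a : D.Λ) : leadFl D b k x a ≤ b + c := by
  unfold leadFl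
  split_ifs
  · linarith [hk x]
  · linarith

theorem leadFl_of_not_mov {b : ℝ} {k : Tor N → ℝ} (x : Tor N) {a : D.Λ} (ha : ¬ D.mov a) :
    leadFl D b k x a = b := by
  unfold leadFl
  rw [if_neg ha, add_zero]

/-- the profile with label leads is admissible with `b1 = b` -/
theorem prf_lead {β : ℕ} [Fact (2 ≤ β)] {rs i : ℕ} {ρ : Measure ℝ} {sc sb b c : ℝ}
    (h : D.Ok ρ) (he : ∀ j ≤ D.I, D.e0 j = e0S β rs j) (hrs : 2 ≤ rs) (hi : i ≤ D.I)
    (hb : 0 < b) (hc : 0 ≤ c) {k : Tor N → ℝ} (hk : ∀ x, 0 ≤ k x) (hkc : ∀ x, k x ≤ c)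
    (hbc' : b + c ≤ e0S β rs D.I) (hsb : 0 ≤ sb) (hbc : sb ≤ sc) (hsc1 : sc ≤ 1) :
    Prf D N i sb sc (3 * e0S β rs i) b (prof4 D (leadFl D b k) i sc sb) :=
  prf_seq h he hrs hi (leadFl_pos hb hk) (fun x a => (leadFl_le hkc hc x a).trans hbc')
    (fun x a ha => (leadFl_of_not_mov x ha).le) hsb hbc hsc1

end lead

end P365V4.H798
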