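import Vale.Agent.P365.V4.HCD4_795

/-!
# P365-T2: the concrete world `W4` = datum `D4` + domain + floor; hubs of the concrete profiles
-/

set_option linter.all false

namespace P365V4.Datum

open P365L P365L.TL P365SH Vale.Agent.P365.C937 Vale.Agent.P365.J376 MeasureTheory Set
open P365T1 P365T1.Lab37 P365T1.Bump P365T1.Link P365T2 P365T2.SeqG P365T2.HCnumG
open P365T1.Conc (Par APar mk pat_y tau0 tau0_pos tau0_le l0_pos l0_lt two_l0_le CaS CaS_nonneg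
  cost_nuS_le nuB_ae mem_Xr_of_abs)
open scoped ENNReal

/-- the concrete world: datum `D4`, domain `X`, floor `fl` (own label, site), bound `b'` of the
floor -/
noncomputable def W4 {β : ℕ} {yf : ℕ → ℤ × ℤ} {rs I : ℕ} (p : (P4 β yf rs I).Lb → ℝ)
    (ν : (P4 β yf rs I).Lb → Measure ℝ) {N : ℕ} [NeZero N] (X : Finset (Tor N))
    (fl : (P4 β yf rs I).Lb → Tor N → ℝ) (b' : ℝ) : V4 N where
  toV3 := D4 p ν
  X := X
  β := fl
  b' := b'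

section

variable {β : ℕ} {yf : ℕ → ℤ × ℤ} {rs I : ℕ} {ρ : Measure ℝ} {p : (P4 β yf rs I).Lb → ℝ}
  {ν : (P4 β yf rs I).Lb → Measure ℝ} {N : ℕ} [NeZero N] {X : Finset (Tor N)}
  {fl : (P4 β yf rs I).Lb → Tor N → ℝ} {b' : ℝ}

theorem W4_toV3 : (W4 p ν X fl b').toV3 = D4 p ν := rfl
theorem W4_X : (W4 p ν X fl b').X = X := rfl
theorem W4_β : (W4 p ν X fl b').β = fl := rfl
theorem W4_b' : (W4 p ν X fl b').b' = b' := rfl

variable [hβ : Fact (2 ≤ β)]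

theorem W4_ok (hrs : 2 ≤ rs) (hy : ∀ r, rs ≤ r → yf r ∈ Xr r) (h : Lw4 ρ p ν)
    (hfl : ∀ k x, bS β rs I ≤ fl k x ∧ fl k x ≤ b') (hX : BlkU (mS β rs I) X) :
    (W4 p ν X fl b').Ok ρ where
  toOk := D4_ok hrs hy h
  floor_ge := fun k x => (hfl k x).1
  floor_le := fun k x => (hfl k x).2
  dom := fun i hi x y hxy => (hX.dvd (mS_dvd (β := β) rs hi)) x y hxy

/-- the concrete profile is admissible with `ε = 4 exp (-r_i)`, `b1 = b'` -/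
theorem W4_prf (hrs : 2 ≤ rs) (hok : (W4 p ν X fl b').Ok ρ)
    (hb' : b' ≤ Real.exp (-(rr β rs I : ℝ))) {i : ℕ} (hi : i ≤ I) {sc sb : ℝ} (hsb : 0 < sb)
    (hcb : sb ≤ sc) (hsc1 : sc ≤ 1) :
    Prf (D4 p ν) N i sb sc (4 * Real.exp (-(rr β rs i : ℝ))) b'
      ((W4 p ν X fl b').prof i sc sb) := by
  have h1 := hok.prf (i := i) hi hsb hcb hsc1
  refine Prf.mono h1 (e0S_pos rs i).le le_rfl le_rfl ?_ le_rfl
  have h2 := tail_floor β hrs hi (b' := b') hb'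
  show b' + ∑ j ∈ Finset.Ico (i + 1) (I + 1), e0S β rs j + 3 * e0S β rs i ≤ _
  have h3 : e0S β rs i = Real.exp (-(rr β rs i : ℝ)) := rfl
  rw [← h3]
  linarith

end

/-- **(HC4) for the concrete world and its profiles**: all rates, all pairs of strengths -/
theorem hc_W4 (β : ℕ) [hβ : Fact (2 ≤ β)] {lam E l : ℝ} (hlam : 0 < lam) (hE : |E| < 4 + lam)
    (hl : 0 < l) (hl2 : 2 * l ≤ lam) :
    ∃ (lam' : ℝ) (yf : ℕ → ℤ × ℤ) (Vsf : ℕ → ℤ × ℤ → ℝ) (R₀ : ℕ), 0 < lam' ∧ lam' < lam ∧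
      2 ≤ R₀ ∧ (∀ r, R₀ ≤ r → yf r ∈ Xr r) ∧ (∀ r z, |Vsf r z| ≤ lam') ∧
      ∀ n : ℕ, ∃ R : ℕ, R₀ ≤ R ∧
      ∀ rs, R ≤ rs → ∀ (I : ℕ) (ρ : Measure ℝ) (p : (P4 β yf rs I).Lb → ℝ)
        (ν : (P4 β yf rs I).Lb → Measure ℝ), Lw4 ρ p ν →
        (∀ k, (D4 p ν).mov k → ν k = nuS lam l) →
        (∀ (i : ℕ) (hi : i ≤ I)
          (z : ((Xr (rr β rs i)).erase (yf (rr β rs i)) : Finset (ℤ × ℤ))),
          ν ((P4 β yf rs I).win ⟨⟨i, Nat.lt_succ_of_le hi⟩, z⟩) =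
            nuB (Vsf (rr β rs i) z) (Real.exp (-(rr β rs i : ℝ)))) →
        ∀ (N : ℕ) [NeZero N], mS β rs I ∣ N → ∀ (X : Finset (Tor N))
          (fl : (P4 β yf rs I).Lb → Tor N → ℝ) (b' : ℝ), BlkU (mS β rs I) X →
          (∀ k x, bS β rs I ≤ fl k x ∧ fl k x ≤ b') → b' ≤ Real.exp (-(rr β rs I : ℝ)) →
          ∀ i ≤ I, ∀ sc sb : ℝ, tS β rs I (i + 1) ≤ sb → sb ≤ sc → sc ≤ 1 →
            Vale.Agent.P365.J376.HC4 (D4 p ν) N X E ((W4 p ν X fl b').prof i sc sb) i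
              (1 / (rr β rs i : ℝ) ^ n) := by
  obtain ⟨lam', yf, Vsf, R₀, h1, h2, h3, h4, h5, h⟩ := hc_D4 β hlam hE hl hl2
  refine ⟨lam', yf, Vsf, R₀, h1, h2, h3, h4, h5, fun n => ?_⟩
  obtain ⟨R, hR, h⟩ := h n
  refine ⟨R, hR, ?_⟩
  intro rs hrs I ρ p ν hL hmov hwin N _ hN X fl b' hX hfl hb' i hi sc sb hsb hcb hsc
  have hrs2 : 2 ≤ rs := by omega
  have hok : (W4 p ν X fl b').Ok ρ :=
    W4_ok hrs2 (fun r hr => h4 r (by omega)) hL hfl hX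
  have hb0 : 0 ≤ b' := hok.b'_pos.le
  refine h rs hrs I ρ p ν hL hmov hwin N (fun i hi => (mS_dvd (β := β) rs hi).trans hN) X i hi
    (hX.dvd (mS_dvd (β := β) rs hi)) sb sc (4 * Real.exp (-(rr β rs i : ℝ))) b' _
    (W4_prf hrs2 hok hb' hi ((tS_pos rs I (i + 1)).trans_le hsb) hcb hsc) hsb le_rfl hb0 ?_
  refine hb'.trans (Real.exp_le_exp.2 ?_)
  have h6 : rr β rs i ≤ rr β rs I := rr_mono (by omega) hi
  have h7 : (rr β rs i : ℝ) ≤ rr β rs I := by exact_mod_cast h6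
  linarith

end P365V4.Datum
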